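import Mathlib

/-! P036, quadratic-field route, block LS: the local set.

Labels are the elements of the cubic extension `GaloisField l 3` of `ZMod l`; the two
antisymmetric functions are `N(a-b)` and `N(a-b)^3`; both are of finite rank (independent of `l`),
and `x + y + z = 0`, `x^3 + y^3 + z^3 = 0` force `3xyz = 0`. -/

namespace Vale.Agent.P036.QF.LS

open Finset

/-- skew form of finite rank attached to two families of functions -/
def skew {R X ι : Type*} [CommRing R] [Fintype ι] (u v : X → ι → R) (a b : X) : R :=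
  ∑ j, (u a j * v b j - v a j * u b j)

theorem skew_antisymm {R X ι : Type*} [CommRing R] [Fintype ι] (u v : X → ι → R) (a b : X) :
    skew u v b a = - skew u v a b := by
  unfold skew
  rw [← Finset.sum_neg_distrib]
  exact Finset.sum_congr rfl fun j _ => by ring

/-- first family for the cube -/
def cubeU {R X ι : Type*} [CommRing R] (u v : X → ι → R) (a : X) : ι × ι × ι × Fin 4 → R
  | (i, j, k, 0) => u a i * u a j * u a k
  | (i, j, k, 1) => u a i * v a j * v a k
  | (i, j, k, 2) => v a i * u a j * v a k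
  | (i, j, k, 3) => v a i * v a j * u a k

/-- second family for the cube -/
def cubeV {R X ι : Type*} [CommRing R] (u v : X → ι → R) (a : X) : ι × ι × ι × Fin 4 → R
  | (i, j, k, 0) => v a i * v a j * v a k
  | (i, j, k, 1) => v a i * u a j * u a k
  | (i, j, k, 2) => u a i * v a j * u a k
  | (i, j, k, 3) => u a i * u a j * v a k

theorem skew_cube {R X ι : Type*} [CommRing R] [Fintype ι] (u v : X → ι → R) (a b : X) :
    skew (cubeU u v) (cubeV u v) a b = (skew u v a b) ^ 3 := by
  have h3 : (skew u v a b) ^ 3 = ∑ i, ∑ j, ∑ k,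
      (u a i * v b i - v a i * u b i) * ((u a j * v b j - v a j * u b j) *
        (u a k * v b k - v a k * u b k)) := by
    rw [pow_succ, pow_two, mul_assoc]
    unfold skew
    rw [Finset.sum_mul_sum, Finset.sum_mul_sum]
    refine Finset.sum_congr rfl fun i _ => ?_
    rw [← Finset.mul_sum]
    rw [Finset.mul_sum]
    refine Finset.sum_congr rfl fun j _ => ?_
    rw [Finset.mul_sum]
  rw [h3]
  unfold skew
  rw [Fintype.sum_prod_type]
  refine Finset.sum_congr rfl fun i _ => ?_
  rw [Fintype.sum_prod_type]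
  refine Finset.sum_congr rfl fun j _ => ?_
  rw [Fintype.sum_prod_type]
  refine Finset.sum_congr rfl fun k _ => ?_
  rw [Fin.sum_univ_four]
  simp only [cubeU, cubeV]
  ring

/-- families for the determinant of a difference of `3 × 3` matrices -/
def detU {R : Type*} [CommRing R] (A : Matrix (Fin 3) (Fin 3) R) : Option (Fin 3 × Fin 3) → R
  | none => A.det
  | some (i, j) => A i j

def detV {R : Type*} [CommRing R] (A : Matrix (Fin 3) (Fin 3) R) : Option (Fin 3 × Fin 3) → R
  | none => 1
  | some (i, j) => A.adjugate j i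

theorem skew_det {R : Type*} [CommRing R] (A B : Matrix (Fin 3) (Fin 3) R) :
    skew (detU (R := R)) detV A B = (A - B).det := by
  unfold skew
  rw [Fintype.sum_option, Fintype.sum_prod_type]
  simp only [detU, detV, Fin.sum_univ_three, Matrix.det_fin_three, Matrix.adjugate_fin_three,
    Matrix.sub_apply, Matrix.of_apply, Matrix.cons_val', Matrix.cons_val_zero, Matrix.cons_val_one,
    Matrix.cons_val]
  ring

/-- `x + y + z = 0` and `x^3 + y^3 + z^3 = 0` force one of them to vanish (`3` invertible) -/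
theorem cubes_aux {K : Type*} [Field K] (h3 : (3 : K) ≠ 0) {x y z : K} (hx : x ≠ 0) (hy : y ≠ 0)
    (hz : z ≠ 0) (h1 : x + y + z = 0) (h2 : x ^ 3 + y ^ 3 + z ^ 3 = 0) : False := by
  have h : 3 * (x * y * z) = 0 := by
    have e : x ^ 3 + y ^ 3 + z ^ 3 - 3 * (x * y * z) =
        (x + y + z) * (x ^ 2 + y ^ 2 + z ^ 2 - x * y - y * z - z * x) := by ring
    rw [h1, h2, zero_mul, zero_sub] at e
    exact neg_eq_zero.mp e
  exact (mul_ne_zero h3 (mul_ne_zero (mul_ne_zero hx hy) hz)) h

/-- index set of the planes carrying `N(a-b)` -/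
abbrev I1 := Option (Fin 3 × Fin 3)
/-- index set of the planes carrying `N(a-b)^3` -/
abbrev I2 := I1 × I1 × I1 × Fin 4

/-- the labels -/
abbrev Lab (l : ℕ) [Fact l.Prime] := GaloisField l 3

noncomputable def basis3 (l : ℕ) [Fact l.Prime] : Module.Basis (Fin 3) (ZMod l) (Lab l) :=
  Module.finBasisOfFinrankEq (ZMod l) (Lab l) (GaloisField.finrank l (by norm_num))

/-- matrix of a label -/
noncomputable def mat (l : ℕ) [Fact l.Prime] (a : Lab l) : Matrix (Fin 3) (Fin 3) (ZMod l) :=
  Algebra.leftMulMatrix (basis3 l) a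

theorem mat_sub (l : ℕ) [Fact l.Prime] (a b : Lab l) : mat l (a - b) = mat l a - mat l b := by
  simp [mat]

theorem det_mat_ne (l : ℕ) [Fact l.Prime] {a : Lab l} (ha : a ≠ 0) : (mat l a).det ≠ 0 := by
  unfold mat
  rw [← Algebra.norm_eq_matrix_det (basis3 l) a]
  exact (Algebra.norm_ne_zero_iff).mpr ha

noncomputable def u1 (l : ℕ) [Fact l.Prime] (a : Lab l) : I1 → ZMod l := detU (mat l a)
noncomputable def v1 (l : ℕ) [Fact l.Prime] (a : Lab l) : I1 → ZMod l := detV (mat l a)
noncomputable def u2 (l : ℕ) [Fact l.Prime] : Lab l → I2 → ZMod l := cubeU (u1 l) (v1 l)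
noncomputable def v2 (l : ℕ) [Fact l.Prime] : Lab l → I2 → ZMod l := cubeV (u1 l) (v1 l)

theorem skew1 (l : ℕ) [Fact l.Prime] (a b : Lab l) :
    skew (u1 l) (v1 l) a b = (mat l (a - b)).det := by
  rw [mat_sub, ← skew_det]; rfl

theorem skew1_ne (l : ℕ) [Fact l.Prime] {a b : Lab l} (h : a ≠ b) :
    skew (u1 l) (v1 l) a b ≠ 0 := by
  rw [skew1]; exact det_mat_ne l (sub_ne_zero.mpr h)

theorem three_ne (l : ℕ) [Fact l.Prime] (hl : l ≠ 3) : (3 : ZMod l) ≠ 0 := by
  intro h
  have h' : ((3 : ℕ) : ZMod l) = 0 := by exact_mod_cast h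
  rw [ZMod.natCast_eq_zero_iff] at h'
  exact hl ((Nat.prime_dvd_prime_iff_eq (Fact.out) Nat.prime_three).mp h')

/-- **Local set**, base version over `ZMod l`. -/
theorem local_base (l : ℕ) [Fact l.Prime] (hl : l ≠ 3) {a b c : Lab l} (hab : a ≠ b)
    (hbc : b ≠ c) (hac : a ≠ c)
    (h1 : skew (u1 l) (v1 l) a b + skew (u1 l) (v1 l) b c + skew (u1 l) (v1 l) c a = 0)
    (h2 : skew (u2 l) (v2 l) a b + skew (u2 l) (v2 l) b c + skew (u2 l) (v2 l) c a = 0) :
    False := by
  unfold u2 v2 at h2
  rw [skew_cube, skew_cube, skew_cube] at h2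
  exact cubes_aux (three_ne l hl) (skew1_ne l hab) (skew1_ne l hbc) (skew1_ne l hac.symm) h1 h2

/-! ### Version in a quadratic extension ring -/

/-- the standard symplectic form on `ι` planes -/
def omF {R ι : Type*} [CommRing R] [Fintype ι] (x y : (ι → R) × (ι → R)) : R :=
  ∑ j, (x.1 j * y.2 j - x.2 j * y.1 j)

theorem omF_sub {R ι : Type*} [CommRing R] [Fintype ι] (x y z : (ι → R) × (ι → R)) :
    omF (y - x) (z - x) = omF x y + omF y z + omF z x := by
  unfold omF
  rw [← Finset.sum_add_distrib, ← Finset.sum_add_distrib]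
  refine Finset.sum_congr rfl fun j _ => ?_
  simp only [Prod.fst_sub, Prod.snd_sub, Pi.sub_apply]
  ring

/-- index set of all planes -/
abbrev Pl := I1 ⊕ I2

section ring
variable {R : Type*} [CommRing R] (l : ℕ) [Fact l.Prime] [Algebra (ZMod l) R] (ω : R)

/-- the symplectic vector of a label -/
noncomputable def vec (a : Lab l) : (Pl → R) × (Pl → R) :=
  (Sum.elim (fun j => algebraMap (ZMod l) R (u1 l a j))
     (fun j => algebraMap (ZMod l) R (u2 l a j) * ω),
   Sum.elim (fun j => algebraMap (ZMod l) R (v1 l a j))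
     (fun j => algebraMap (ZMod l) R (v2 l a j)))

theorem omF_vec (a b : Lab l) : omF (vec l ω a) (vec l ω b) =
    algebraMap (ZMod l) R (skew (u1 l) (v1 l) a b) +
      algebraMap (ZMod l) R (skew (u2 l) (v2 l) a b) * ω := by
  unfold omF skew vec
  rw [Fintype.sum_sum_type, map_sum, map_sum, Finset.sum_mul]
  congr 1
  · refine Finset.sum_congr rfl fun j _ => ?_
    simp only [Sum.elim_inl, map_sub, map_mul]
  · refine Finset.sum_congr rfl fun j _ => ?_
    simp only [Sum.elim_inr, map_sub, map_mul]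
    ring

theorem vec_triple (hl : l ≠ 3)
    (hω : ∀ x y : ZMod l, algebraMap (ZMod l) R x + algebraMap (ZMod l) R y * ω = 0 →
      x = 0 ∧ y = 0)
    {a b c : Lab l} (hab : a ≠ b) (hbc : b ≠ c) (hac : a ≠ c) :
    omF (vec l ω b - vec l ω a) (vec l ω c - vec l ω a) ≠ 0 := by
  intro h
  rw [omF_sub, omF_vec, omF_vec, omF_vec] at h
  have h' := hω (skew (u1 l) (v1 l) a b + skew (u1 l) (v1 l) b c + skew (u1 l) (v1 l) c a)
    (skew (u2 l) (v2 l) a b + skew (u2 l) (v2 l) b c + skew (u2 l) (v2 l) c a) (by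
      rw [← h]; simp only [map_add]; ring)
  exact local_base l hl hab hbc hac h'.1 h'.2

theorem vec_injective (hω : ∀ x y : ZMod l, algebraMap (ZMod l) R x +
      algebraMap (ZMod l) R y * ω = 0 → x = 0 ∧ y = 0) :
    Function.Injective (vec l ω) := by
  intro a b h
  by_contra hab
  have h1 : omF (vec l ω a) (vec l ω b) = 0 := by
    rw [h]; unfold omF
    exact Finset.sum_eq_zero fun j _ => by ring
  rw [omF_vec] at h1
  exact skew1_ne l hab (hω _ _ h1).1

end ring

theorem card_lab (l : ℕ) [Fact l.Prime] : Nat.card (Lab l) = l ^ 3 :=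
  GaloisField.card l 3 (by norm_num)

/-- **Local set in a quadratic ring.** For every prime `l ≠ 3` and every `ZMod l`-algebra `R` in
which `1, ω` are linearly independent, the finite set `S` of `l ^ 3` vectors has no
vanishing symplectic area on pairwise distinct triples. -/
theorem local_set {R : Type*} [CommRing R] [DecidableEq R] (l : ℕ) [Fact l.Prime] (hl : l ≠ 3)
    [Algebra (ZMod l) R] (ω : R)
    (hω : ∀ x y : ZMod l, algebraMap (ZMod l) R x + algebraMap (ZMod l) R y * ω = 0 →
      x = 0 ∧ y = 0) :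
    ∃ S : Finset ((Pl → R) × (Pl → R)), S.card = l ^ 3 ∧
      ∀ x ∈ S, ∀ y ∈ S, ∀ z ∈ S, x ≠ y → y ≠ z → x ≠ z → omF (y - x) (z - x) ≠ 0 := by
  classical
  have : Fintype (Lab l) := Fintype.ofFinite _
  refine ⟨Finset.univ.image (vec l ω), ?_, ?_⟩
  · rw [Finset.card_image_of_injective _ (vec_injective l ω hω), Finset.card_univ,
      ← Nat.card_eq_fintype_card, card_lab]
  · intro x hx y hy z hz hxy hyz hxz
    rw [Finset.mem_image] at hx hy hz
    obtain ⟨a, -, rfl⟩ := hx
    obtain ⟨b, -, rfl⟩ := hy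
    obtain ⟨c, -, rfl⟩ := hz
    exact vec_triple l ω hl hω (fun h => hxy (by rw [h])) (fun h => hyz (by rw [h]))
      (fun h => hxz (by rw [h]))

end Vale.Agent.P036.QF.LS
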