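import Vale.Agent.P036.QF.Basic
import Vale.Agent.P036.QF.LS

/-! P036, quadratic-field route, block A: the local set in the form needed by the core. -/

namespace Vale.Agent.P036.QF

open Finset

namespace LS

section
variable {l : ℕ} [Fact l.Prime]

/-- the class of a label -/
noncomputable def labc (l : ℕ) [Fact l.Prime] (a : Lab l) : Pl ⊕ Pl → ZMod l × ZMod l
  | .inl (.inl j) => (u1 l a j, 0)
  | .inl (.inr j) => (0, u2 l a j)
  | .inr (.inl j) => (v1 l a j, 0)
  | .inr (.inr j) => (v2 l a j, 0)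

theorem zre_sum' {d : ℤ} {ι : Type*} (s : Finset ι) (f : ι → ℤ√d) :
    (∑ i ∈ s, f i).re = ∑ i ∈ s, (f i).re := by
  classical
  induction s using Finset.induction_on with
  | empty => simp
  | insert a s ha ih => rw [Finset.sum_insert ha, Finset.sum_insert ha, Zsqrtd.re_add, ih]

theorem zim_sum' {d : ℤ} {ι : Type*} (s : Finset ι) (f : ι → ℤ√d) :
    (∑ i ∈ s, f i).im = ∑ i ∈ s, (f i).im := by
  classical
  induction s using Finset.induction_on with
  | empty => simp
  | insert a s ha ih => rw [Finset.sum_insert ha, Finset.sum_insert ha, Zsqrtd.im_add, ih]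

theorem cls_re {d : ℤ} {J : Type} {x : J → ℤ√d} {c : J → ZMod l × ZMod l} (h : cls l x = c)
    (j : J) : ((x j).re : ZMod l) = (c j).1 := by
  rw [← h]; rfl

theorem cls_im {d : ℤ} {J : Type} {x : J → ℤ√d} {c : J → ZMod l × ZMod l} (h : cls l x = c)
    (j : J) : ((x j).im : ZMod l) = (c j).2 := by
  rw [← h]; rfl

theorem om_re {d : ℤ} {x y : Pl ⊕ Pl → ℤ√d} {a b : Lab l} (hx : cls l x = labc l a)
    (hy : cls l y = labc l b) : (((om x y).re : ℤ) : ZMod l) = skew (u1 l) (v1 l) a b := by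
  unfold om skew
  rw [Fintype.sum_sum_type, Zsqrtd.re_add, zre_sum', zre_sum', Int.cast_add, Int.cast_sum,
    Int.cast_sum]
  have h2 : (∑ j : I2, (((x (.inl (.inr j)) * y (.inr (.inr j)) -
      x (.inr (.inr j)) * y (.inl (.inr j))).re : ℤ) : ZMod l)) = 0 := by
    refine Finset.sum_eq_zero fun j _ => ?_
    simp only [Zsqrtd.re_sub, Zsqrtd.re_mul, Int.cast_sub, Int.cast_add, Int.cast_mul,
      cls_re hx, cls_re hy, cls_im hx, cls_im hy, labc]
    ring
  rw [h2, add_zero]
  refine Finset.sum_congr rfl fun j _ => ?_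
  simp only [Zsqrtd.re_sub, Zsqrtd.re_mul, Int.cast_sub, Int.cast_add, Int.cast_mul,
      cls_re hx, cls_re hy, cls_im hx, cls_im hy, labc]
  ring

theorem om_im {d : ℤ} {x y : Pl ⊕ Pl → ℤ√d} {a b : Lab l} (hx : cls l x = labc l a)
    (hy : cls l y = labc l b) : (((om x y).im : ℤ) : ZMod l) = skew (u2 l) (v2 l) a b := by
  unfold om skew
  rw [Fintype.sum_sum_type, Zsqrtd.im_add, zim_sum', zim_sum', Int.cast_add, Int.cast_sum,
    Int.cast_sum]
  have h2 : (∑ j : I1, (((x (.inl (.inl j)) * y (.inr (.inl j)) -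
      x (.inr (.inl j)) * y (.inl (.inl j))).im : ℤ) : ZMod l)) = 0 := by
    refine Finset.sum_eq_zero fun j _ => ?_
    simp only [Zsqrtd.im_sub, Zsqrtd.im_mul, Int.cast_sub, Int.cast_add, Int.cast_mul,
      cls_re hx, cls_re hy, cls_im hx, cls_im hy, labc]
    ring
  rw [h2, zero_add]
  refine Finset.sum_congr rfl fun j _ => ?_
  simp only [Zsqrtd.im_sub, Zsqrtd.im_mul, Int.cast_sub, Int.cast_add, Int.cast_mul,
      cls_re hx, cls_re hy, cls_im hx, cls_im hy, labc]
  ring

theorem om_sub3 {ι : Type} [Fintype ι] {d : ℤ} (x y z : ι ⊕ ι → ℤ√d) :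
    om (y - x) (z - x) = om x y + om y z + om z x := by
  unfold om
  rw [← Finset.sum_add_distrib, ← Finset.sum_add_distrib]
  refine Finset.sum_congr rfl fun j _ => ?_
  simp only [Pi.sub_apply]
  ring

theorem labc_injective : Function.Injective (labc l) := by
  intro a b h
  by_contra hab
  apply skew1_ne l hab
  unfold skew
  refine Finset.sum_eq_zero fun j _ => ?_
  have h1 : u1 l a j = u1 l b j := congrArg Prod.fst (congrFun h (.inl (.inl j)))
  have h2 : v1 l a j = v1 l b j := congrArg Prod.fst (congrFun h (.inr (.inl j)))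
  rw [h1, h2]; ring

theorem dvd_iff_cast (d : ℤ) (z : ℤ√d) :
    ((l : ℤ√d) ∣ z) ↔ ((z.re : ZMod l) = 0 ∧ (z.im : ZMod l) = 0) := by
  have h := Zsqrtd.intCast_dvd (d := d) (l : ℤ) z
  rw [Int.cast_natCast] at h
  rw [h, ← ZMod.intCast_zmod_eq_zero_iff_dvd, ← ZMod.intCast_zmod_eq_zero_iff_dvd]

end

end LS

open LS in
/-- **Block A.** -/
theorem local_exists : ∃ (ι : Type) (_ : Fintype ι) (_ : DecidableEq ι), 40 ≤ Fintype.card ι ∧
    ∀ (d : ℤ) (l : ℕ), l.Prime → 5 ≤ l →
      ∃ S : Finset (ι ⊕ ι → ZMod l × ZMod l), S.card = l ^ 3 ∧ Local d l S := by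
  classical
  refine ⟨Pl, inferInstance, inferInstance, ?_, ?_⟩
  · simp [Fintype.card_sum, Fintype.card_prod, Fintype.card_option]
  · intro d l hl h5
    have : Fact l.Prime := ⟨hl⟩
    have h3 : l ≠ 3 := by omega
    have : Fintype (Lab l) := Fintype.ofFinite _
    refine ⟨Finset.univ.image (labc l), ?_, ?_⟩
    · rw [Finset.card_image_of_injective _ labc_injective, Finset.card_univ,
        ← Nat.card_eq_fintype_card, card_lab]
    · intro z q y hz hq hy hzq hqy hzy h
      rw [Finset.mem_image] at hz hq hy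
      obtain ⟨a, -, ha⟩ := hz
      obtain ⟨b, -, hb⟩ := hq
      obtain ⟨c, -, hc⟩ := hy
      rw [om_sub3, dvd_iff_cast, Zsqrtd.re_add, Zsqrtd.re_add, Zsqrtd.im_add, Zsqrtd.im_add,
        Int.cast_add, Int.cast_add, Int.cast_add, Int.cast_add,
        om_re ha.symm hb.symm, om_re hb.symm hc.symm, om_re hc.symm ha.symm,
        om_im ha.symm hb.symm, om_im hb.symm hc.symm, om_im hc.symm ha.symm] at h
      refine local_base l h3 (a := a) (b := b) (c := c) ?_ ?_ ?_ h.1 h.2
      · rintro rfl; exact hzq (ha.symm.trans hb)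
      · rintro rfl; exact hqy (hb.symm.trans hc)
      · rintro rfl; exact hzy (ha.symm.trans hc)

end Vale.Agent.P036.QF
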