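import Mathlib

/-!
# P036, fixed real quadratic ring: elementary arithmetic

* `exists_sqrt`: for each prime `p` one of `2, 3, 6` is a square modulo `p`;
* `s1`, `s2`: the two real embeddings of `ℤ√D`, `phi`: reduction `ℤ√D →+* ZMod p`;
* `prime_le_norm`, `prime_le_mul`: a nonzero element of the kernel of `phi` has norm at least `p`;
* `exists_approx`: elements `u` of `ℤ√D` with `|s2 u| ≤ 1/(n+1)` and `|s1 u| ≤ 6 n` (Dirichlet);
* `exists_prime_phi`: everything together with Bertrand's postulate.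
-/

namespace Vale.Agent.P036.QF

/-- the three possible discriminant parameters -/
def Good (D : ℤ) : Prop := D = 2 ∨ D = 3 ∨ D = 6

theorem Good.pos {D : ℤ} (h : Good D) : 0 < D := by rcases h with h | h | h <;> omega
theorem Good.two_le {D : ℤ} (h : Good D) : 2 ≤ D := by rcases h with h | h | h <;> omega
theorem Good.le_six {D : ℤ} (h : Good D) : D ≤ 6 := by rcases h with h | h | h <;> omega

theorem Good.nonsquare {D : ℤ} (h : Good D) (n : ℤ) : D ≠ n * n := by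
  intro e
  have h6 := h.le_six
  have h2 := h.two_le
  have h3 : n ≤ 2 := by nlinarith
  have h4 : -2 ≤ n := by nlinarith
  have h5 : n = -2 ∨ n = -1 ∨ n = 0 ∨ n = 1 ∨ n = 2 := by omega
  rcases h with rfl | rfl | rfl <;> rcases h5 with rfl | rfl | rfl | rfl | rfl <;> omega

/-- For each prime `p` one of `2, 3, 6` is a square modulo `p`. -/
theorem exists_sqrt (p : ℕ) [Fact p.Prime] :
    ∃ D : ℤ, Good D ∧ ∃ r : ZMod p, r * r = (D : ZMod p) := by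
  classical
  by_cases h2 : IsSquare (2 : ZMod p)
  · obtain ⟨r, hr⟩ := h2
    exact ⟨2, Or.inl rfl, r, by rw [← hr]; norm_num⟩
  by_cases h3 : IsSquare (3 : ZMod p)
  · obtain ⟨r, hr⟩ := h3
    exact ⟨3, Or.inr (Or.inl rfl), r, by rw [← hr]; norm_num⟩
  have e2 := quadraticChar_neg_one_iff_not_isSquare.2 h2
  have e3 := quadraticChar_neg_one_iff_not_isSquare.2 h3
  have e6 : quadraticChar (ZMod p) (2 * 3) = 1 := by rw [map_mul, e2, e3]; norm_num
  have h6 : (2 * 3 : ZMod p) ≠ 0 := by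
    intro h
    rw [h, MulChar.map_zero] at e6
    exact zero_ne_one e6
  obtain ⟨r, hr⟩ := (quadraticChar_one_iff_isSquare h6).1 e6
  exact ⟨6, Or.inr (Or.inr rfl), r, by rw [← hr]; norm_num⟩

/-- first real embedding, `a + b √D ↦ a + b √D` -/
noncomputable def s1 (D : ℤ) (x : ℤ√D) : ℝ := x.re + x.im * √(D : ℝ)

/-- second real embedding, `a + b √D ↦ a - b √D` -/
noncomputable def s2 (D : ℤ) (x : ℤ√D) : ℝ := x.re - x.im * √(D : ℝ)

section emb
variable {D : ℤ} (hD : 0 ≤ D)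

@[simp] theorem s1_zero : s1 D 0 = 0 := by simp [s1]
@[simp] theorem s2_zero : s2 D 0 = 0 := by simp [s2]
@[simp] theorem s1_one : s1 D 1 = 1 := by simp [s1]
@[simp] theorem s2_one : s2 D 1 = 1 := by simp [s2]
theorem s1_add (x y : ℤ√D) : s1 D (x + y) = s1 D x + s1 D y := by simp [s1]; ring
theorem s2_add (x y : ℤ√D) : s2 D (x + y) = s2 D x + s2 D y := by simp [s2]; ring
theorem s1_neg (x : ℤ√D) : s1 D (-x) = -s1 D x := by simp [s1]; ring
theorem s2_neg (x : ℤ√D) : s2 D (-x) = -s2 D x := by simp [s2]; ring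
theorem s1_sub (x y : ℤ√D) : s1 D (x - y) = s1 D x - s1 D y := by simp [s1]; ring
theorem s2_sub (x y : ℤ√D) : s2 D (x - y) = s2 D x - s2 D y := by simp [s2]; ring
@[simp] theorem s1_intCast (n : ℤ) : s1 D (n : ℤ√D) = n := by simp [s1]
@[simp] theorem s2_intCast (n : ℤ) : s2 D (n : ℤ√D) = n := by simp [s2]
@[simp] theorem s1_natCast (n : ℕ) : s1 D (n : ℤ√D) = n := by simp [s1]
@[simp] theorem s2_natCast (n : ℕ) : s2 D (n : ℤ√D) = n := by simp [s2]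

include hD in
theorem s1_mul (x y : ℤ√D) : s1 D (x * y) = s1 D x * s1 D y := by
  have h : √(D : ℝ) * √(D : ℝ) = D := Real.mul_self_sqrt (by exact_mod_cast hD)
  simp only [s1, Zsqrtd.re_mul, Zsqrtd.im_mul]
  push_cast
  linear_combination (-(x.im : ℝ) * y.im) * h

include hD in
theorem s2_mul (x y : ℤ√D) : s2 D (x * y) = s2 D x * s2 D y := by
  have h : √(D : ℝ) * √(D : ℝ) = D := Real.mul_self_sqrt (by exact_mod_cast hD)
  simp only [s2, Zsqrtd.re_mul, Zsqrtd.im_mul]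
  push_cast
  linear_combination (-(x.im : ℝ) * y.im) * h

include hD in
theorem norm_eq (x : ℤ√D) : (x.norm : ℝ) = s1 D x * s2 D x := by
  have h : √(D : ℝ) * √(D : ℝ) = D := Real.mul_self_sqrt (by exact_mod_cast hD)
  simp only [s1, s2, Zsqrtd.norm_def]
  push_cast
  linear_combination ((x.im : ℝ) * x.im) * h

/-- the two embeddings as ring homomorphisms -/
noncomputable def s1Hom (hD : 0 ≤ D) : ℤ√D →+* ℝ where
  toFun := s1 D
  map_one' := s1_one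
  map_mul' := s1_mul hD
  map_zero' := s1_zero
  map_add' := s1_add

noncomputable def s2Hom (hD : 0 ≤ D) : ℤ√D →+* ℝ where
  toFun := s2 D
  map_one' := s2_one
  map_mul' := s2_mul hD
  map_zero' := s2_zero
  map_add' := s2_add

/-- size of the embeddings in terms of the coordinates -/
theorem abs_s1_le (hD6 : D ≤ 6) (x : ℤ√D) : |s1 D x| ≤ |(x.re : ℝ)| + 5 / 2 * |(x.im : ℝ)| := by
  have h1 : √(D : ℝ) ≤ 5 / 2 := by
    apply Real.sqrt_le_iff.2 ⟨by norm_num, ?_⟩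
    have : (D : ℝ) ≤ 6 := by exact_mod_cast hD6
    linarith
  calc |s1 D x| ≤ |(x.re : ℝ)| + |x.im * √(D : ℝ)| := abs_add_le _ _
    _ ≤ _ := by
      rw [abs_mul, abs_of_nonneg (Real.sqrt_nonneg _), mul_comm (5 / 2 : ℝ)]
      gcongr

theorem abs_s2_le (hD6 : D ≤ 6) (x : ℤ√D) : |s2 D x| ≤ |(x.re : ℝ)| + 5 / 2 * |(x.im : ℝ)| := by
  have h1 : √(D : ℝ) ≤ 5 / 2 := by
    apply Real.sqrt_le_iff.2 ⟨by norm_num, ?_⟩
    have : (D : ℝ) ≤ 6 := by exact_mod_cast hD6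
    linarith
  calc |s2 D x| ≤ |(x.re : ℝ)| + |x.im * √(D : ℝ)| := abs_sub _ _
    _ ≤ _ := by
      rw [abs_mul, abs_of_nonneg (Real.sqrt_nonneg _), mul_comm (5 / 2 : ℝ)]
      gcongr

end emb

theorem norm_ne_zero {D : ℤ} (hD : Good D) {x : ℤ√D} (hx : x ≠ 0) : x.norm ≠ 0 :=
  fun h => hx ((Zsqrtd.norm_eq_zero hD.nonsquare x).1 h)

theorem s1_ne_zero {D : ℤ} (hD : Good D) {x : ℤ√D} (hx : x ≠ 0) : s1 D x ≠ 0 := by
  intro h
  have := norm_eq hD.pos.le x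
  rw [h, zero_mul] at this
  exact norm_ne_zero hD hx (by exact_mod_cast this)

theorem s2_ne_zero {D : ℤ} (hD : Good D) {x : ℤ√D} (hx : x ≠ 0) : s2 D x ≠ 0 := by
  intro h
  have := norm_eq hD.pos.le x
  rw [h, mul_zero] at this
  exact norm_ne_zero hD hx (by exact_mod_cast this)

theorem one_le_mul {D : ℤ} (hD : Good D) {x : ℤ√D} (hx : x ≠ 0) : 1 ≤ |s1 D x| * |s2 D x| := by
  rw [← abs_mul, ← norm_eq hD.pos.le x, ← Int.cast_abs]
  exact_mod_cast Int.one_le_abs (norm_ne_zero hD hx)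

/-- reduction modulo a prime, `a + b √D ↦ a + b r` -/
def phi {p : ℕ} {D : ℤ} (r : ZMod p) (hr : r * r = (D : ZMod p)) : ℤ√D →+* ZMod p :=
  Zsqrtd.lift ⟨r, hr⟩

theorem phi_apply {p : ℕ} {D : ℤ} (r : ZMod p) (hr : r * r = (D : ZMod p)) (x : ℤ√D) :
    phi r hr x = (x.re : ZMod p) + x.im * r := by
  simp [phi, Zsqrtd.lift]

theorem dvd_norm {p : ℕ} {D : ℤ} {r : ZMod p} (hr : r * r = (D : ZMod p)) {x : ℤ√D}
    (h : phi r hr x = 0) : (p : ℤ) ∣ x.norm := by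
  rw [← ZMod.intCast_zmod_eq_zero_iff_dvd, Zsqrtd.norm_def]
  rw [phi_apply] at h
  push_cast
  rw [← hr]
  linear_combination ((x.re : ZMod p) - x.im * r) * h

theorem prime_le_norm {p : ℕ} {D : ℤ} (hD : Good D) {r : ZMod p} (hr : r * r = (D : ZMod p))
    {x : ℤ√D} (h : phi r hr x = 0) (hx : x ≠ 0) : (p : ℤ) ≤ |x.norm| :=
  Int.le_of_dvd (abs_pos.2 (norm_ne_zero hD hx)) ((dvd_abs _ _).2 (dvd_norm hr h))

theorem prime_le_mul {p : ℕ} {D : ℤ} (hD : Good D) {r : ZMod p} (hr : r * r = (D : ZMod p))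
    {x : ℤ√D} (h : phi r hr x = 0) (hx : x ≠ 0) : (p : ℝ) ≤ |s1 D x| * |s2 D x| := by
  rw [← abs_mul, ← norm_eq hD.pos.le x, ← Int.cast_abs]
  exact_mod_cast prime_le_norm hD hr h hx

/-- Dirichlet approximation: elements of `ℤ√D` which are small in the second embedding. -/
theorem exists_approx {D : ℤ} (hD : Good D) (n : ℕ) (hn : 0 < n) :
    ∃ u : ℤ√D, u ≠ 0 ∧ 1 ≤ u.im ∧ u.im ≤ n ∧ |s2 D u| ≤ 1 / (n + 1) ∧ |s1 D u| ≤ 6 * n ∧
      1 / (6 * n) ≤ |s2 D u| ∧ (n + 1 : ℝ) ≤ |s1 D u| := by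
  obtain ⟨j, k, hk, hkn, h⟩ := Real.exists_int_int_abs_mul_sub_le (√(D : ℝ)) hn
  have hnR : (1 : ℝ) ≤ n := by exact_mod_cast hn
  have hu : (⟨j, k⟩ : ℤ√D) ≠ 0 := by
    intro e
    have := congrArg Zsqrtd.im e
    simp at this
    omega
  have h2 : |s2 D ⟨j, k⟩| ≤ 1 / (n + 1) := by
    rw [s2, abs_sub_comm]; exact h
  have hs : √(D : ℝ) ≤ 5 / 2 := by
    apply Real.sqrt_le_iff.2 ⟨by norm_num, ?_⟩
    have : (D : ℝ) ≤ 6 := by exact_mod_cast hD.le_six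
    linarith
  have hkR : (k : ℝ) ≤ n := by exact_mod_cast hkn
  have hk0 : (0 : ℝ) < k := by exact_mod_cast hk
  have h1 : |s1 D ⟨j, k⟩| ≤ 6 * n := by
    have e : s1 D ⟨j, k⟩ = s2 D ⟨j, k⟩ + 2 * (k * √(D : ℝ)) := by simp [s1, s2]; ring
    rw [e]
    have hb : 1 / ((n : ℝ) + 1) ≤ 1 := by
      rw [div_le_one (by positivity)]; linarith
    calc |s2 D ⟨j, k⟩ + 2 * (k * √(D : ℝ))| ≤ |s2 D ⟨j, k⟩| + |2 * (k * √(D : ℝ))| := abs_add_le _ _
      _ ≤ 1 + 2 * (n * (5 / 2)) := by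
        rw [abs_of_nonneg (by positivity : (0 : ℝ) ≤ 2 * (k * √(D : ℝ)))]
        gcongr
        exact h2.trans hb
      _ ≤ 6 * n := by linarith
  have h3 := one_le_mul hD hu
  refine ⟨⟨j, k⟩, hu, hk, hkn, h2, h1, ?_, ?_⟩
  · rw [div_le_iff₀ (by positivity)]
    have h4 : 0 ≤ |s2 D ⟨j, k⟩| := abs_nonneg _
    nlinarith
  · rw [le_div_iff₀ (by positivity)] at h2
    have h4 : 0 ≤ |s1 D ⟨j, k⟩| := abs_nonneg _
    have h5 : 0 ≤ |s2 D ⟨j, k⟩| := abs_nonneg _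
    nlinarith

/-- A prime `p ∈ (N, 2N]`, a good `D` and a square root `r` of `D` modulo `p`. -/
theorem exists_prime_phi (N : ℕ) (hN : N ≠ 0) : ∃ p : ℕ, p.Prime ∧ N < p ∧ p ≤ 2 * N ∧
    ∃ D : ℤ, Good D ∧ ∃ r : ZMod p, r * r = (D : ZMod p) := by
  obtain ⟨p, hp, h1, h2⟩ := Nat.exists_prime_lt_and_le_two_mul N hN
  have := Fact.mk hp
  obtain ⟨D, hD, r, hr⟩ := exists_sqrt p
  exact ⟨p, hp, h1, h2, D, hD, r, hr⟩

end Vale.Agent.P036.QF
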