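import Mathlib
import Vale.Agent.P036.QF.Arith

/-!
# Heilbronn's triangle problem over a fixed real quadratic ring: definitions

`O = ℤ√d`, `d ∈ {2, 3, 6}` (`Good d`); internal vectors are functions `ι ⊕ ι → ℤ√d` with the
standard symplectic form `om`.
-/

namespace Vale.Agent.P036.QF

open Finset

/-- the standard symplectic form on `(ι ⊕ ι → ℤ√d)` -/
def om {ι : Type} [Fintype ι] {d : ℤ} (u v : ι ⊕ ι → ℤ√d) : ℤ√d :=
  ∑ i, (u (.inl i) * v (.inr i) - u (.inr i) * v (.inl i))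

/-- the class modulo `l`, coordinatewise -/
def cls (l : ℕ) {J : Type} {d : ℤ} (x : J → ℤ√d) : J → ZMod l × ZMod l :=
  fun j => (((x j).re : ZMod l), ((x j).im : ZMod l))

/-- the elements `x + y√d` with `0 ≤ x, y < Y` -/
noncomputable def box (d : ℤ) (Y : ℕ) : Finset (ℤ√d) :=
  (Ico (0:ℤ) Y ×ˢ Ico (0:ℤ) Y).image fun t => (⟨t.1, t.2⟩ : ℤ√d)

/-- the elements `x + y√d` with `|x|, |y| ≤ Y` -/
noncomputable def sbox (d : ℤ) (Y : ℕ) : Finset (ℤ√d) :=
  (Icc (-(Y:ℤ)) Y ×ˢ Icc (-(Y:ℤ)) Y).image fun t => (⟨t.1, t.2⟩ : ℤ√d)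

/-- number of pairs of vectors of `O²` with coordinates in `sbox d Y` and determinant `c` -/
noncomputable def detCount (d : ℤ) (Y : ℕ) (c : ℤ√d) : ℕ :=
  (((sbox d Y ×ˢ sbox d Y) ×ˢ (sbox d Y ×ˢ sbox d Y)).filter
    fun t : (ℤ√d × ℤ√d) × (ℤ√d × ℤ√d) => t.1.1 * t.2.2 - t.1.2 * t.2.1 = c).card

section window
variable {J : Type} [Fintype J] [DecidableEq J] {d : ℤ}

/-- lower end of the window for the rational part of the special coordinate `j0` -/
noncomputable def fl (j0 : J) (M : ℕ) (x : J → ℤ√d) : ℤ :=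
  ⌊(∑ j ∈ univ.erase j0, s1 d (x j) ^ 2) / (16 * (Fintype.card J : ℝ) * M)
    - (x j0).im * Real.sqrt d⌋

/-- membership in the curved window -/
def InW (j0 : J) (M h : ℕ) (x : J → ℤ√d) : Prop :=
  (∀ j, 0 ≤ (x j).im ∧ (x j).im < M) ∧ (∀ j, j ≠ j0 → 0 ≤ (x j).re ∧ (x j).re < M) ∧
    fl j0 M x ≤ (x j0).re ∧ (x j0).re < fl j0 M x + h

/-- all coordinates of window elements lie in this set -/
noncomputable def bigbox (d : ℤ) (M h : ℕ) : Finset (ℤ√d) :=
  (Icc (-(4 * M : ℤ)) (M + h) ×ˢ Ico (0:ℤ) M).image fun t => (⟨t.1, t.2⟩ : ℤ√d)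

open scoped Classical in
/-- the curved window -/
noncomputable def W (j0 : J) (d : ℤ) (M h : ℕ) : Finset (J → ℤ√d) :=
  (Fintype.piFinset fun _ : J => bigbox d M h).filter (InW j0 M h)

open scoped Classical in
/-- the elements of the window with class `c` -/
noncomputable def Wc (j0 : J) (d : ℤ) (M h l : ℕ) (c : J → ZMod l × ZMod l) :
    Finset (J → ℤ√d) :=
  (W j0 d M h).filter fun x => cls l x = c

open scoped Classical in
/-- the elements of the window with class in `S` -/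
noncomputable def WS (j0 : J) (d : ℤ) (M h l : ℕ) (S : Finset (J → ZMod l × ZMod l)) :
    Finset (J → ℤ√d) :=
  (W j0 d M h).filter fun x => cls l x ∈ S

/-- two vectors are parallel: all 2x2 minors vanish -/
def Par (u v : J → ℤ√d) : Prop := ∀ i j, u i * v j = u j * v i

open scoped Classical in
/-- ordered collinear triples of pairwise distinct points of `S` -/
noncomputable def colTriples (S : Finset (J → ℤ√d)) :
    Finset ((J → ℤ√d) × (J → ℤ√d) × (J → ℤ√d)) :=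
  (S ×ˢ S ×ˢ S).filter fun t =>
    t.1 ≠ t.2.1 ∧ t.2.1 ≠ t.2.2 ∧ t.1 ≠ t.2.2 ∧ Par (t.2.1 - t.1) (t.2.2 - t.1)

end window

/-- the finset of symmetric matrices over `ZMod p` -/
def Sym (κ : Type) [Fintype κ] [DecidableEq κ] (p : ℕ) [NeZero p] :
    Finset (Matrix κ κ (ZMod p)) :=
  univ.filter fun A => A.transpose = A

/-- the property of the local set: the symplectic area of three vectors with distinct classes
in `S` is not divisible by `l` -/
def Local {ι : Type} [Fintype ι] (d : ℤ) (l : ℕ)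
    (S : Finset (ι ⊕ ι → ZMod l × ZMod l)) : Prop :=
  ∀ z q y : ι ⊕ ι → ℤ√d, cls l z ∈ S → cls l q ∈ S → cls l y ∈ S →
    cls l z ≠ cls l q → cls l q ≠ cls l y → cls l z ≠ cls l y →
    ¬ ((l : ℤ√d) ∣ om (q - z) (y - z))

/-! ### the point set -/

/-- points: true coordinates in `O²` and an internal vector -/
abbrev Pt (ι : Type) (d : ℤ) : Type := (ℤ√d × ℤ√d) × (ι ⊕ ι → ℤ√d)

/-- determinant of a triangle in `O²` -/
def dt {d : ℤ} (a b c : ℤ√d × ℤ√d) : ℤ√d :=
  (b.1 - a.1) * (c.2 - a.2) - (b.2 - a.2) * (c.1 - a.1)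

section pts
variable {ι : Type} [Fintype ι] [DecidableEq ι] {d : ℤ}

/-- the total symplectic area of a triple -/
def beta (w : ℤ√d) (t : Pt ι d × Pt ι d × Pt ι d) : ℤ√d :=
  w * dt t.1.1 t.2.1.1 t.2.2.1 + om (t.2.1.2 - t.1.2) (t.2.2.2 - t.1.2)

/-- all candidate points -/
noncomputable def XX (j0 : ι ⊕ ι) (d : ℤ) (Y M h l : ℕ) (S : Finset (ι ⊕ ι → ZMod l × ZMod l)) :
    Finset (Pt ι d) :=
  (box d Y ×ˢ box d Y) ×ˢ WS j0 d M h l S

open scoped Classical in
/-- bad triples: pairwise distinct points of total symplectic area zero -/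
noncomputable def bad (w : ℤ√d) (X : Finset (Pt ι d)) :
    Finset (Pt ι d × Pt ι d × Pt ι d) :=
  (X ×ˢ X ×ˢ X).filter fun t =>
    t.1 ≠ t.2.1 ∧ t.2.1 ≠ t.2.2 ∧ t.1 ≠ t.2.2 ∧ beta w t = 0

/-- dependent triples: internal parts all equal, or pairwise distinct and collinear -/
def Dep (t : Pt ι d × Pt ι d × Pt ι d) : Prop :=
  (t.1.2 = t.2.1.2 ∧ t.2.1.2 = t.2.2.2) ∨
    (t.1.2 ≠ t.2.1.2 ∧ t.2.1.2 ≠ t.2.2.2 ∧ t.1.2 ≠ t.2.2.2 ∧
      Par (t.2.1.2 - t.1.2) (t.2.2.2 - t.1.2))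

/-- first half of the reduction of a point modulo the prime over `p` -/
def xi {p : ℕ} (r : ZMod p) (hr : r * r = (d : ZMod p)) (w : ℤ√d) (P : Pt ι d) :
    Option ι → ZMod p
  | none => phi r hr (w * P.1.1)
  | some i => phi r hr (P.2 (.inl i))

/-- second half -/
def eta {p : ℕ} (r : ZMod p) (hr : r * r = (d : ZMod p)) (P : Pt ι d) :
    Option ι → ZMod p
  | none => phi r hr P.1.2
  | some i => phi r hr (P.2 (.inr i))

/-- `P` lies on the affine Lagrangian `η = A ξ + b` -/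
def On {p : ℕ} (r : ZMod p) (hr : r * r = (d : ZMod p)) (w : ℤ√d)
    (a : Matrix (Option ι) (Option ι) (ZMod p) × (Option ι → ZMod p)) (P : Pt ι d) : Prop :=
  eta r hr P = a.1.mulVec (xi r hr w P) + a.2

end pts

end Vale.Agent.P036.QF
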