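import Mathlib
import Vale.Agent.P036.QF.Basic

/-! Block D1: the curved window over `ℤ√d`, residue classes. -/

namespace Vale.Agent.P036.QF
open Finset

theorem class_count_nat (q : ℕ) (hq : 0 < q) (a : ℤ) (n : ℕ) (hn : q ∣ n) (c : ZMod q) :
    ((Ico a (a + n)).filter fun x : ℤ => (x : ZMod q) = c).card = n / q := by
  obtain ⟨v, rfl⟩ := ZMod.intCast_surjective c
  obtain ⟨k, rfl⟩ := hn
  have h1 : ((Ico a (a + (q * k : ℕ))).filter fun x : ℤ => (x : ZMod q) = (v : ZMod q)) =
      (Ico a (a + (q * k : ℕ))).filter fun x : ℤ => x ≡ v [ZMOD q] := by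
    ext x
    rw [Finset.mem_filter, Finset.mem_filter, ZMod.intCast_eq_intCast_iff]
  rw [h1]
  have h2 := Int.Ico_filter_modEq_card a (a + (q * k : ℕ)) (r := (q : ℤ)) (by exact_mod_cast hq) v
  have h3 : (((a + (q * k : ℕ) : ℤ) : ℚ) - v) / ((q : ℤ) : ℚ) =
      ((a : ℚ) - v) / ((q : ℤ) : ℚ) + (k : ℤ) := by
    have : (q : ℚ) ≠ 0 := by exact_mod_cast hq.ne'
    push_cast
    field_simp
    ring
  rw [h3, Int.ceil_add_intCast] at h2
  have h4 : (⌈((a : ℚ) - v) / ((q : ℤ) : ℚ)⌉ + (k : ℤ)) - ⌈((a : ℚ) - v) / ((q : ℤ) : ℚ)⌉ = k := by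
    ring
  rw [h4, max_eq_left (by positivity)] at h2
  rw [Nat.mul_div_cancel_left _ hq]
  exact_mod_cast h2

section
variable {J : Type} [Fintype J] [DecidableEq J] {d : ℤ}

theorem fl_bounds (hd : Good d) (j0 : J) (M h : ℕ) (hM : 0 < M) (x : J → ℤ√d)
    (hx : InW j0 M h x) : -(4 * M : ℤ) ≤ fl j0 M x ∧ fl j0 M x ≤ M := by
  obtain ⟨h1, h2, -, -⟩ := hx
  have hM' : (0 : ℝ) < M := by exact_mod_cast hM
  have hM1 : (1 : ℝ) ≤ M := by exact_mod_cast hM
  have hJ : 0 < Fintype.card J := Fintype.card_pos_iff.2 ⟨j0⟩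
  have hJ' : (0 : ℝ) < Fintype.card J := by exact_mod_cast hJ
  have hs : √(d : ℝ) ≤ 5 / 2 := by
    apply Real.sqrt_le_iff.2 ⟨by norm_num, ?_⟩
    have : (d : ℝ) ≤ 6 := by exact_mod_cast hd.le_six
    linarith
  have hs0 : 0 ≤ √(d : ℝ) := Real.sqrt_nonneg _
  have him0 : (0 : ℝ) ≤ ((x j0).im : ℝ) := by exact_mod_cast (h1 j0).1
  have him1 : ((x j0).im : ℝ) ≤ M := by
    have := (h1 j0).2.le
    exact_mod_cast this
  have e1 : ∀ j ∈ univ.erase j0, s1 d (x j) ^ 2 ≤ 16 * (M : ℝ) ^ 2 := by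
    intro j hj
    have hj' : j ≠ j0 := (Finset.mem_erase.1 hj).1
    have a1 : |((x j).re : ℝ)| ≤ M := by
      rw [abs_of_nonneg (by exact_mod_cast (h2 j hj').1)]
      exact_mod_cast (h2 j hj').2.le
    have a2 : |((x j).im : ℝ)| ≤ M := by
      rw [abs_of_nonneg (by exact_mod_cast (h1 j).1)]
      exact_mod_cast (h1 j).2.le
    have a3 := abs_s1_le hd.le_six (x j)
    have a4 : |s1 d (x j)| ≤ 4 * M := by linarith
    calc s1 d (x j) ^ 2 = |s1 d (x j)| ^ 2 := (sq_abs _).symm
      _ ≤ (4 * M) ^ 2 := by gcongr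
      _ = _ := by ring
  have e2 : ∑ j ∈ univ.erase j0, s1 d (x j) ^ 2 ≤ (Fintype.card J : ℝ) * (16 * (M : ℝ) ^ 2) := by
    calc ∑ j ∈ univ.erase j0, s1 d (x j) ^ 2 ≤ ∑ _j ∈ univ.erase j0, 16 * (M : ℝ) ^ 2 :=
          Finset.sum_le_sum e1
      _ ≤ ∑ _j : J, 16 * (M : ℝ) ^ 2 :=
          Finset.sum_le_sum_of_subset_of_nonneg (Finset.erase_subset _ _)
            fun _ _ _ => by positivity
      _ = _ := by rw [Finset.sum_const, Finset.card_univ, nsmul_eq_mul]
  have e3 : 0 ≤ ∑ j ∈ univ.erase j0, s1 d (x j) ^ 2 := Finset.sum_nonneg fun _ _ => sq_nonneg _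
  have e4 : (∑ j ∈ univ.erase j0, s1 d (x j) ^ 2) / (16 * (Fintype.card J : ℝ) * M) ≤ M := by
    rw [div_le_iff₀ (by positivity)]
    calc _ ≤ _ := e2
      _ = _ := by ring
  have e5 : 0 ≤ (∑ j ∈ univ.erase j0, s1 d (x j) ^ 2) / (16 * (Fintype.card J : ℝ) * M) := by
    positivity
  constructor
  · rw [fl, Int.le_floor]
    push_cast
    nlinarith
  · have : fl j0 M x < (M : ℤ) + 1 := by
      rw [fl, Int.floor_lt]
      push_cast
      nlinarith
    omega

theorem InW.mem_bigbox (hd : Good d) (j0 : J) (M h : ℕ) (hM : 0 < M) (x : J → ℤ√d)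
    (hx : InW j0 M h x) (j : J) : x j ∈ bigbox d M h := by
  obtain ⟨h5, h6⟩ := fl_bounds hd j0 M h hM x hx
  obtain ⟨h1, h2, h3, h4⟩ := hx
  unfold bigbox
  rw [Finset.mem_image]
  refine ⟨((x j).re, (x j).im), ?_, rfl⟩
  rw [Finset.mem_product, Finset.mem_Icc, Finset.mem_Ico]
  refine ⟨?_, h1 j⟩
  by_cases hj : j = j0
  · subst hj
    constructor
    · show -(4 * M : ℤ) ≤ (x j).re
      omega
    · show (x j).re ≤ (M : ℤ) + h
      omega
  · have := h2 j hj
    constructor
    · show -(4 * M : ℤ) ≤ (x j).re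
      omega
    · show (x j).re ≤ (M : ℤ) + h
      omega

theorem mem_W (hd : Good d) (j0 : J) (M h : ℕ) (hM : 0 < M) (x : J → ℤ√d) :
    x ∈ W j0 d M h ↔ InW j0 M h x := by
  classical
  unfold W
  rw [Finset.mem_filter, Fintype.mem_piFinset]
  exact ⟨fun h => h.2, fun hx => ⟨fun j => hx.mem_bigbox hd j0 M h hM x j, hx⟩⟩

/-- size of the coordinates (both real embeddings) of differences of window elements -/
theorem window_bounds (hd : Good d) (j0 : J) (M h : ℕ) (hM : 0 < M) (hh : h ≤ M)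
    (x y : J → ℤ√d) (hx : x ∈ W j0 d M h) (hy : y ∈ W j0 d M h) (j : J) :
    |s1 d ((x - y) j)| ≤ 16 * M ∧ |s2 d ((x - y) j)| ≤ 16 * M := by
  have key : ∀ z : J → ℤ√d, z ∈ W j0 d M h → (-(4 * M : ℝ) ≤ ((z j).re : ℝ) ∧
      ((z j).re : ℝ) ≤ 2 * M) ∧ (0 ≤ ((z j).im : ℝ) ∧ ((z j).im : ℝ) ≤ M) := by
    intro z hz
    have h1 := ((mem_W hd j0 M h hM z).1 hz).mem_bigbox hd j0 M h hM z j
    unfold bigbox at h1
    rw [Finset.mem_image] at h1
    obtain ⟨t, ht, hte⟩ := h1
    rw [Finset.mem_product, Finset.mem_Icc, Finset.mem_Ico] at ht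
    obtain ⟨⟨ha, hb⟩, hc, he⟩ := ht
    rw [← hte]
    refine ⟨⟨?_, ?_⟩, ?_, ?_⟩
    · show -(4 * M : ℝ) ≤ (t.1 : ℝ)
      exact_mod_cast ha
    · show (t.1 : ℝ) ≤ 2 * M
      have : t.1 ≤ 2 * (M : ℤ) := by omega
      exact_mod_cast this
    · show (0 : ℝ) ≤ (t.2 : ℝ)
      exact_mod_cast hc
    · show (t.2 : ℝ) ≤ M
      exact_mod_cast he.le
  obtain ⟨⟨a1, a2⟩, a3, a4⟩ := key x hx
  obtain ⟨⟨b1, b2⟩, b3, b4⟩ := key y hy
  have hre : |(((x - y) j).re : ℝ)| ≤ 6 * M := by
    rw [Pi.sub_apply, Zsqrtd.re_sub, abs_le]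
    push_cast
    constructor <;> linarith
  have him : |(((x - y) j).im : ℝ)| ≤ M := by
    rw [Pi.sub_apply, Zsqrtd.im_sub, abs_le]
    push_cast
    constructor <;> linarith
  have c1 := abs_s1_le hd.le_six ((x - y) j)
  have c2 := abs_s2_le hd.le_six ((x - y) j)
  have hM' : (0 : ℝ) ≤ M := by positivity
  constructor <;> linarith

theorem fl_congr (j0 : J) (M : ℕ) (x y : J → ℤ√d) (h1 : ∀ j, (x j).im = (y j).im)
    (h2 : ∀ j, j ≠ j0 → (x j).re = (y j).re) : fl j0 M x = fl j0 M y := by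
  unfold fl
  rw [h1 j0]
  congr 3
  refine Finset.sum_congr rfl fun j hj => ?_
  have hj' : j ≠ j0 := (Finset.mem_erase.1 hj).1
  have : x j = y j := Zsqrtd.ext (h2 j hj') (h1 j)
  rw [this]

theorem window_class (hd : Good d) (j0 : J) (M h l : ℕ) (hl : 0 < l)
    (hM0 : 0 < M) (hM : l ∣ M) (hh : l ∣ h) (c : J → ZMod l × ZMod l) :
    (Wc j0 d M h l c).card = (M / l) ^ (2 * Fintype.card J - 1) * (h / l) := by
  classical
  have hJ : 0 < Fintype.card J := Fintype.card_pos_iff.2 ⟨j0⟩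
  set A : Finset (J → ℤ) := Fintype.piFinset fun j =>
    (Ico (0 : ℤ) (0 + M)).filter fun x : ℤ => (x : ZMod l) = (c j).2 with hA
  set B : Finset (J → ℤ) := Fintype.piFinset fun j =>
    if j = j0 then {0} else
      (Ico (0 : ℤ) (0 + M)).filter fun x : ℤ => (x : ZMod l) = (c j).1 with hB
  have hAc : A.card = (M / l) ^ Fintype.card J := by
    rw [hA, Fintype.card_piFinset, Finset.prod_congr rfl fun i _ => class_count_nat l hl 0 M hM _,
      Finset.prod_const, Finset.card_univ]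
  have hBc : B.card = (M / l) ^ (Fintype.card J - 1) := by
    rw [hB, Fintype.card_piFinset]
    rw [← Finset.mul_prod_erase univ _ (Finset.mem_univ j0)]
    rw [if_pos rfl, Finset.card_singleton, one_mul]
    rw [Finset.prod_congr rfl (g := fun _ => M / l)]
    · rw [Finset.prod_const, Finset.card_erase_of_mem (Finset.mem_univ _), Finset.card_univ]
    · intro j hj
      rw [if_neg (Finset.mem_erase.1 hj).1]
      exact class_count_nat l hl 0 M hM _
  have hmem : ∀ x : J → ℤ√d, x ∈ Wc j0 d M h l c ↔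
      ((fun j => (x j).im), (fun j => if j = j0 then 0 else (x j).re)) ∈ A ×ˢ B ∧
        (x j0).re ∈ (Ico (fl j0 M x) (fl j0 M x + h)).filter
          fun y : ℤ => (y : ZMod l) = (c j0).1 := by
    intro x
    unfold Wc
    rw [Finset.mem_filter, mem_W hd j0 M h hM0, Finset.mem_product, hA, hB,
      Fintype.mem_piFinset, Fintype.mem_piFinset, Finset.mem_filter, Finset.mem_Ico]
    constructor
    · rintro ⟨⟨h1, h2, h3, h4⟩, h5⟩
      have e1 : ∀ j, (((x j).re : ℤ) : ZMod l) = (c j).1 := fun j => by rw [← h5]; rfl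
      have e2 : ∀ j, (((x j).im : ℤ) : ZMod l) = (c j).2 := fun j => by rw [← h5]; rfl
      refine ⟨⟨fun j => ?_, fun j => ?_⟩, ⟨h3, h4⟩, e1 j0⟩
      · rw [Finset.mem_filter, Finset.mem_Ico, zero_add]
        exact ⟨h1 j, e2 j⟩
      · by_cases hj : j = j0
        · simp [hj]
        · simp only [hj, if_false]
          rw [Finset.mem_filter, Finset.mem_Ico, zero_add]
          exact ⟨h2 j hj, e1 j⟩
    · rintro ⟨⟨h1, h2⟩, ⟨h3, h4⟩, h5⟩
      have h1' : ∀ j, (0 ≤ (x j).im ∧ (x j).im < M) ∧ (((x j).im : ℤ) : ZMod l) = (c j).2 := by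
        intro j
        have := h1 j
        rw [Finset.mem_filter, Finset.mem_Ico, zero_add] at this
        exact this
      have h2' : ∀ j, j ≠ j0 → (0 ≤ (x j).re ∧ (x j).re < M) ∧
          (((x j).re : ℤ) : ZMod l) = (c j).1 := by
        intro j hj
        have := h2 j
        simp only [hj, if_false] at this
        rw [Finset.mem_filter, Finset.mem_Ico, zero_add] at this
        exact this
      refine ⟨⟨fun j => (h1' j).1, fun j hj => (h2' j hj).1, h3, h4⟩, ?_⟩
      funext j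
      refine Prod.ext ?_ (h1' j).2
      by_cases hj : j = j0
      · subst hj; exact h5
      · exact (h2' j hj).2
  have h1 : (Wc j0 d M h l c).card = ∑ p ∈ A ×ˢ B,
      ((Wc j0 d M h l c).filter fun x =>
        ((fun j => (x j).im), (fun j => if j = j0 then 0 else (x j).re)) = p).card :=
    Finset.card_eq_sum_card_fiberwise fun x hx => ((hmem x).1 hx).1
  rw [h1, Finset.sum_congr rfl (g := fun _ => h / l), Finset.sum_const, Finset.card_product, hAc,
    hBc, smul_eq_mul, ← pow_add]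
  · congr 2
    omega
  · intro p hp
    have hp0 : p.2 j0 = 0 := by
      have := (Finset.mem_product.1 hp).2
      rw [hB, Fintype.mem_piFinset] at this
      have := this j0
      simpa using this
    set z : J → ℤ√d := fun j => ⟨p.2 j, p.1 j⟩ with hz
    have h2 : ((Wc j0 d M h l c).filter fun x =>
        ((fun j => (x j).im), (fun j => if j = j0 then 0 else (x j).re)) = p).card =
        ((Ico (fl j0 M z) (fl j0 M z + h)).filter
          fun y : ℤ => (y : ZMod l) = (c j0).1).card := by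
      refine Finset.card_bij' (fun x _ => (x j0).re)
        (fun a _ => fun j => ⟨if j = j0 then a else p.2 j, p.1 j⟩) ?_ ?_ ?_ ?_
      · intro x hx
        rw [Finset.mem_filter, hmem] at hx
        obtain ⟨⟨-, h3⟩, h4⟩ := hx
        have e : fl j0 M z = fl j0 M x := by
          refine fl_congr j0 M z x (fun j => ?_) (fun j hj => ?_)
          · rw [hz]
            show p.1 j = (x j).im
            rw [← h4]
          · rw [hz]
            show p.2 j = (x j).re
            rw [← h4]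
            simp [hj]
        rw [e]
        exact h3
      · intro a ha
        rw [Finset.mem_filter, hmem]
        have e0 : ((fun j => ((fun j => (⟨if j = j0 then a else p.2 j, p.1 j⟩ : ℤ√d) :
            J → ℤ√d) j).im), (fun j => if j = j0 then 0 else
            ((fun j => (⟨if j = j0 then a else p.2 j, p.1 j⟩ : ℤ√d) : J → ℤ√d) j).re)) = p := by
          refine Prod.ext rfl (funext fun j => ?_)
          by_cases hj : j = j0
          · simp [hj, hp0]
          · simp [hj]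
        have e1 : fl j0 M (fun j => (⟨if j = j0 then a else p.2 j, p.1 j⟩ : ℤ√d)) = fl j0 M z := by
          refine fl_congr j0 M _ z (fun j => rfl) (fun j hj => ?_)
          simp [hz, hj]
        refine ⟨⟨?_, ?_⟩, e0⟩
        · rw [e0]; exact hp
        · rw [e1]
          simpa using ha
      · intro x hx
        rw [Finset.mem_filter] at hx
        obtain ⟨-, h4⟩ := hx
        funext j
        rw [← h4]
        by_cases hj : j = j0
        · subst hj
          simp
        · simp [hj]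
      · intro a _
        simp
    rw [h2]
    exact class_count_nat l hl _ h hh _

end

end Vale.Agent.P036.QF
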