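import Mathlib
import Vale.Agent.P036.QF.Basic

/-!
Block D2 (fixed quadratic ring): few collinear triples in the curved window.
-/

namespace Vale.Agent.P036.QF
open Finset

namespace D2
variable {J : Type} [Fintype J] [DecidableEq J] {d : ℤ}

theorem s1_inj (hd : Good d) {x y : ℤ√d} (h : s1 d x = s1 d y) : x = y := by
  by_contra hne
  exact s1_ne_zero hd (sub_ne_zero.2 hne) (by rw [s1_sub, h, sub_self])

theorem cancel (hd : Good d) {a x y : ℤ√d} (ha : a ≠ 0) (h : a * x = a * y) : x = y := by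
  apply s1_inj hd
  have h1 := congrArg (s1 d) h
  rw [s1_mul hd.pos.le, s1_mul hd.pos.le] at h1
  exact mul_left_cancel₀ (s1_ne_zero hd ha) h1

/-- parallel real vectors -/
def PR (U V : J → ℝ) : Prop := ∀ i j, U i * V j = U j * V i

omit [DecidableEq J] in
theorem dot_sq {U V : J → ℝ} (h : PR U V) : (U ⬝ᵥ V) ^ 2 = (U ⬝ᵥ U) * (V ⬝ᵥ V) := by
  rw [sq, dotProduct, dotProduct, dotProduct, Finset.sum_mul_sum, Finset.sum_mul_sum]
  refine Finset.sum_congr rfl fun s _ => Finset.sum_congr rfl fun t _ => ?_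
  have := h s t
  calc U s * V s * (U t * V t) = U s * V t * (U t * V s) := by ring
    _ = U s * V t * (U s * V t) := by rw [this]
    _ = _ := by ring

omit [DecidableEq J] in
theorem dot_self_pos {U : J → ℝ} (h : U ≠ 0) : 0 < U ⬝ᵥ U := by
  obtain ⟨i, hi⟩ := Function.ne_iff.1 h
  refine Finset.sum_pos' (fun j _ => mul_self_nonneg _) ⟨i, Finset.mem_univ _, ?_⟩
  exact mul_self_pos.2 hi

/-- among three collinear distinct points one is in the middle -/
theorem middle {x y : J → ℝ} (h : PR x y) (hx : x ≠ 0) (hy : y ≠ 0) (hxy : x ≠ y) :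
    x ⬝ᵥ y < 0 ∨ x ⬝ᵥ x - x ⬝ᵥ y < 0 ∨ y ⬝ᵥ y - x ⬝ᵥ y < 0 := by
  by_contra hc
  push Not at hc
  obtain ⟨h1, h2, h3⟩ := hc
  have hA := dot_self_pos hx
  have hB := dot_self_pos hy
  have hC := dot_sq h
  have e1 : x ⬝ᵥ x = x ⬝ᵥ y := by nlinarith
  have e2 : y ⬝ᵥ y = x ⬝ᵥ y := by nlinarith
  have h4 := dot_self_pos (sub_ne_zero.2 hxy)
  rw [sub_dotProduct, dotProduct_sub, dotProduct_sub, dotProduct_comm y x] at h4
  linarith

theorem exists_lam {U V : J → ℝ} (h : PR U V) (hlt : U ⬝ᵥ V < 0) :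
    ∃ lam : ℝ, 0 < lam ∧ ∀ j, V j = -lam * U j := by
  have hU : U ≠ 0 := by
    rintro rfl
    rw [zero_dotProduct] at hlt
    exact lt_irrefl _ hlt
  have hA := dot_self_pos hU
  refine ⟨-(U ⬝ᵥ V) / (U ⬝ᵥ U), div_pos (neg_pos.2 hlt) hA, fun j => ?_⟩
  have key : (U ⬝ᵥ U) * V j = (U ⬝ᵥ V) * U j := by
    rw [dotProduct, dotProduct, Finset.sum_mul, Finset.sum_mul]
    refine Finset.sum_congr rfl fun i _ => ?_
    have := h i j
    linear_combination U i * this
  field_simp
  linarith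

/-- sum of the squares of the ordinary coordinates -/
noncomputable def N (j0 : J) (U : J → ℝ) : ℝ := ∑ j ∈ univ.erase j0, U j ^ 2

theorem window_lt {j0 : J} {M h : ℕ} {x : J → ℤ√d} (hx : InW j0 M h x) :
    N j0 (fun j => s1 d (x j)) / (16 * (Fintype.card J : ℝ) * M) - 1 < s1 d (x j0) ∧
      s1 d (x j0) < N j0 (fun j => s1 d (x j)) / (16 * (Fintype.card J : ℝ) * M) + h := by
  obtain ⟨-, -, h1, h2⟩ := hx
  have e1 : (N j0 (fun j => s1 d (x j)) / (16 * (Fintype.card J : ℝ) * M) -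
      (x j0).im * Real.sqrt d) - 1 < (fl j0 M x : ℝ) := Int.sub_one_lt_floor _
  have e2 : (fl j0 M x : ℝ) ≤ N j0 (fun j => s1 d (x j)) / (16 * (Fintype.card J : ℝ) * M) -
      (x j0).im * Real.sqrt d := Int.floor_le _
  have h1' : (fl j0 M x : ℝ) ≤ (x j0).re := by exact_mod_cast h1
  have h2' : ((x j0).re : ℝ) < (fl j0 M x : ℝ) + h := by exact_mod_cast h2
  rw [s1]
  constructor <;> linarith

theorem near_of_mid (j0 : J) (M h s : ℕ) (hM : 0 < M)
    (hs : 16 * Fintype.card J * M * (h + 2) ≤ s ^ 2) {m p q : J → ℤ√d}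
    (hm : InW j0 M h m) (hp : InW j0 M h p) (hq : InW j0 M h q) {lam : ℝ} (hlam : 0 < lam)
    (hV : ∀ j, s1 d (q j) - s1 d (m j) = -lam * (s1 d (p j) - s1 d (m j))) :
    N j0 (fun j => s1 d (p j) - s1 d (m j)) < (s:ℝ) ^ 2 ∨
      N j0 (fun j => s1 d (q j) - s1 d (m j)) < (s:ℝ) ^ 2 := by
  have hJ : 0 < Fintype.card J := Fintype.card_pos_iff.2 ⟨j0⟩
  set D : ℝ := 16 * (Fintype.card J : ℝ) * M with hD
  have hD0 : 0 < D := by positivity
  have hs' : D * (h + 2) ≤ (s:ℝ) ^ 2 := by
    rw [hD]; exact_mod_cast hs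
  have m1 := (window_lt hm).2
  have p1 := (window_lt hp).1
  have q1 := (window_lt hq).1
  rw [← hD] at m1 p1 q1
  have e0 := hV j0
  have eN : lam * N j0 (fun j => s1 d (p j)) + N j0 (fun j => s1 d (q j)) =
      (1 + lam) * N j0 (fun j => s1 d (m j)) +
        lam * (1 + lam) * N j0 (fun j => s1 d (p j) - s1 d (m j)) := by
    simp only [N]
    rw [Finset.mul_sum, Finset.mul_sum, Finset.mul_sum, ← Finset.sum_add_distrib,
      ← Finset.sum_add_distrib]
    refine Finset.sum_congr rfl fun j _ => ?_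
    have e : s1 d (q j) = s1 d (m j) - lam * (s1 d (p j) - s1 d (m j)) := by
      have := hV j
      linarith
    rw [e]; ring
  have eV : N j0 (fun j => s1 d (q j) - s1 d (m j)) =
      lam * (lam * N j0 (fun j => s1 d (p j) - s1 d (m j))) := by
    simp only [N]
    rw [Finset.mul_sum, Finset.mul_sum]
    refine Finset.sum_congr rfl fun j _ => ?_
    rw [hV j]; ring
  have hNU : 0 ≤ N j0 (fun j => s1 d (p j) - s1 d (m j)) :=
    Finset.sum_nonneg fun j _ => sq_nonneg _
  set NU := N j0 (fun j => s1 d (p j) - s1 d (m j))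
  set Np := N j0 (fun j => s1 d (p j))
  set Nq := N j0 (fun j => s1 d (q j))
  set Nm := N j0 (fun j => s1 d (m j))
  have hlin : lam * s1 d (p j0) + s1 d (q j0) = (1 + lam) * s1 d (m j0) := by
    linear_combination e0
  have hkey : lam * NU < D * (h + 1) := by
    have c1 : lam * (Np / D - 1) + (Nq / D - 1) < (1 + lam) * (Nm / D + h) := by
      have a1 := mul_lt_mul_of_pos_left p1 hlam
      have a2 : (1 + lam) * s1 d (m j0) < (1 + lam) * (Nm / D + h) :=
        mul_lt_mul_of_pos_left m1 (by linarith)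
      linarith
    have c2 : lam * Np + Nq - D * (1 + lam) < (1 + lam) * Nm + (1 + lam) * (D * h) := by
      have c3 := mul_lt_mul_of_pos_left c1 hD0
      have c4 : D * (lam * (Np / D - 1) + (Nq / D - 1)) = lam * Np + Nq - D * (1 + lam) := by
        field_simp
        ring
      have c5 : D * ((1 + lam) * (Nm / D + h)) = (1 + lam) * Nm + (1 + lam) * (D * h) := by
        field_simp
      rw [c4, c5] at c3
      exact c3
    rw [eN] at c2
    have c6 : (1 + lam) * (lam * NU) < (1 + lam) * (D * (h + 1)) := by nlinarith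
    exact lt_of_mul_lt_mul_left c6 (by linarith)
  have hkey2 : lam * NU < (s:ℝ) ^ 2 := by nlinarith
  by_contra hc
  push Not at hc
  obtain ⟨h1, h2⟩ := hc
  rw [eV] at h2
  have hs0 : 0 < (s:ℝ) ^ 2 := lt_of_le_of_lt (by positivity) hkey2
  have hl1 : lam < 1 := by
    by_contra hge
    push Not at hge
    nlinarith
  nlinarith

/-- candidates for an ordinary coordinate near `c` -/
noncomputable def Nr (d : ℤ) (M s : ℕ) (c : ℤ√d) : Finset (ℤ√d) :=
  (Ico (0:ℤ) M).biUnion fun b =>
    (Icc (⌊s1 d c - b * Real.sqrt d⌋ - s) (⌊s1 d c - b * Real.sqrt d⌋ + s)).image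
      fun a => (⟨a, b⟩ : ℤ√d)

theorem card_Nr (M s : ℕ) (c : ℤ√d) : (Nr d M s c).card ≤ M * (2 * s + 1) := by
  have h1 : (Nr d M s c).card ≤ (Ico (0:ℤ) M).card * (2 * s + 1) := by
    refine Finset.card_biUnion_le_card_mul _ _ _ fun b _ => ?_
    refine Finset.card_image_le.trans ?_
    rw [Int.card_Icc]
    omega
  rw [Int.card_Ico] at h1
  simpa using h1

theorem mem_Nr {M s : ℕ} {c x : ℤ√d} (h1 : 0 ≤ x.im ∧ x.im < M)
    (h2 : |s1 d x - s1 d c| < s) : x ∈ Nr d M s c := by
  rw [Nr, Finset.mem_biUnion]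
  refine ⟨x.im, Finset.mem_Ico.2 h1, Finset.mem_image.2 ⟨x.re, ?_, by cases x; rfl⟩⟩
  rw [Finset.mem_Icc]
  rw [abs_lt, s1] at h2
  set al : ℝ := s1 d c - x.im * Real.sqrt d with hal
  have f1 : (⌊al⌋ : ℝ) ≤ al := Int.floor_le _
  have f2 : al < ⌊al⌋ + 1 := Int.lt_floor_add_one _
  constructor
  · have : (⌊al⌋ : ℝ) - s < x.re := by linarith
    have : ⌊al⌋ - (s:ℤ) < x.re := by exact_mod_cast this
    omega
  · have : (x.re : ℝ) < ⌊al⌋ + s + 1 := by linarith
    have : x.re < ⌊al⌋ + (s:ℤ) + 1 := by exact_mod_cast this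
    omega

theorem card_bigbox (M h : ℕ) (hM : 0 < M) (hh : h ≤ M) : (bigbox d M h).card ≤ 7 * M ^ 2 := by
  rw [bigbox]
  refine Finset.card_image_le.trans ?_
  rw [Finset.card_product, Int.card_Icc, Int.card_Ico]
  have e1 : ((M:ℤ) + h + 1 - -(4 * M : ℤ)).toNat = 5 * M + h + 1 := by omega
  have e2 : ((M:ℤ) - 0).toNat = M := by omega
  rw [e1, e2]
  nlinarith

theorem W_mem {j0 : J} {M h : ℕ} {x : J → ℤ√d} (hx : x ∈ W j0 d M h) :
    (∀ j, x j ∈ bigbox d M h) ∧ InW j0 M h x := by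
  classical
  rw [W, Finset.mem_filter, Fintype.mem_piFinset] at hx
  exact hx

/-- upper bound for the size of the window -/
theorem card_W_le (j0 : J) (M h : ℕ) :
    (W j0 d M h).card ≤ M ^ (2 * Fintype.card J - 1) * h := by
  have hJ : 0 < Fintype.card J := Fintype.card_pos_iff.2 ⟨j0⟩
  let T : J → Finset (ℤ × ℤ) := fun j =>
    if j = j0 then Ico (0:ℤ) h ×ˢ Ico (0:ℤ) M else Ico (0:ℤ) M ×ˢ Ico (0:ℤ) M
  have hc : (Fintype.piFinset T).card = M ^ (2 * Fintype.card J - 1) * h := by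
    rw [Fintype.card_piFinset, ← Finset.mul_prod_erase _ _ (Finset.mem_univ j0)]
    have e1 : (T j0).card = h * M := by
      simp [T]
    have e2 : ∏ j ∈ univ.erase j0, (T j).card = (M * M) ^ (Fintype.card J - 1) := by
      rw [Finset.prod_congr rfl (g := fun _ => M * M), Finset.prod_const,
        Finset.card_erase_of_mem (Finset.mem_univ j0), Finset.card_univ]
      intro j hj
      have : j ≠ j0 := (Finset.mem_erase.1 hj).1
      simp [T, this]
    rw [e1, e2]
    obtain ⟨k, hk⟩ : ∃ k, Fintype.card J = k + 1 := ⟨Fintype.card J - 1, by omega⟩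
    rw [hk]
    have e3 : 2 * (k + 1) - 1 = 2 * k + 1 := by omega
    rw [e3, Nat.add_sub_cancel]
    ring
  rw [← hc]
  refine Finset.card_le_card_of_injOn
    (fun x j => (if j = j0 then (x j).re - fl j0 M x else (x j).re, (x j).im)) ?_ ?_
  · intro x hx
    rw [Finset.mem_coe] at hx ⊢
    obtain ⟨h1, h2, h3, h4⟩ := (W_mem hx).2
    rw [Fintype.mem_piFinset]
    intro j
    by_cases hj : j = j0
    · subst hj
      simp only [T, if_true, Finset.mem_product, Finset.mem_Ico]
      exact ⟨⟨by omega, by omega⟩, h1 j⟩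
    · simp only [T, if_neg hj, Finset.mem_product, Finset.mem_Ico]
      exact ⟨h2 j hj, h1 j⟩
  · intro x hx y hy hxy
    have hj : ∀ j, j ≠ j0 → x j = y j := by
      intro j hj
      have := congrFun hxy j
      simp only [if_neg hj, Prod.mk.injEq] at this
      exact Zsqrtd.ext this.1 this.2
    have h0 := congrFun hxy j0
    simp only [if_true, Prod.mk.injEq] at h0
    have hfl : fl j0 M x = fl j0 M y := by
      rw [fl, fl, h0.2]
      congr 3
      refine Finset.sum_congr rfl fun j hj' => ?_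
      rw [hj j (Finset.mem_erase.1 hj').1]
    funext j
    by_cases hjj : j = j0
    · subst hjj
      refine Zsqrtd.ext ?_ h0.2
      have := h0.1
      rw [hfl] at this
      linarith
    · exact hj j hjj

open scoped Classical in
/-- points of the window near `m` -/
noncomputable def nr (j0 : J) (d : ℤ) (M h s : ℕ) (m : J → ℤ√d) : Finset (J → ℤ√d) :=
  (W j0 d M h).filter fun p => p ≠ m ∧ ∀ j, j ≠ j0 → |s1 d (p j) - s1 d (m j)| < s

theorem card_nr (j0 : J) (M h s : ℕ) (hM : 0 < M) (hh : h ≤ M) (hs : 1 ≤ s) (m : J → ℤ√d) :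
    (nr j0 d M h s m).card ≤ 7 * M ^ 2 * (9 * M * s) ^ (Fintype.card J - 1) := by
  have hsub : nr j0 d M h s m ⊆ Fintype.piFinset fun j =>
      if j = j0 then bigbox d M h else Nr d M s (m j) := by
    intro p hp
    rw [nr, Finset.mem_filter] at hp
    obtain ⟨hW, -, h2⟩ := hp
    rw [Fintype.mem_piFinset]
    intro j
    by_cases hj : j = j0
    · rw [if_pos hj]; exact (W_mem hW).1 j
    · rw [if_neg hj]
      exact mem_Nr ((W_mem hW).2.1 j) (h2 j hj)
  refine (Finset.card_le_card hsub).trans ?_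
  rw [Fintype.card_piFinset, ← Finset.mul_prod_erase _ _ (Finset.mem_univ j0), if_pos rfl]
  refine Nat.mul_le_mul (card_bigbox M h hM hh) ?_
  have hJ : (univ.erase j0 : Finset J).card = Fintype.card J - 1 := by
    rw [Finset.card_erase_of_mem (Finset.mem_univ j0), Finset.card_univ]
  rw [← hJ]
  refine Finset.prod_le_pow_card _ _ _ fun j hj => ?_
  rw [if_neg (Finset.mem_erase.1 hj).1]
  refine (card_Nr M s (m j)).trans ?_
  nlinarith

open scoped Classical in
theorem card_line (hd : Good d) (j0 : J) (M h : ℕ) (hM : 0 < M) (hh : h ≤ M)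
    {m p : J → ℤ√d} (hne : p ≠ m) :
    ((W j0 d M h).filter fun q => Par (p - m) (q - m)).card ≤ 7 * M ^ 2 := by
  obtain ⟨i, hi⟩ := Function.ne_iff.1 hne
  refine le_trans ?_ (card_bigbox (d := d) M h hM hh)
  refine Finset.card_le_card_of_injOn (fun q => q i) ?_ ?_
  · intro q hq
    rw [Finset.mem_coe, Finset.mem_filter] at hq
    exact (W_mem hq.1).1 i
  · intro q hq q' hq' he
    rw [Finset.mem_coe, Finset.mem_filter] at hq hq'
    simp only at he
    have hne' : (p - m) i ≠ 0 := sub_ne_zero.2 hi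
    funext j
    have a1 := hq.2 i j
    have a2 := hq'.2 i j
    have a3 : (q - m) i = (q' - m) i := by rw [Pi.sub_apply, Pi.sub_apply, he]
    rw [← a3, ← a1] at a2
    have := cancel hd hne' a2
    rw [Pi.sub_apply, Pi.sub_apply] at this
    exact (sub_left_injective this).symm

open scoped Classical in
/-- triples: middle point, near point, third point -/
noncomputable def U (j0 : J) (d : ℤ) (M h s : ℕ) :
    Finset ((J → ℤ√d) × (J → ℤ√d) × (J → ℤ√d)) :=
  (W j0 d M h).biUnion fun m => (nr j0 d M h s m).biUnion fun p =>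
    ((W j0 d M h).filter fun q => Par (p - m) (q - m)).image fun q => (m, p, q)

theorem card_U (hd : Good d) (j0 : J) (M h s : ℕ) (hM : 0 < M) (hh : h ≤ M) (hs : 1 ≤ s) :
    (U j0 d M h s).card ≤ (W j0 d M h).card *
      (7 * M ^ 2 * (9 * M * s) ^ (Fintype.card J - 1) * (7 * M ^ 2)) := by
  classical
  refine Finset.card_biUnion_le_card_mul _ _ _ fun m _ => ?_
  refine (Finset.card_biUnion_le_card_mul _ _ (7 * M ^ 2) fun p hp => ?_).trans
    (Nat.mul_le_mul_right _ (card_nr j0 M h s hM hh hs m))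
  refine Finset.card_image_le.trans ?_
  rw [nr, Finset.mem_filter] at hp
  exact card_line hd j0 M h hM hh hp.2.1

theorem mem_U {j0 : J} {M h s : ℕ} {m p q : J → ℤ√d} (hm : m ∈ W j0 d M h)
    (hp : p ∈ W j0 d M h) (hq : q ∈ W j0 d M h) (hne : p ≠ m) (hP : Par (p - m) (q - m))
    (hN : N j0 (fun j => s1 d (p j) - s1 d (m j)) < (s:ℝ) ^ 2) : (m, p, q) ∈ U j0 d M h s := by
  classical
  rw [U, Finset.mem_biUnion]
  refine ⟨m, hm, Finset.mem_biUnion.2 ⟨p, ?_, Finset.mem_image.2
    ⟨q, Finset.mem_filter.2 ⟨hq, hP⟩, rfl⟩⟩⟩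
  rw [nr, Finset.mem_filter]
  refine ⟨hp, hne, fun j hj => ?_⟩
  have h1 : (s1 d (p j) - s1 d (m j)) ^ 2 ≤ N j0 (fun j => s1 d (p j) - s1 d (m j)) :=
    Finset.single_le_sum (f := fun j => (s1 d (p j) - s1 d (m j)) ^ 2)
      (fun j _ => sq_nonneg _) (Finset.mem_erase.2 ⟨hj, Finset.mem_univ j⟩)
  exact abs_lt_of_sq_lt_sq (lt_of_le_of_lt h1 hN) (by positivity)

omit [Fintype J] [DecidableEq J] in
theorem par_symm {u v : J → ℤ√d} (h : Par u v) : Par v u := fun i j => by
  have := h j i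
  rw [mul_comm (v i), mul_comm (v j), ← this]

/-- with `m` in the middle, one of the two other points is near -/
theorem mid_mem (hd : Good d) (j0 : J) (M h s : ℕ) (hM : 0 < M)
    (hs : 16 * Fintype.card J * M * (h + 2) ≤ s ^ 2) {m p q : J → ℤ√d}
    (hm : m ∈ W j0 d M h) (hp : p ∈ W j0 d M h) (hq : q ∈ W j0 d M h) (hpm : p ≠ m)
    (hqm : q ≠ m) (hP : Par (p - m) (q - m))
    (hlt : (fun j => s1 d (p j) - s1 d (m j)) ⬝ᵥ (fun j => s1 d (q j) - s1 d (m j)) < 0) :
    (m, p, q) ∈ U j0 d M h s ∨ (m, q, p) ∈ U j0 d M h s := by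
  have hPR : PR (fun j => s1 d (p j) - s1 d (m j)) (fun j => s1 d (q j) - s1 d (m j)) := by
    intro i j
    have := congrArg (s1 d) (hP i j)
    simpa only [Pi.sub_apply, s1_mul hd.pos.le, s1_sub] using this
  obtain ⟨lam, hl, hV⟩ := exists_lam hPR hlt
  rcases near_of_mid j0 M h s hM hs (W_mem hm).2 (W_mem hp).2 (W_mem hq).2 hl hV with h1 | h1
  · exact Or.inl (mem_U hm hp hq hpm hP h1)
  · exact Or.inr (mem_U hm hq hp hqm (par_symm hP) h1)

end D2

open D2 in
theorem window_collinear {J : Type} [Fintype J] [DecidableEq J] {d : ℤ}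
    (hd : Good d) (j0 : J) (M h s : ℕ) (hM : 0 < M)
    (hh0 : 0 < h) (hh : h ≤ M) (hs : 16 * Fintype.card J * M * (h + 2) ≤ s ^ 2) :
    (colTriples (W j0 d M h)).card ≤
      10000 * (M ^ (2 * Fintype.card J - 1) * h) * (9 * M * s) ^ (Fintype.card J - 1) * M ^ 4 := by
  classical
  have hJ : 0 < Fintype.card J := Fintype.card_pos_iff.2 ⟨j0⟩
  have hs1 : 1 ≤ s := by
    rcases Nat.eq_zero_or_pos s with h0 | h0
    · rw [h0] at hs
      have : 0 < 16 * Fintype.card J * M * (h + 2) := by positivity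
      omega
    · exact h0
  set UU := U j0 d M h s with hUU
  let V1 := UU.image fun t : (J → ℤ√d) × (J → ℤ√d) × (J → ℤ√d) => (t.1, t.2.1, t.2.2)
  let V2 := UU.image fun t : (J → ℤ√d) × (J → ℤ√d) × (J → ℤ√d) => (t.1, t.2.2, t.2.1)
  let V3 := UU.image fun t : (J → ℤ√d) × (J → ℤ√d) × (J → ℤ√d) => (t.2.1, t.1, t.2.2)
  let V4 := UU.image fun t : (J → ℤ√d) × (J → ℤ√d) × (J → ℤ√d) => (t.2.2, t.1, t.2.1)
  let V5 := UU.image fun t : (J → ℤ√d) × (J → ℤ√d) × (J → ℤ√d) => (t.2.1, t.2.2, t.1)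
  let V6 := UU.image fun t : (J → ℤ√d) × (J → ℤ√d) × (J → ℤ√d) => (t.2.2, t.2.1, t.1)
  have hsub : colTriples (W j0 d M h) ⊆ V1 ∪ V2 ∪ V3 ∪ V4 ∪ V5 ∪ V6 := by
    rintro ⟨a, b, c⟩ ht
    rw [colTriples, Finset.mem_filter, Finset.mem_product, Finset.mem_product] at ht
    obtain ⟨⟨ha, hb, hc⟩, hab, hbc, hac, hP⟩ := ht
    simp only at ha hb hc hab hbc hac hP
    set x : J → ℝ := fun j => s1 d (b j) - s1 d (a j) with hx
    set y : J → ℝ := fun j => s1 d (c j) - s1 d (a j) with hy
    have hPR : PR x y := by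
      intro i j
      have := congrArg (s1 d) (hP i j)
      simpa only [Pi.sub_apply, s1_mul hd.pos.le, s1_sub] using this
    have hx0 : x ≠ 0 := by
      intro h0
      apply hab
      funext j
      have := congrFun h0 j
      exact (s1_inj hd (sub_eq_zero.1 this)).symm
    have hy0 : y ≠ 0 := by
      intro h0
      apply hac
      funext j
      have := congrFun h0 j
      exact (s1_inj hd (sub_eq_zero.1 this)).symm
    have hxy : x ≠ y := by
      intro h0
      apply hbc
      funext j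
      have := congrFun h0 j
      simp only [hx, hy, sub_left_inj] at this
      exact s1_inj hd this
    have hco : ∀ i j, (b i - a i) * (c j - a j) = (b j - a j) * (c i - a i) := hP
    simp only [Finset.mem_union]
    rcases middle hPR hx0 hy0 hxy with h1 | h1 | h1
    · rcases mid_mem hd j0 M h s hM hs ha hb hc hab.symm hac.symm hP h1 with h2 | h2
      · left; left; left; left; left
        exact Finset.mem_image.2 ⟨_, h2, rfl⟩
      · left; left; left; left; right
        exact Finset.mem_image.2 ⟨_, h2, rfl⟩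
    · have hP' : Par (a - b) (c - b) := by
        intro i j
        simp only [Pi.sub_apply]
        linear_combination - hco i j
      have h1' : (fun j => s1 d (a j) - s1 d (b j)) ⬝ᵥ (fun j => s1 d (c j) - s1 d (b j)) < 0 := by
        have e1 : (fun j => s1 d (a j) - s1 d (b j)) = -x := by
          funext j; simp [hx]
        have e2 : (fun j => s1 d (c j) - s1 d (b j)) = y - x := by
          funext j; simp [hx, hy]
        rw [e1, e2, neg_dotProduct, dotProduct_sub]
        linarith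
      rcases mid_mem hd j0 M h s hM hs hb ha hc hab hbc.symm hP' h1' with h2 | h2
      · left; left; left; right
        exact Finset.mem_image.2 ⟨_, h2, rfl⟩
      · left; left; right
        exact Finset.mem_image.2 ⟨_, h2, rfl⟩
    · have hP' : Par (a - c) (b - c) := by
        intro i j
        simp only [Pi.sub_apply]
        linear_combination hco i j
      have h1' : (fun j => s1 d (a j) - s1 d (c j)) ⬝ᵥ (fun j => s1 d (b j) - s1 d (c j)) < 0 := by
        have e1 : (fun j => s1 d (a j) - s1 d (c j)) = -y := by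
          funext j; simp [hy]
        have e2 : (fun j => s1 d (b j) - s1 d (c j)) = x - y := by
          funext j; simp [hx, hy]
        rw [e1, e2, neg_dotProduct, dotProduct_sub, dotProduct_comm y x]
        linarith
      rcases mid_mem hd j0 M h s hM hs hc ha hb hac hbc hP' h1' with h2 | h2
      · left; right
        exact Finset.mem_image.2 ⟨_, h2, rfl⟩
      · right
        exact Finset.mem_image.2 ⟨_, h2, rfl⟩
  have hV : ∀ V ∈ [V1, V2, V3, V4, V5, V6], V.card ≤ UU.card := by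
    intro V hV
    simp only [List.mem_cons, List.not_mem_nil, or_false] at hV
    rcases hV with rfl | rfl | rfl | rfl | rfl | rfl <;> exact Finset.card_image_le
  have k1 := hV V1 (by simp)
  have k2 := hV V2 (by simp)
  have k3 := hV V3 (by simp)
  have k4 := hV V4 (by simp)
  have k5 := hV V5 (by simp)
  have k6 := hV V6 (by simp)
  have hU := card_U hd j0 M h s hM hh hs1
  have hW := card_W_le (d := d) j0 M h
  have u1 := Finset.card_union_le (V1 ∪ V2 ∪ V3 ∪ V4 ∪ V5) V6
  have u2 := Finset.card_union_le (V1 ∪ V2 ∪ V3 ∪ V4) V5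
  have u3 := Finset.card_union_le (V1 ∪ V2 ∪ V3) V4
  have u4 := Finset.card_union_le (V1 ∪ V2) V3
  have u5 := Finset.card_union_le V1 V2
  have h6 : (colTriples (W j0 d M h)).card ≤ 6 * UU.card := by
    have := Finset.card_le_card hsub
    omega
  calc (colTriples (W j0 d M h)).card ≤ 6 * UU.card := h6
    _ ≤ 6 * ((W j0 d M h).card * (7 * M ^ 2 * (9 * M * s) ^ (Fintype.card J - 1) * (7 * M ^ 2))) :=
        Nat.mul_le_mul_left _ hU
    _ ≤ 6 * ((M ^ (2 * Fintype.card J - 1) * h) *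
          (7 * M ^ 2 * (9 * M * s) ^ (Fintype.card J - 1) * (7 * M ^ 2))) :=
        Nat.mul_le_mul_left _ (Nat.mul_le_mul_right _ hW)
    _ = 294 * ((M ^ (2 * Fintype.card J - 1) * h) * (9 * M * s) ^ (Fintype.card J - 1) * M ^ 4) := by
        ring
    _ ≤ 10000 * ((M ^ (2 * Fintype.card J - 1) * h) * (9 * M * s) ^ (Fintype.card J - 1) * M ^ 4) :=
        Nat.mul_le_mul_right _ (by norm_num)
    _ = _ := by ring

end Vale.Agent.P036.QF
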