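import Mathlib

/-!
# P036, quadratic ring: number of solutions of `u₁ v₂ - u₂ v₁ = c` over `ℤ√d`
-/

namespace Vale.Agent.P036.QF.DC

open Finset

/-- first real embedding -/
noncomputable def em1 (d : ℤ) (hd : 0 < d) : ℤ√d →+* ℝ :=
  Zsqrtd.lift ⟨Real.sqrt d, Real.mul_self_sqrt (by exact_mod_cast hd.le)⟩

/-- second real embedding -/
noncomputable def em2 (d : ℤ) (hd : 0 < d) : ℤ√d →+* ℝ :=
  Zsqrtd.lift ⟨-Real.sqrt d, by
    rw [neg_mul_neg]; exact Real.mul_self_sqrt (by exact_mod_cast hd.le)⟩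

theorem em1_apply (d : ℤ) (hd : 0 < d) (x : ℤ√d) :
    em1 d hd x = x.re + x.im * Real.sqrt d := rfl

theorem em2_apply (d : ℤ) (hd : 0 < d) (x : ℤ√d) :
    em2 d hd x = x.re - x.im * Real.sqrt d := by
  have : em2 d hd x = x.re + x.im * (-Real.sqrt d) := rfl
  rw [this]; ring

theorem em_mul (d : ℤ) (hd : 0 < d) (x : ℤ√d) : em1 d hd x * em2 d hd x = (x.norm : ℝ) := by
  rw [em1_apply, em2_apply, Zsqrtd.norm_def]
  have h : Real.sqrt d * Real.sqrt d = (d : ℝ) := Real.mul_self_sqrt (by exact_mod_cast hd.le)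
  push_cast
  linear_combination (-(x.im : ℝ) * x.im) * h

variable {d : ℤ}

/-- nonsquare condition in the form used by `Zsqrtd.norm_eq_zero` -/
theorem one_le_abs_em (hd : 0 < d) (hns : ∀ n : ℤ, d ≠ n * n) {x : ℤ√d} (hx : x ≠ 0) :
    1 ≤ |em1 d hd x| * |em2 d hd x| := by
  rw [← abs_mul, em_mul]
  have h0 : x.norm ≠ 0 := fun h => hx ((Zsqrtd.norm_eq_zero hns x).1 h)
  have : (1 : ℤ) ≤ |x.norm| := Int.one_le_abs h0
  rw [← Int.cast_abs]
  exact_mod_cast this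

theorem em1_ne_zero (hd : 0 < d) (hns : ∀ n : ℤ, d ≠ n * n) {x : ℤ√d} (hx : x ≠ 0) :
    em1 d hd x ≠ 0 := by
  intro h
  have := one_le_abs_em hd hns hx
  rw [h] at this; simp at this; linarith

theorem em2_ne_zero (hd : 0 < d) (hns : ∀ n : ℤ, d ≠ n * n) {x : ℤ√d} (hx : x ≠ 0) :
    em2 d hd x ≠ 0 := by
  intro h
  have := one_le_abs_em hd hns hx
  rw [h] at this; simp at this; linarith

/-- size in the first embedding -/
noncomputable def n1 (d : ℤ) (hd : 0 < d) (v : ℤ√d × ℤ√d) : ℝ :=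
  max |em1 d hd v.1| |em1 d hd v.2|

/-- size in the second embedding -/
noncomputable def n2 (d : ℤ) (hd : 0 < d) (v : ℤ√d × ℤ√d) : ℝ :=
  max |em2 d hd v.1| |em2 d hd v.2|

theorem n1_nonneg (hd : 0 < d) (v : ℤ√d × ℤ√d) : 0 ≤ n1 d hd v := le_max_of_le_left (abs_nonneg _)

theorem n2_nonneg (hd : 0 < d) (v : ℤ√d × ℤ√d) : 0 ≤ n2 d hd v := le_max_of_le_left (abs_nonneg _)

theorem n1_sub_le (hd : 0 < d) (v w : ℤ√d × ℤ√d) : n1 d hd (v - w) ≤ n1 d hd v + n1 d hd w := by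
  unfold n1
  simp only [Prod.fst_sub, Prod.snd_sub, map_sub]
  apply max_le
  · exact (abs_sub _ _).trans (add_le_add (le_max_left _ _) (le_max_left _ _))
  · exact (abs_sub _ _).trans (add_le_add (le_max_right _ _) (le_max_right _ _))

theorem n2_sub_le (hd : 0 < d) (v w : ℤ√d × ℤ√d) : n2 d hd (v - w) ≤ n2 d hd v + n2 d hd w := by
  unfold n2
  simp only [Prod.fst_sub, Prod.snd_sub, map_sub]
  apply max_le
  · exact (abs_sub _ _).trans (add_le_add (le_max_left _ _) (le_max_left _ _))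
  · exact (abs_sub _ _).trans (add_le_add (le_max_right _ _) (le_max_right _ _))

/-- determinant -/
def det2 (u v : ℤ√d × ℤ√d) : ℤ√d := u.1 * v.2 - u.2 * v.1

theorem det2_sub (u v w : ℤ√d × ℤ√d) : det2 u (v - w) = det2 u v - det2 u w := by
  simp only [det2, Prod.fst_sub, Prod.snd_sub]; ring

/-- A coordinate functional computing the size on the line of `u`, for either embedding. -/
theorem exists_functional (φ : ℤ√d →+* ℝ) (hφ : ∀ x : ℤ√d, x ≠ 0 → φ x ≠ 0)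
    {u : ℤ√d × ℤ√d} (hu : u ≠ 0) :
    ∃ f : ℤ√d × ℤ√d → ℝ, (∀ v w, f (v - w) = f v - f w) ∧
      (∀ v, |f v| ≤ max |φ v.1| |φ v.2|) ∧
      ∀ w, det2 u w = 0 → |f w| = max |φ w.1| |φ w.2| := by
  have key : ∀ a b c e : ℤ√d, a * e - b * c = 0 → |φ b| ≤ |φ a| →
      (a ≠ 0 ∨ b ≠ 0) → |φ e| ≤ |φ c| := by
    intro a b c e h hab h0
    have ha : a ≠ 0 := by
      rintro rfl
      rcases h0 with h0 | h0
      · exact h0 rfl
      · rw [map_zero, abs_zero] at hab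
        exact hφ _ h0 (abs_eq_zero.1 (le_antisymm hab (abs_nonneg _)))
    have ha' : 0 < |φ a| := abs_pos.2 (hφ _ ha)
    have h2 : φ a * φ e = φ b * φ c := by
      have := congrArg φ h
      rw [map_sub, map_mul, map_mul, map_zero] at this
      linarith
    have h3 : |φ a| * |φ e| = |φ b| * |φ c| := by
      rw [← abs_mul, ← abs_mul, h2]
    have h4 : |φ a| * |φ e| ≤ |φ a| * |φ c| := by
      rw [h3]; exact mul_le_mul_of_nonneg_right hab (abs_nonneg _)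
    exact le_of_mul_le_mul_left h4 ha'
  have h0 : u.1 ≠ 0 ∨ u.2 ≠ 0 := by
    by_contra h
    push Not at h
    exact hu (Prod.ext h.1 h.2)
  rcases le_total |φ u.2| |φ u.1| with h | h
  · refine ⟨fun v => φ v.1, fun v w => by simp, fun v => le_max_left _ _, ?_⟩
    intro w hw
    have := key u.1 u.2 w.1 w.2 hw h h0
    rw [max_eq_left this]
  · refine ⟨fun v => φ v.2, fun v w => by simp, fun v => le_max_right _ _, ?_⟩
    intro w hw
    have := key u.2 u.1 w.2 w.1 (by unfold det2 at hw; linear_combination -hw) h h0.symm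
    rw [max_eq_right this]

/-- separated points in a square -/
theorem card_le_of_separated2 {α : Type*} (S : Finset α) (f g : α → ℝ) (L δ : ℝ) (hδ : 0 < δ)
    (hL : 0 ≤ L) (hf : ∀ v ∈ S, |f v| ≤ L) (hg : ∀ v ∈ S, |g v| ≤ L)
    (hsep : ∀ v ∈ S, ∀ w ∈ S, v ≠ w → δ ≤ |f v - f w| ∨ δ ≤ |g v - g w|) :
    (S.card : ℝ) ≤ (2 * L / δ + 1) ^ 2 := by
  classical
  have key : ∀ a b : ℝ, |a| ≤ L → |b| ≤ L → ⌊(a + L) / δ⌋₊ = ⌊(b + L) / δ⌋₊ → |a - b| < δ := by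
    intro a b ha hb hab
    have ha' := abs_le.1 ha
    have hb' := abs_le.1 hb
    have a1 : 0 ≤ (a + L) / δ := by apply div_nonneg <;> linarith
    have a2 : 0 ≤ (b + L) / δ := by apply div_nonneg <;> linarith
    have b1 := Nat.floor_le a1
    have b2 := Nat.floor_le a2
    have c1 := Nat.lt_floor_add_one ((a + L) / δ)
    have c2 := Nat.lt_floor_add_one ((b + L) / δ)
    rw [hab] at b1 c1
    have h : |(a + L) / δ - (b + L) / δ| < 1 := by
      rw [abs_lt]; constructor <;> linarith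
    rw [← sub_div, abs_div, abs_of_pos hδ, div_lt_one hδ] at h
    have e : a + L - (b + L) = a - b := by ring
    rwa [e] at h
  have key2 : ∀ a : ℝ, |a| ≤ L → ⌊(a + L) / δ⌋₊ < ⌊2 * L / δ⌋₊ + 1 := by
    intro a ha
    apply Nat.lt_succ_of_le
    apply Nat.floor_le_floor
    have ha' := abs_le.1 ha
    gcongr
    linarith
  have h1 : S.card ≤ (Finset.range (⌊2 * L / δ⌋₊ + 1) ×ˢ Finset.range (⌊2 * L / δ⌋₊ + 1)).card := by
    apply Finset.card_le_card_of_injOn (fun v => (⌊(f v + L) / δ⌋₊, ⌊(g v + L) / δ⌋₊))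
    · intro v hv
      simp only [Finset.coe_product, Finset.coe_range, Set.mem_prod, Set.mem_Iio]
      exact ⟨key2 _ (hf v hv), key2 _ (hg v hv)⟩
    · intro v hv w hw hvw
      by_contra hne
      simp only [Prod.mk.injEq] at hvw
      rcases hsep v hv w hw hne with h | h
      · exact absurd (key _ _ (hf v hv) (hf w hw) hvw.1) (not_lt.2 h)
      · exact absurd (key _ _ (hg v hv) (hg w hw) hvw.2) (not_lt.2 h)
  rw [Finset.card_product, Finset.card_range] at h1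
  have h2 : (S.card : ℝ) ≤ ((⌊2 * L / δ⌋₊ : ℝ) + 1) * ((⌊2 * L / δ⌋₊ : ℝ) + 1) := by
    exact_mod_cast h1
  have h3 : (⌊2 * L / δ⌋₊ : ℝ) ≤ 2 * L / δ := Nat.floor_le (by positivity)
  have h4 : (0 : ℝ) ≤ (⌊2 * L / δ⌋₊ : ℝ) := by positivity
  nlinarith

theorem det2_self (u : ℤ√d × ℤ√d) : det2 u u = 0 := by simp [det2, mul_comm]

/-- size of a vector: maximum of the absolute values of its four integer coordinates -/
def sz (w : ℤ√d × ℤ√d) : ℕ :=
  max (max w.1.re.natAbs w.1.im.natAbs) (max w.2.re.natAbs w.2.im.natAbs)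

theorem sz_pos {w : ℤ√d × ℤ√d} (hw : w ≠ 0) : 1 ≤ sz w := by
  by_contra h
  apply hw
  have h0 : sz w = 0 := by omega
  unfold sz at h0
  ext <;> simp <;> omega

theorem sz_le_iff (w : ℤ√d × ℤ√d) (n : ℕ) : sz w ≤ n ↔
    (w.1.re.natAbs ≤ n ∧ w.1.im.natAbs ≤ n) ∧ (w.2.re.natAbs ≤ n ∧ w.2.im.natAbs ≤ n) := by
  unfold sz
  simp only [max_le_iff]

theorem natAbs_le_em (hd : 0 < d) (x : ℤ√d) :
    (x.re.natAbs : ℝ) ≤ max |em1 d hd x| |em2 d hd x| ∧
    (x.im.natAbs : ℝ) ≤ max |em1 d hd x| |em2 d hd x| := by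
  have h1 := em1_apply d hd x
  have h2 := em2_apply d hd x
  have hs : 1 ≤ Real.sqrt d := by
    rw [Real.one_le_sqrt]
    exact_mod_cast hd
  have m1 := le_max_left |em1 d hd x| |em2 d hd x|
  have m2 := le_max_right |em1 d hd x| |em2 d hd x|
  have a1 := abs_le.1 m1
  have a2 := abs_le.1 m2
  set M := max |em1 d hd x| |em2 d hd x| with hM
  rw [Nat.cast_natAbs, Nat.cast_natAbs, Int.cast_abs, Int.cast_abs]
  have hM0 : 0 ≤ M := (abs_nonneg _).trans m1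
  constructor
  · rw [abs_le]; constructor <;> linarith
  · have h3 : |(x.im : ℝ) * Real.sqrt d| ≤ M := by
      rw [abs_le]; constructor <;> linarith
    rw [abs_mul, abs_of_nonneg (Real.sqrt_nonneg _)] at h3
    have := abs_nonneg (x.im : ℝ)
    nlinarith

theorem sz_le (hd : 0 < d) (w : ℤ√d × ℤ√d) : (sz w : ℝ) ≤ max (n1 d hd w) (n2 d hd w) := by
  have h1 := natAbs_le_em hd w.1
  have h2 := natAbs_le_em hd w.2
  have e1 : max |em1 d hd w.1| |em2 d hd w.1| ≤ max (n1 d hd w) (n2 d hd w) :=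
    max_le_max (le_max_left _ _) (le_max_left _ _)
  have e2 : max |em1 d hd w.2| |em2 d hd w.2| ≤ max (n1 d hd w) (n2 d hd w) :=
    max_le_max (le_max_right _ _) (le_max_right _ _)
  unfold sz
  push_cast
  refine max_le (max_le (h1.1.trans e1) (h1.2.trans e1)) (max_le (h2.1.trans e2) (h2.2.trans e2))

theorem em_le (hd : 0 < d) (x : ℤ√d) (M : ℝ) (h1 : (x.re.natAbs : ℝ) ≤ M)
    (h2 : (x.im.natAbs : ℝ) ≤ M) :
    |em1 d hd x| ≤ (1 + Real.sqrt d) * M ∧ |em2 d hd x| ≤ (1 + Real.sqrt d) * M := by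
  rw [em1_apply, em2_apply]
  rw [Nat.cast_natAbs, Int.cast_abs] at h1 h2
  have hs := Real.sqrt_nonneg (d : ℝ)
  have h3 : |(x.im : ℝ) * Real.sqrt d| ≤ M * Real.sqrt d := by
    rw [abs_mul, abs_of_nonneg hs]
    exact mul_le_mul_of_nonneg_right h2 hs
  constructor
  · refine (abs_add_le _ _).trans ?_
    linarith
  · refine (abs_sub _ _).trans ?_
    linarith

theorem n1_le (hd : 0 < d) (w : ℤ√d × ℤ√d) : n1 d hd w ≤ (1 + Real.sqrt d) * sz w := by
  have a1 : (w.1.re.natAbs : ℝ) ≤ sz w := by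
    exact_mod_cast (le_max_left _ _).trans (le_max_left _ _)
  have a2 : (w.1.im.natAbs : ℝ) ≤ sz w := by
    exact_mod_cast (le_max_right _ _).trans (le_max_left _ _)
  have a3 : (w.2.re.natAbs : ℝ) ≤ sz w := by
    exact_mod_cast (le_max_left _ _).trans (le_max_right _ _)
  have a4 : (w.2.im.natAbs : ℝ) ≤ sz w := by
    exact_mod_cast (le_max_right _ _).trans (le_max_right _ _)
  exact max_le (em_le hd _ _ a1 a2).1 (em_le hd _ _ a3 a4).1

theorem n2_le (hd : 0 < d) (w : ℤ√d × ℤ√d) : n2 d hd w ≤ (1 + Real.sqrt d) * sz w := by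
  have a1 : (w.1.re.natAbs : ℝ) ≤ sz w := by
    exact_mod_cast (le_max_left _ _).trans (le_max_left _ _)
  have a2 : (w.1.im.natAbs : ℝ) ≤ sz w := by
    exact_mod_cast (le_max_right _ _).trans (le_max_left _ _)
  have a3 : (w.2.re.natAbs : ℝ) ≤ sz w := by
    exact_mod_cast (le_max_left _ _).trans (le_max_right _ _)
  have a4 : (w.2.im.natAbs : ℝ) ≤ sz w := by
    exact_mod_cast (le_max_right _ _).trans (le_max_right _ _)
  exact max_le (em_le hd _ _ a1 a2).2 (em_le hd _ _ a3 a4).2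

/-- number of vectors of bounded size in a coset of the line of `u` -/
theorem card_coset (hd : 0 < d) (hns : ∀ n : ℤ, d ≠ n * n) {u : ℤ√d × ℤ√d} (hu : u ≠ 0)
    (β : ℕ) (hβ : 0 < β) (hmin : ∀ w, w ≠ 0 → det2 u w = 0 → β ≤ sz w)
    (S : Finset (ℤ√d × ℤ√d)) (c : ℤ√d) (T : ℕ)
    (hS : ∀ v ∈ S, sz v ≤ T) (hc : ∀ v ∈ S, det2 u v = c) :
    (S.card : ℝ) ≤ (2 * ((1 + Real.sqrt d) * T) / β + 1) ^ 2 := by
  obtain ⟨f, hf1, hf2, hf3⟩ := exists_functional (em1 d hd) (fun x hx => em1_ne_zero hd hns hx) hu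
  obtain ⟨g, hg1, hg2, hg3⟩ := exists_functional (em2 d hd) (fun x hx => em2_ne_zero hd hns hx) hu
  have hK : 0 ≤ 1 + Real.sqrt d := by positivity
  apply card_le_of_separated2 S f g ((1 + Real.sqrt d) * T) β (by exact_mod_cast hβ) (by positivity)
  · intro v hv
    refine (hf2 v).trans ((n1_le hd v).trans ?_)
    exact mul_le_mul_of_nonneg_left (by exact_mod_cast hS v hv) hK
  · intro v hv
    refine (hg2 v).trans ((n2_le hd v).trans ?_)
    exact mul_le_mul_of_nonneg_left (by exact_mod_cast hS v hv) hK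
  · intro v hv w hw hne
    have hd0 : det2 u (v - w) = 0 := by rw [det2_sub, hc v hv, hc w hw, sub_self]
    have hne' : v - w ≠ 0 := sub_ne_zero.2 hne
    have e1 := hmin _ hne' hd0
    have e2 : (β : ℝ) ≤ max (n1 d hd (v - w)) (n2 d hd (v - w)) :=
      le_trans (by exact_mod_cast e1) (sz_le hd _)
    rw [← hf1, ← hg1, hf3 _ hd0, hg3 _ hd0]
    exact le_max_iff.1 e2

theorem card_coset' (hd : 0 < d) (hns : ∀ n : ℤ, d ≠ n * n) {u : ℤ√d × ℤ√d} (hu : u ≠ 0)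
    (β : ℕ) (hβ : 0 < β) (hmin : ∀ w, w ≠ 0 → det2 u w = 0 → β ≤ sz w)
    (S : Finset (ℤ√d × ℤ√d)) (c : ℤ√d) (T : ℕ) (hT : β ≤ T)
    (hS : ∀ v ∈ S, sz v ≤ T) (hc : ∀ v ∈ S, det2 u v = c) :
    (S.card : ℝ) ≤ (3 + 2 * Real.sqrt d) ^ 2 * ((T : ℝ) ^ 2 / (β : ℝ) ^ 2) := by
  refine (card_coset hd hns hu β hβ hmin S c T hS hc).trans ?_
  have hβ' : (0 : ℝ) < β := by exact_mod_cast hβ
  have hT' : (β : ℝ) ≤ T := by exact_mod_cast hT
  have h1 : 1 ≤ (T : ℝ) / β := by rwa [one_le_div hβ']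
  have hs := Real.sqrt_nonneg (d : ℝ)
  have e1 : 2 * ((1 + Real.sqrt d) * T) / β + 1 ≤ (3 + 2 * Real.sqrt d) * ((T : ℝ) / β) := by
    have e : 2 * ((1 + Real.sqrt d) * T) / β = 2 * (1 + Real.sqrt d) * ((T : ℝ) / β) := by ring
    rw [e]
    linarith
  have e0 : 0 ≤ 2 * ((1 + Real.sqrt d) * T) / β + 1 := by positivity
  calc (2 * ((1 + Real.sqrt d) * T) / β + 1) ^ 2 ≤ ((3 + 2 * Real.sqrt d) * ((T : ℝ) / β)) ^ 2 :=
        pow_le_pow_left₀ e0 e1 2
    _ = _ := by rw [mul_pow, div_pow]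

/-- being on the line of `u` is transitive -/
theorem det2_trans (hns : ∀ n : ℤ, d ≠ n * n) (hd : 0 < d) {u w x : ℤ√d × ℤ√d} (hw : w ≠ 0)
    (h1 : det2 u w = 0) (h2 : det2 w x = 0) : det2 u x = 0 := by
  unfold det2 at *
  have h0 : w.1 ≠ 0 ∨ w.2 ≠ 0 := by
    by_contra h
    push Not at h
    exact hw (Prod.ext h.1 h.2)
  have key : ∀ a b : ℤ√d, a ≠ 0 → a * b = 0 → b = 0 := by
    intro a b ha hab
    by_contra hb
    have e1 := congrArg (em1 d hd) hab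
    rw [map_mul, map_zero] at e1
    rcases mul_eq_zero.1 e1 with h | h
    · exact em1_ne_zero hd hns ha h
    · exact em1_ne_zero hd hns hb h
  rcases h0 with h | h
  · apply key _ _ h
    linear_combination u.1 * h2 + x.1 * h1
  · apply key _ _ h
    linear_combination u.2 * h2 + x.2 * h1

/-- a nonzero vector of minimal size on the line of `u` -/
theorem exists_min (u : ℤ√d × ℤ√d) (hu : u ≠ 0) :
    ∃ w : ℤ√d × ℤ√d, w ≠ 0 ∧ det2 u w = 0 ∧ ∀ x, x ≠ 0 → det2 u x = 0 → sz w ≤ sz x := by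
  classical
  have hex : ∃ n : ℕ, ∃ w : ℤ√d × ℤ√d, w ≠ 0 ∧ det2 u w = 0 ∧ sz w = n := ⟨_, u, hu, det2_self u, rfl⟩
  obtain ⟨w, hw, hd, hn⟩ := Nat.find_spec hex
  refine ⟨w, hw, hd, fun x hx hdx => ?_⟩
  rw [hn]
  exact Nat.find_min' hex ⟨x, hx, hdx, rfl⟩

/-- coordinates -/
def mk4 (t : (ℤ × ℤ) × (ℤ × ℤ)) : ℤ√d × ℤ√d := (⟨t.1.1, t.1.2⟩, ⟨t.2.1, t.2.2⟩)

theorem mk4_injective : Function.Injective (mk4 (d := d)) := by
  rintro ⟨⟨a, b⟩, c, e⟩ ⟨⟨a', b'⟩, c', e'⟩ h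
  simp only [mk4, Prod.mk.injEq, Zsqrtd.ext_iff] at h ⊢
  exact h

/-- all vectors of size at most `r` -/
noncomputable def box (d : ℤ) (r : ℕ) : Finset (ℤ√d × ℤ√d) :=
  ((Finset.Icc (-(r : ℤ)) r ×ˢ Finset.Icc (-(r : ℤ)) r) ×ˢ
    (Finset.Icc (-(r : ℤ)) r ×ˢ Finset.Icc (-(r : ℤ)) r)).map ⟨mk4, mk4_injective⟩

theorem mem_box (r : ℕ) (w : ℤ√d × ℤ√d) : w ∈ box d r ↔ sz w ≤ r := by
  rw [sz_le_iff]
  simp only [box, Finset.mem_map, Finset.mem_product, Finset.mem_Icc, Function.Embedding.coeFn_mk]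
  constructor
  · rintro ⟨t, ht, rfl⟩
    simp only [mk4]
    omega
  · intro h
    exact ⟨((w.1.re, w.1.im), (w.2.re, w.2.im)), by simp only; omega, rfl⟩

theorem card_box (r : ℕ) : (box d r).card = (2 * r + 1) ^ 4 := by
  rw [box, Finset.card_map, Finset.card_product, Finset.card_product, Int.card_Icc]
  have : ((r : ℤ) + 1 - -(r : ℤ)).toNat = 2 * r + 1 := by omega
  rw [this]; ring

theorem card_shell (r : ℕ) (hr : 1 ≤ r) (S : Finset (ℤ√d × ℤ√d)) (hS : ∀ w ∈ S, sz w = r) :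
    S.card ≤ 80 * r ^ 3 := by
  classical
  have h1 : S ⊆ box d r \ box d (r - 1) := by
    intro w hw
    rw [Finset.mem_sdiff, mem_box, mem_box, hS w hw]
    omega
  have h2 := Finset.card_le_card h1
  have h3 : box d (r - 1) ⊆ box d r := by
    intro w hw
    rw [mem_box] at *
    omega
  rw [Finset.card_sdiff_of_subset h3, card_box, card_box] at h2
  obtain ⟨k, rfl⟩ : ∃ k, r = k + 1 := ⟨r - 1, by omega⟩
  have h4 : (2 * (k + 1) + 1) ^ 4 ≤ 80 * (k + 1) ^ 3 + (2 * (k + 1 - 1) + 1) ^ 4 := by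
    rw [Nat.add_sub_cancel]
    ring_nf
    nlinarith [Nat.zero_le k, Nat.zero_le (k ^ 2), Nat.zero_le (k ^ 3)]
  omega

/-- the sum of `|w|⁻⁴` over the nonzero vectors of size at most `T` -/
theorem sum_inv (T : ℕ) (S : Finset (ℤ√d × ℤ√d)) (hS : ∀ w ∈ S, w ≠ 0 ∧ sz w ≤ T) :
    ∑ w ∈ S, (1 : ℝ) / (sz w : ℝ) ^ 4 ≤ 80 * (1 + Real.log T) := by
  classical
  have hmaps : ∀ w ∈ S, sz w ∈ Finset.Icc 1 T := fun w hw =>
    Finset.mem_Icc.2 ⟨sz_pos (hS w hw).1, (hS w hw).2⟩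
  rw [← Finset.sum_fiberwise_of_maps_to hmaps]
  have h1 : ∀ r ∈ Finset.Icc 1 T,
      ∑ w ∈ S.filter (fun w => sz w = r), (1 : ℝ) / (sz w : ℝ) ^ 4 ≤ 80 * ((r : ℝ))⁻¹ := by
    intro r hr
    have hr1 := (Finset.mem_Icc.1 hr).1
    have hr0 : (0 : ℝ) < r := by exact_mod_cast hr1
    rw [Finset.sum_congr rfl (fun w hw => by rw [(Finset.mem_filter.1 hw).2]), Finset.sum_const,
      nsmul_eq_mul]
    have hc := card_shell r hr1 (S.filter (fun w => sz w = r)) (fun w hw => (Finset.mem_filter.1 hw).2)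
    have hc' : ((S.filter (fun w => sz w = r)).card : ℝ) ≤ 80 * (r : ℝ) ^ 3 := by exact_mod_cast hc
    calc ((S.filter (fun w => sz w = r)).card : ℝ) * (1 / (r : ℝ) ^ 4)
        ≤ 80 * (r : ℝ) ^ 3 * (1 / (r : ℝ) ^ 4) := by gcongr
      _ = 80 * ((r : ℝ))⁻¹ := by field_simp
  refine (Finset.sum_le_sum h1).trans ?_
  rw [← Finset.mul_sum]
  apply mul_le_mul_of_nonneg_left _ (by norm_num)
  have h2 := harmonic_le_one_add_log T
  rw [harmonic_eq_sum_Icc] at h2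
  push_cast at h2
  exact h2

theorem det2_comm (u v : ℤ√d × ℤ√d) : det2 v u = -det2 u v := by
  simp only [det2]; ring

/-- pairs of nonzero vectors on the same line -/
theorem sum_lines (hd : 0 < d) (hns : ∀ n : ℤ, d ≠ n * n) (T : ℕ)
    (m : ℤ√d × ℤ√d → ℤ√d × ℤ√d) (U : Finset (ℤ√d × ℤ√d))
    (hU : ∀ u ∈ U, u ≠ 0 ∧ sz u ≤ T)
    (hm : ∀ u ∈ U, m u ≠ 0 ∧ det2 u (m u) = 0 ∧ ∀ x, x ≠ 0 → det2 u x = 0 → sz (m u) ≤ sz x) :
    ∑ u ∈ U, (3 + 2 * Real.sqrt d) ^ 2 * ((T : ℝ) ^ 2 / (sz (m u) : ℝ) ^ 2) ≤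
      80 * (3 + 2 * Real.sqrt d) ^ 4 * (T : ℝ) ^ 4 * (1 + Real.log T) := by
  classical
  have hle : ∀ u ∈ U, sz (m u) ≤ T := fun u hu =>
    ((hm u hu).2.2 u (hU u hu).1 (det2_self u)).trans (hU u hu).2
  have hmaps : ∀ u ∈ U, m u ∈ U.image m := fun u hu => Finset.mem_image_of_mem m hu
  rw [← Finset.sum_fiberwise_of_maps_to hmaps]
  set K := 3 + 2 * Real.sqrt d with hK
  have hK0 : 0 ≤ K := by positivity
  have h1 : ∀ w ∈ U.image m,
      ∑ u ∈ U.filter (fun u => m u = w), K ^ 2 * ((T : ℝ) ^ 2 / (sz (m u) : ℝ) ^ 2) ≤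
        (K ^ 4 * (T : ℝ) ^ 4) * (1 / (sz w : ℝ) ^ 4) := by
    intro w hw
    obtain ⟨u0, hu0, rfl⟩ := Finset.mem_image.1 hw
    rw [Finset.sum_congr rfl (fun u hu => by rw [(Finset.mem_filter.1 hu).2]), Finset.sum_const,
      nsmul_eq_mul]
    have hb : 0 < sz (m u0) := sz_pos (hm u0 hu0).1
    have hb' : (0 : ℝ) < sz (m u0) := by exact_mod_cast hb
    have hc := card_coset' hd hns (hm u0 hu0).1 (sz (m u0)) hb (by
        intro x hx hdx
        exact (hm u0 hu0).2.2 x hx (det2_trans hns hd (hm u0 hu0).1 (hm u0 hu0).2.1 hdx))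
      (U.filter (fun u => m u = m u0)) 0 T (hle u0 hu0)
      (fun v hv => (hU v (Finset.mem_filter.1 hv).1).2) (by
        intro v hv
        rw [Finset.mem_filter] at hv
        rw [det2_comm, ← hv.2, (hm v hv.1).2.1, neg_zero])
    rw [← hK] at hc
    calc ((U.filter (fun u => m u = m u0)).card : ℝ) * (K ^ 2 * ((T : ℝ) ^ 2 / (sz (m u0) : ℝ) ^ 2))
        ≤ (K ^ 2 * ((T : ℝ) ^ 2 / (sz (m u0) : ℝ) ^ 2)) *
          (K ^ 2 * ((T : ℝ) ^ 2 / (sz (m u0) : ℝ) ^ 2)) :=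
          mul_le_mul_of_nonneg_right hc (by positivity)
      _ = (K ^ 4 * (T : ℝ) ^ 4) * (1 / (sz (m u0) : ℝ) ^ 4) := by
          field_simp
  refine (Finset.sum_le_sum h1).trans ?_
  rw [← Finset.mul_sum]
  have h2 := sum_inv T (U.image m) (by
    intro w hw
    obtain ⟨u0, hu0, rfl⟩ := Finset.mem_image.1 hw
    exact ⟨(hm u0 hu0).1, hle u0 hu0⟩)
  calc K ^ 4 * (T : ℝ) ^ 4 * ∑ w ∈ U.image m, 1 / (sz w : ℝ) ^ 4
      ≤ K ^ 4 * (T : ℝ) ^ 4 * (80 * (1 + Real.log T)) := by gcongr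
    _ = _ := by ring

/-- **The determinant count.** The number of pairs of vectors of `(ℤ√d)²`, all integer coordinates
of absolute value at most `T`, with a given determinant, is at most `C T⁴ (1 + log T)`. -/
theorem det_count (hd : 0 < d) (hns : ∀ n : ℤ, d ≠ n * n) (T : ℕ) (hT : 1 ≤ T) (c : ℤ√d)
    (S : Finset ((ℤ√d × ℤ√d) × (ℤ√d × ℤ√d)))
    (hS : ∀ x ∈ S, sz x.1 ≤ T ∧ sz x.2 ≤ T ∧ det2 x.1 x.2 = c) :
    (S.card : ℝ) ≤ (81 + 80 * (3 + 2 * Real.sqrt d) ^ 4) * (T : ℝ) ^ 4 * (1 + Real.log T) := by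
  classical
  have hT0 : (0 : ℝ) ≤ Real.log T := Real.log_natCast_nonneg T
  choose! m hm using fun (u : ℤ√d × ℤ√d) (hu : u ≠ 0) => exists_min u hu
  have hmaps : ∀ x ∈ S, x.1 ∈ box d T := fun x hx => (mem_box T x.1).2 (hS x hx).1
  rw [Finset.card_eq_sum_card_fiberwise hmaps]
  have h0 : (0 : ℤ√d × ℤ√d) ∈ box d T := by
    rw [mem_box]; simp [sz]
  rw [← Finset.add_sum_erase _ _ h0]
  have hfib : ∀ u : ℤ√d × ℤ√d, (S.filter (fun x => x.1 = u)).card =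
      ((S.filter (fun x => x.1 = u)).image Prod.snd).card := by
    intro u
    symm
    apply Finset.card_image_of_injOn
    rintro x hx y hy hxy
    rw [Finset.mem_coe, Finset.mem_filter] at hx hy
    exact Prod.ext (hx.2.trans hy.2.symm) hxy
  have hzero : ((S.filter (fun x => x.1 = 0)).card : ℝ) ≤ 81 * (T : ℝ) ^ 4 := by
    rw [hfib]
    have h1 : (S.filter (fun x => x.1 = 0)).image Prod.snd ⊆ box d T := by
      intro w hw
      obtain ⟨x, hx, rfl⟩ := Finset.mem_image.1 hw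
      exact (mem_box T x.2).2 (hS x (Finset.mem_filter.1 hx).1).2.1
    have h2 := Finset.card_le_card h1
    rw [card_box] at h2
    have h3 : (2 * T + 1) ^ 4 ≤ (3 * T) ^ 4 := Nat.pow_le_pow_left (by omega) 4
    have h4 : (((S.filter (fun x => x.1 = 0)).image Prod.snd).card : ℝ) ≤ ((3 * T) ^ 4 : ℕ) := by
      exact_mod_cast h2.trans h3
    refine h4.trans (le_of_eq ?_)
    push_cast; ring
  have hline : ∀ u ∈ (box d T).erase 0, ((S.filter (fun x => x.1 = u)).card : ℝ) ≤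
      (3 + 2 * Real.sqrt d) ^ 2 * ((T : ℝ) ^ 2 / (sz (m u) : ℝ) ^ 2) := by
    intro u hu
    rw [Finset.mem_erase, mem_box] at hu
    obtain ⟨hm1, hm2, hm3⟩ := hm u hu.1
    rw [hfib]
    apply card_coset' hd hns hu.1 (sz (m u)) (sz_pos hm1) hm3 _ c T
      ((hm3 u hu.1 (det2_self u)).trans hu.2)
    · intro v hv
      obtain ⟨x, hx, rfl⟩ := Finset.mem_image.1 hv
      exact (hS x (Finset.mem_filter.1 hx).1).2.1
    · intro v hv
      obtain ⟨x, hx, rfl⟩ := Finset.mem_image.1 hv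
      rw [Finset.mem_filter] at hx
      rw [← hx.2]
      exact (hS x hx.1).2.2
  have hsum := sum_lines hd hns T m ((box d T).erase 0)
    (fun u hu => by rw [Finset.mem_erase, mem_box] at hu; exact hu)
    (fun u hu => hm u (Finset.mem_erase.1 hu).1)
  push_cast
  have h5 : (∑ u ∈ (box d T).erase 0, ((S.filter (fun x => x.1 = u)).card : ℝ)) ≤ _ :=
    (Finset.sum_le_sum hline).trans hsum
  have h6 : 81 * (T : ℝ) ^ 4 ≤ 81 * (T : ℝ) ^ 4 * (1 + Real.log T) := by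
    apply le_mul_of_one_le_right (by positivity)
    linarith
  calc ((S.filter (fun x => x.1 = 0)).card : ℝ) +
        ∑ u ∈ (box d T).erase 0, ((S.filter (fun x => x.1 = u)).card : ℝ)
      ≤ 81 * (T : ℝ) ^ 4 * (1 + Real.log T) +
        80 * (3 + 2 * Real.sqrt d) ^ 4 * (T : ℝ) ^ 4 * (1 + Real.log T) :=
        add_le_add (hzero.trans h6) h5
    _ = _ := by ring

end Vale.Agent.P036.QF.DC
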