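import Mathlib
import Vale.Agent.P036.QF.Basic
import Vale.Agent.P036.QF.DetCount

/-!
# P036, quadratic route: block E, the determinant count in the form used by the core
-/

namespace Vale.Agent.P036.QF

open Finset

theorem e_mem_sbox {d : ℤ} {Y : ℕ} {x : ℤ√d} (hx : x ∈ sbox d Y) :
    x.re.natAbs ≤ Y ∧ x.im.natAbs ≤ Y := by
  unfold sbox at hx
  obtain ⟨t, ht, rfl⟩ := Finset.mem_image.1 hx
  rw [Finset.mem_product, Finset.mem_Icc, Finset.mem_Icc] at ht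
  simp only
  omega

theorem det_count : ∃ C : ℕ, 0 < C ∧ ∀ d : ℤ, Good d → ∀ Y : ℕ, 1 ≤ Y →
    ∀ c : ℤ√d, (detCount d Y c : ℝ) ≤ C * (Y:ℝ) ^ 4 * (1 + Real.log Y) := by
  refine ⟨81 + 80 * 8 ^ 4, by norm_num, fun d hd Y hY c => ?_⟩
  have hY0 : (0 : ℝ) ≤ Real.log Y := Real.log_natCast_nonneg Y
  have h := DC.det_count (d := d) hd.pos hd.nonsquare Y hY c
    (((sbox d Y ×ˢ sbox d Y) ×ˢ (sbox d Y ×ˢ sbox d Y)).filter
      fun t : (ℤ√d × ℤ√d) × (ℤ√d × ℤ√d) => t.1.1 * t.2.2 - t.1.2 * t.2.1 = c) (by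
    intro x hx
    rw [Finset.mem_filter, Finset.mem_product, Finset.mem_product, Finset.mem_product] at hx
    obtain ⟨⟨⟨h1, h2⟩, h3, h4⟩, h5⟩ := hx
    refine ⟨?_, ?_, h5⟩
    · rw [DC.sz_le_iff]
      exact ⟨e_mem_sbox h1, e_mem_sbox h2⟩
    · rw [DC.sz_le_iff]
      exact ⟨e_mem_sbox h3, e_mem_sbox h4⟩)
  unfold detCount
  refine h.trans ?_
  have hs : Real.sqrt d ≤ 5 / 2 := by
    apply Real.sqrt_le_iff.2 ⟨by norm_num, ?_⟩
    have : (d : ℝ) ≤ 6 := by exact_mod_cast hd.le_six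
    linarith
  have hs0 : 0 ≤ Real.sqrt d := Real.sqrt_nonneg _
  have h8 : (81 + 80 * (3 + 2 * Real.sqrt d) ^ 4) ≤ ((81 + 80 * 8 ^ 4 : ℕ) : ℝ) := by
    push_cast
    have : (3 + 2 * Real.sqrt d) ^ 4 ≤ (8 : ℝ) ^ 4 := by
      apply pow_le_pow_left₀ (by positivity)
      linarith
    linarith
  gcongr

end Vale.Agent.P036.QF
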