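import Mathlib

/-!
Block H (parameters), purely numerical part.
-/

namespace Vale.Agent.P036.QF.Par
open Filter Real

/-- the constant `C₀` -/
def c0 (m : ℕ) : ℕ := 600000 * m ^ 2

/-- the constant `C₁` -/
def c1 (m : ℕ) : ℕ := 2 * (2 * c0 m) ^ (m + 1)

/-- growth conditions on `l`, with the integer `Lg` playing the role of `1 + log Y` -/
theorem growth (m CE : ℕ) : ∀ᶠ l : ℕ in atTop,
    5 ≤ l ∧ c1 m * Nat.sqrt (Nat.sqrt l) ≤ l ^ 2 ∧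
    48 * (CE:ℝ) * (1 + (1 + (4 * m + 22) * Real.log l)) * (c1 m : ℝ) ^ 2 *
      ((Nat.sqrt (Nat.sqrt l) : ℕ) : ℝ) ^ 2 ≤ (l:ℝ) ∧
    (8 * (CE:ℝ) * 10000 * (90 * m) ^ (2 * m) + 8 * CE) *
      (1 + (1 + (4 * m + 22) * Real.log l)) ≤ (l:ℝ) ^ 2 := by
  have hc : ∀ C : ℝ, ∀ᶠ l : ℕ in atTop, C ≤ (l:ℝ) := fun C =>
    tendsto_natCast_atTop_atTop.eventually (eventually_ge_atTop C)
  have hlog : ∀ δ : ℝ, 0 < δ → ∀ᶠ l : ℕ in atTop, Real.log l ≤ δ * Real.sqrt l := by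
    intro δ hδ
    have h1 := (isLittleO_log_rpow_atTop (show (0:ℝ) < 1/2 by norm_num)).bound hδ
    filter_upwards [tendsto_natCast_atTop_atTop.eventually h1, hc 1] with l hl hl1
    rw [Real.norm_of_nonneg (Real.log_nonneg hl1),
      Real.norm_of_nonneg (by positivity)] at hl
    rwa [Real.sqrt_eq_rpow]
  set B : ℝ := 48 * (CE:ℝ) * (c1 m : ℝ) ^ 2 with hB
  have hB0 : 0 ≤ B := by positivity
  -- (2 + (4m+22) log l) B ≤ √l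
  have key : ∀ B' : ℝ, 0 ≤ B' → ∀ᶠ l : ℕ in atTop,
      B' * (1 + (1 + (4 * m + 22) * Real.log l)) ≤ Real.sqrt l := by
    intro B' hB'
    have hδ : 0 < 1 / (2 * (B' + 1) * (4 * m + 22)) := by positivity
    filter_upwards [hlog _ hδ, hc (16 * (B' + 1) ^ 2)] with l h1 h2
    have h3 : 4 * (B' + 1) ≤ Real.sqrt l := by
      apply Real.le_sqrt_of_sq_le
      calc (4 * (B' + 1)) ^ 2 = 16 * (B' + 1) ^ 2 := by ring
        _ ≤ (l:ℝ) := h2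
    have h4 : (B' + 1) * (4 * m + 22) * Real.log l ≤ Real.sqrt l / 2 := by
      calc (B' + 1) * (4 * m + 22) * Real.log l
          ≤ (B' + 1) * (4 * m + 22) * (1 / (2 * (B' + 1) * (4 * m + 22)) * Real.sqrt l) := by
            gcongr
        _ = Real.sqrt l / 2 := by field_simp
    have h5 : 0 ≤ Real.sqrt l := Real.sqrt_nonneg _
    have h6 : B' * ((4 * m + 22) * Real.log l) ≤ (B' + 1) * (4 * m + 22) * Real.log l := by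
      have : 0 ≤ (4 * (m:ℝ) + 22) * Real.log l := by
        have : 0 ≤ Real.log l := Real.log_natCast_nonneg l
        positivity
      nlinarith
    nlinarith
  filter_upwards [eventually_ge_atTop 5, key B hB0,
    key (8 * (CE:ℝ) * 10000 * (90 * m) ^ (2 * m) + 8 * CE) (by positivity),
    hc (c1 m)] with l h5 h1 h2 h3
  have hl5 : (5:ℝ) ≤ l := by exact_mod_cast h5
  have hj2 : Nat.sqrt (Nat.sqrt l) ^ 2 ≤ Nat.sqrt l := Nat.sqrt_le' _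
  have hj4 : Nat.sqrt l ^ 2 ≤ l := Nat.sqrt_le' _
  have hjr : ((Nat.sqrt (Nat.sqrt l) : ℕ) : ℝ) ^ 2 ≤ Real.sqrt l := by
    have : ((Nat.sqrt (Nat.sqrt l) : ℕ) : ℝ) ^ 2 ≤ (Nat.sqrt l : ℕ) := by exact_mod_cast hj2
    exact this.trans Real.nat_sqrt_le_real_sqrt
  have hss : Real.sqrt l * Real.sqrt l = l := Real.mul_self_sqrt (by positivity)
  have hs0 : 0 ≤ Real.sqrt l := Real.sqrt_nonneg _
  refine ⟨h5, ?_, ?_, ?_⟩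
  · have h6 : Nat.sqrt (Nat.sqrt l) ≤ l := by
      calc Nat.sqrt (Nat.sqrt l) ≤ Nat.sqrt l := Nat.sqrt_le_self _
        _ ≤ l := Nat.sqrt_le_self _
    have h7 : c1 m ≤ l := by exact_mod_cast h3
    calc c1 m * Nat.sqrt (Nat.sqrt l) ≤ l * l := Nat.mul_le_mul h7 h6
      _ = l ^ 2 := by ring
  · calc 48 * (CE:ℝ) * (1 + (1 + (4 * m + 22) * Real.log l)) * (c1 m : ℝ) ^ 2 *
          ((Nat.sqrt (Nat.sqrt l) : ℕ) : ℝ) ^ 2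
        = (B * (1 + (1 + (4 * m + 22) * Real.log l))) *
          ((Nat.sqrt (Nat.sqrt l) : ℕ) : ℝ) ^ 2 := by rw [hB]; ring
      _ ≤ Real.sqrt l * Real.sqrt l := by gcongr
      _ = l := hss
  · refine h2.trans ?_
    have h8 : Real.sqrt l ≤ l := by
      rw [Real.sqrt_le_left (by positivity)]
      nlinarith
    nlinarith

theorem expo (m : ℕ) (hm : 40 ≤ m) : ∃ b, m = b + 40 ∧
    8 * m ^ 2 + 44 * m - 20 = 8 * b ^ 2 + 684 * b + 14540 := by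
  obtain ⟨b, rfl⟩ : ∃ b, m = b + 40 := ⟨m - 40, by omega⟩
  refine ⟨b, rfl, ?_⟩
  have : 8 * (b + 40) ^ 2 + 44 * (b + 40) = 8 * b ^ 2 + 684 * b + 14560 := by ring
  omega

theorem kappa_eq (m l : ℕ) (hm : 40 ≤ m) (hl : 1 ≤ l) :
    (l ^ (2 * m + 12) / l) ^ (4 * m - 1) * (l ^ (2 * m - 8) / l) =
      l ^ (8 * m ^ 2 + 44 * m - 20) := by
  have hlpos : 0 < l := hl
  have d1 : l ^ (2 * m + 12) / l = l ^ (2 * m + 11) := by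
    rw [show l ^ (2 * m + 12) = l * l ^ (2 * m + 11) by rw [← pow_succ']]
    exact Nat.mul_div_cancel_left _ hlpos
  have d2 : l ^ (2 * m - 8) / l = l ^ (2 * m - 9) := by
    rw [show l ^ (2 * m - 8) = l * l ^ (2 * m - 9) by rw [← pow_succ']; congr 1; omega]
    exact Nat.mul_div_cancel_left _ hlpos
  rw [d1, d2, ← pow_mul, ← pow_add]
  congr 1
  obtain ⟨b, rfl, hb⟩ := expo m hm
  rw [hb, show 4 * (b + 40) - 1 = 4 * b + 159 by omega, show 2 * (b + 40) - 9 = 2 * b + 71 by omega]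
  ring

theorem lemA1 (m l j K p : ℕ) (hm : 40 ≤ m) 
    (hK2 : c1 m * j * K ≤ l ^ 2)
    (hp2 : p ≤ 2 * (c0 m * (l ^ (2 * m + 12)) ^ 4)) :
    2 * ((l ^ (4 * m + 21) * j) * K ^ 3 * p ^ (3 * m + 2)) ≤
      K ^ 2 * ((l ^ (4 * m + 22)) ^ 4 * (l ^ 3 * l ^ (8 * m ^ 2 + 44 * m - 20))) *
        p ^ (2 * m + 1) := by
  have A1 : 2 * ((l ^ (4 * m + 21) * j) * K * p ^ (m + 1)) ≤
      (l ^ (4 * m + 22)) ^ 4 * (l ^ 3 * l ^ (8 * m ^ 2 + 44 * m - 20)) := by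
    calc 2 * ((l ^ (4 * m + 21) * j) * K * p ^ (m + 1))
        ≤ 2 * ((l ^ (4 * m + 21) * j) * K * (2 * (c0 m * (l ^ (2 * m + 12)) ^ 4)) ^ (m + 1)) := by
          gcongr
      _ = l ^ (4 * m + 21) * (c1 m * j * K) * ((l ^ (2 * m + 12)) ^ 4) ^ (m + 1) := by
          unfold c1
          rw [show (2 * (c0 m * (l ^ (2 * m + 12)) ^ 4)) ^ (m + 1) =
            (2 * c0 m) ^ (m + 1) * ((l ^ (2 * m + 12)) ^ 4) ^ (m + 1) by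
              rw [← mul_pow]; congr 1; ring]
          ring
      _ ≤ l ^ (4 * m + 21) * l ^ 2 * ((l ^ (2 * m + 12)) ^ 4) ^ (m + 1) := by gcongr
      _ = (l ^ (4 * m + 22)) ^ 4 * (l ^ 3 * l ^ (8 * m ^ 2 + 44 * m - 20)) := by
          rw [← pow_mul, ← pow_mul, ← pow_mul, ← pow_add, ← pow_add, ← pow_add, ← pow_add]
          congr 1
          obtain ⟨b, rfl, hb⟩ := expo m hm
          rw [hb]
          ring
  calc 2 * ((l ^ (4 * m + 21) * j) * K ^ 3 * p ^ (3 * m + 2)) =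
      K ^ 2 * (2 * ((l ^ (4 * m + 21) * j) * K * p ^ (m + 1))) * p ^ (2 * m + 1) := by
        rw [show 3 * m + 2 = (m + 1) + (2 * m + 1) by ring, pow_add]; ring
    _ ≤ _ := by gcongr

theorem lemA2 (m : ℕ) (l j K p E CE c L κ : ℝ) (hm : 40 ≤ m) (hl : 1 ≤ l) (hj : 1 ≤ j)
    (hc : 1 ≤ c)
    (hK3 : l ^ 2 ≤ 2 * (c * j * K)) (hpR : l ^ (8 * m + 48) ≤ p)
    (hE : E ≤ CE * (l ^ (4 * m + 22)) ^ 4 * L)
    (g3 : 48 * CE * L * c ^ 2 * j ^ 2 ≤ l)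
    (hκ : κ = l ^ (8 * m ^ 2 + 44 * m - 20)) :
    12 * E * l ^ 3 * κ ^ 2 ≤ K ^ 2 * p ^ (2 * m + 1) := by
  have hl0 : 0 < l := by linarith
  have hp0 : 0 < p := lt_of_lt_of_le (by positivity) hpR
  have hκ0 : 0 < κ := by rw [hκ]; positivity
  have hcj : 0 < 4 * (c * j) ^ 2 := by positivity
  have h1 : l ^ 4 ≤ 4 * (c * j) ^ 2 * K ^ 2 := by
    calc l ^ 4 = (l ^ 2) ^ 2 := by ring
      _ ≤ (2 * (c * j * K)) ^ 2 := by gcongr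
      _ = _ := by ring
  have hexp : l * ((l ^ (4 * m + 22)) ^ 4 * l ^ 3 * κ ^ 2) =
      l ^ 4 * (l ^ (8 * m + 48)) ^ (2 * m + 1) := by
    rw [hκ, ← pow_mul, ← pow_mul, ← pow_mul, ← pow_add, ← pow_add, ← pow_succ',
      ← pow_add]
    congr 1
    obtain ⟨b, rfl, hb⟩ := expo m hm
    rw [hb]
    ring
  have h2 : 12 * E * l ^ 3 * κ ^ 2 * (4 * (c * j) ^ 2) ≤ l ^ 4 * p ^ (2 * m + 1) := by
    calc 12 * E * l ^ 3 * κ ^ 2 * (4 * (c * j) ^ 2)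
        ≤ 12 * (CE * (l ^ (4 * m + 22)) ^ 4 * L) * l ^ 3 * κ ^ 2 *
          (4 * (c * j) ^ 2) := by gcongr
      _ = (48 * CE * L * c ^ 2 * j ^ 2) * ((l ^ (4 * m + 22)) ^ 4 * l ^ 3 * κ ^ 2) := by ring
      _ ≤ l * ((l ^ (4 * m + 22)) ^ 4 * l ^ 3 * κ ^ 2) := by gcongr
      _ = l ^ 4 * (l ^ (8 * m + 48)) ^ (2 * m + 1) := hexp
      _ ≤ l ^ 4 * p ^ (2 * m + 1) := by gcongr
  have h3 : l ^ 4 * p ^ (2 * m + 1) ≤ (4 * (c * j) ^ 2 * K ^ 2) * p ^ (2 * m + 1) := by gcongr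
  have h5 : 12 * E * l ^ 3 * κ ^ 2 * (4 * (c * j) ^ 2) ≤
      (K ^ 2 * p ^ (2 * m + 1)) * (4 * (c * j) ^ 2) := by
    refine (h2.trans h3).trans (le_of_eq ?_); ring
  exact le_of_mul_le_mul_right h5 hcj

theorem col_bound (m : ℕ) (l : ℝ) (hm : 40 ≤ m) (hl : 1 ≤ l) :
    10000 * ((l ^ (2 * m + 12)) ^ (2 * (m + m) - 1) * l ^ (2 * m - 8)) *
      (9 * l ^ (2 * m + 12) * (10 * m * l ^ (2 * m + 2))) ^ (m + m - 1) * (l ^ (2 * m + 12)) ^ 4 ≤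
    10000 * (90 * (m:ℝ)) ^ (2 * m) * l ^ (16 * m ^ 2 + 80 * m + 14) := by
  have hl0 : 0 < l := by linarith
  have hmR : (40:ℝ) ≤ m := by exact_mod_cast hm
  have e1 : (9 * l ^ (2 * m + 12) * (10 * m * l ^ (2 * m + 2))) =
      (90 * (m:ℝ)) * l ^ (4 * m + 14) := by
    rw [show 4 * m + 14 = (2 * m + 12) + (2 * m + 2) by ring, pow_add]; ring
  rw [e1, mul_pow]
  have e2 : (90 * (m:ℝ)) ^ (m + m - 1) ≤ (90 * (m:ℝ)) ^ (2 * m) :=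
    pow_le_pow_right₀ (by linarith) (by omega)
  calc 10000 * ((l ^ (2 * m + 12)) ^ (2 * (m + m) - 1) *
      l ^ (2 * m - 8)) * ((90 * (m:ℝ)) ^ (m + m - 1) *
        (l ^ (4 * m + 14)) ^ (m + m - 1)) * (l ^ (2 * m + 12)) ^ 4
      ≤ 10000 * ((l ^ (2 * m + 12)) ^ (2 * (m + m) - 1) *
      l ^ (2 * m - 8)) * ((90 * (m:ℝ)) ^ (2 * m) *
        (l ^ (4 * m + 14)) ^ (m + m - 1)) * (l ^ (2 * m + 12)) ^ 4 := by gcongr
    _ = 10000 * (90 * (m:ℝ)) ^ (2 * m) * ((l ^ (2 * m + 12)) ^ (2 * (m + m) - 1) *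
      l ^ (2 * m - 8) * (l ^ (4 * m + 14)) ^ (m + m - 1) * (l ^ (2 * m + 12)) ^ 4) := by ring
    _ = 10000 * (90 * (m:ℝ)) ^ (2 * m) * l ^ (16 * m ^ 2 + 80 * m + 14) := by
        congr 1
        rw [← pow_mul, ← pow_mul, ← pow_mul, ← pow_add, ← pow_add, ← pow_add]
        congr 1
        obtain ⟨b, rfl⟩ : ∃ b, m = b + 40 := ⟨m - 40, by omega⟩
        rw [show 2 * (b + 40 + (b + 40)) - 1 = 4 * b + 159 by omega,
          show 2 * (b + 40) - 8 = 2 * b + 72 by omega,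
          show b + 40 + (b + 40) - 1 = 2 * b + 79 by omega]
        ring

theorem lemA3 (m : ℕ) (l K p E CE L κ Col : ℝ) (hm : 40 ≤ m) (hl : 1 ≤ l)
    (hK1 : 1 ≤ K) (hCE : 0 ≤ CE) (hL : 1 ≤ L) (hCol0 : 0 ≤ Col)
    (hpR : l ^ (8 * m + 48) ≤ p)
    (hE : E ≤ CE * (l ^ (4 * m + 22)) ^ 4 * L)
    (g4 : (8 * CE * 10000 * (90 * m) ^ (2 * m) + 8 * CE) * L ≤ l ^ 2)
    (hκ : κ = l ^ (8 * m ^ 2 + 44 * m - 20))
    (hColb : Col ≤ 10000 * (90 * (m:ℝ)) ^ (2 * m) * l ^ (16 * m ^ 2 + 80 * m + 14)) :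
    4 * E * (l ^ 3 * κ + Col) ≤ K ^ 2 * (l ^ 3 * κ) * p ^ (m + 1) := by
  have hl0 : 0 < l := by linarith
  have hp0 : 0 < p := lt_of_lt_of_le (by positivity) hpR
  have hκ0 : 0 < κ := by rw [hκ]; positivity
  obtain ⟨R, hR⟩ : ∃ R : ℝ, R = l ^ (16 * m ^ 2 + 100 * m + 31) := ⟨_, rfl⟩
  have hR1 : l ^ 3 * κ * (l ^ (8 * m + 48)) ^ (m + 1) = R := by
    rw [hκ, hR, ← pow_mul, ← pow_add, ← pow_add]
    congr 1
    obtain ⟨b, rfl, hb⟩ := expo m hm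
    rw [hb]
    ring
  have hRle : R ≤ K ^ 2 * (l ^ 3 * κ) * p ^ (m + 1) := by
    calc R = 1 ^ 2 * (l ^ 3 * κ) * (l ^ (8 * m + 48)) ^ (m + 1) := by
          rw [← hR1]; ring
      _ ≤ K ^ 2 * (l ^ 3 * κ) * p ^ (m + 1) := by gcongr
  refine le_trans ?_ hRle
  have s1 : (l ^ (4 * m + 22)) ^ 4 * l ^ 2 * (l ^ 3 * κ) ≤ R := by
    rw [hκ, hR, ← pow_mul, ← pow_add, ← pow_add, ← pow_add]
    apply pow_le_pow_right₀ hl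
    obtain ⟨b, rfl, hb⟩ := expo m hm
    rw [hb, show 16 * (b + 40) ^ 2 + 100 * (b + 40) + 31 = 16 * b ^ 2 + 1380 * b + 29631 by ring]
    generalize b ^ 2 = q
    omega
  have s2 : (l ^ (4 * m + 22)) ^ 4 * l ^ 2 * l ^ (16 * m ^ 2 + 80 * m + 14) ≤ R := by
    rw [hR, ← pow_mul, ← pow_add, ← pow_add]
    apply pow_le_pow_right₀ hl
    linarith
  have t1 : 0 ≤ 8 * CE * 10000 * (90 * m) ^ (2 * m) * L := by positivity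
  have t2 : 0 ≤ 8 * CE * L := by positivity
  have u1 : 8 * CE * L ≤ l ^ 2 := by rw [add_mul] at g4; linarith
  have u2 : 8 * CE * 10000 * (90 * m) ^ (2 * m) * L ≤ l ^ 2 := by rw [add_mul] at g4; linarith
  have v1 : 2 * (4 * E * (l ^ 3 * κ)) ≤ R := by
    calc 2 * (4 * E * (l ^ 3 * κ))
        ≤ 2 * (4 * (CE * (l ^ (4 * m + 22)) ^ 4 * L) * (l ^ 3 * κ)) := by gcongr
      _ = (8 * CE * L) * ((l ^ (4 * m + 22)) ^ 4 * (l ^ 3 * κ)) := by ring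
      _ ≤ l ^ 2 * ((l ^ (4 * m + 22)) ^ 4 * (l ^ 3 * κ)) := by gcongr
      _ = (l ^ (4 * m + 22)) ^ 4 * l ^ 2 * (l ^ 3 * κ) := by ring
      _ ≤ R := s1
  have v2 : 2 * (4 * E * Col) ≤ R := by
    calc 2 * (4 * E * Col)
        ≤ 2 * (4 * (CE * (l ^ (4 * m + 22)) ^ 4 * L) *
          (10000 * (90 * (m:ℝ)) ^ (2 * m) * l ^ (16 * m ^ 2 + 80 * m + 14))) := by gcongr
      _ = (8 * CE * 10000 * (90 * m) ^ (2 * m) * L) *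
          ((l ^ (4 * m + 22)) ^ 4 * l ^ (16 * m ^ 2 + 80 * m + 14)) := by ring
      _ ≤ l ^ 2 * ((l ^ (4 * m + 22)) ^ 4 * l ^ (16 * m ^ 2 + 80 * m + 14)) := by gcongr
      _ = (l ^ (4 * m + 22)) ^ 4 * l ^ 2 * l ^ (16 * m ^ 2 + 80 * m + 14) := by ring
      _ ≤ R := s2
  rw [mul_add]
  linarith

/-- the main inequality of the core with the chosen parameters -/
theorem main_ineq (m l j K p E CE : ℕ) (L : ℝ) (hm : 40 ≤ m) (hl : 1 ≤ l) (hj : 1 ≤ j)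
    (hL1 : 1 ≤ L)
    (hK : K = l ^ 2 / (c1 m * j)) (hKl : c1 m * j ≤ l ^ 2)
    (hp1 : c0 m * (l ^ (2 * m + 12)) ^ 4 < p) (hp2 : p ≤ 2 * (c0 m * (l ^ (2 * m + 12)) ^ 4))
    (hE : (E:ℝ) ≤ CE * ((l:ℝ) ^ (4 * m + 22)) ^ 4 * L)
    (g3 : 48 * (CE:ℝ) * L * (c1 m : ℝ) ^ 2 * (j:ℝ) ^ 2 ≤ (l:ℝ))
    (g4 : (8 * (CE:ℝ) * 10000 * (90 * m) ^ (2 * m) + 8 * CE) * L ≤ (l:ℝ) ^ 2) :
    0 < K ∧
    (l ^ (4 * m + 21) * j) * K ^ 3 * p ^ (3 * m + 2) +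
        3 * E * (l ^ (4 * m + 22)) ^ 4 * (l ^ 3) ^ 2 *
          ((l ^ (2 * m + 12) / l) ^ (4 * m - 1) * (l ^ (2 * m - 8) / l)) ^ 3 +
        E * (l ^ (4 * m + 22)) ^ 4 *
          (l ^ 3 * ((l ^ (2 * m + 12) / l) ^ (4 * m - 1) * (l ^ (2 * m - 8) / l)) +
            10000 * ((l ^ (2 * m + 12)) ^ (2 * (m + m) - 1) * l ^ (2 * m - 8)) *
              (9 * l ^ (2 * m + 12) * (10 * m * l ^ (2 * m + 2))) ^ (m + m - 1) *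
              (l ^ (2 * m + 12)) ^ 4) * p ^ m
      ≤ K ^ 2 * ((l ^ (4 * m + 22)) ^ 4 *
          (l ^ 3 * ((l ^ (2 * m + 12) / l) ^ (4 * m - 1) * (l ^ (2 * m - 8) / l)))) *
          p ^ (2 * m + 1) := by
  have hlR : (1:ℝ) ≤ l := by exact_mod_cast hl
  have hlR0 : (0:ℝ) < l := by linarith
  have hc0 : 1 ≤ c0 m := by unfold c0; nlinarith
  have hc1 : 0 < c1 m := by unfold c1; positivity
  rw [kappa_eq m l hm hl]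
  have hK1 : 1 ≤ K := by
    rw [hK]; exact (Nat.one_le_div_iff (by positivity)).2 hKl
  have hK2 : c1 m * j * K ≤ l ^ 2 := by rw [hK]; exact Nat.mul_div_le _ _
  have hK3 : (l:ℝ) ^ 2 ≤ 2 * (c1 m * j * K) := by
    have h1 : l ^ 2 < c1 m * j * (K + 1) := by
      rw [hK]; exact Nat.lt_mul_div_succ _ (by positivity)
    have h2 : c1 m * j * (K + 1) ≤ c1 m * j * (K + K) := by gcongr
    have h3 : l ^ 2 ≤ 2 * (c1 m * j * K) := by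
      calc l ^ 2 ≤ c1 m * j * (K + K) := (h1.trans_le h2).le
        _ = _ := by ring
    exact_mod_cast h3
  refine ⟨hK1, ?_⟩
  have hpR : (l:ℝ) ^ (8 * m + 48) ≤ p := by
    have : l ^ (8 * m + 48) ≤ p := by
      calc l ^ (8 * m + 48) = 1 * (l ^ (2 * m + 12)) ^ 4 := by
            rw [one_mul, ← pow_mul]; congr 1; ring
        _ ≤ c0 m * (l ^ (2 * m + 12)) ^ 4 := by gcongr
        _ ≤ p := hp1.le
    exact_mod_cast this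
  obtain ⟨κ, hκ⟩ : ∃ κ : ℝ, κ = (l:ℝ) ^ (8 * m ^ 2 + 44 * m - 20) := ⟨_, rfl⟩
  obtain ⟨Col, hCol⟩ : ∃ Col : ℝ, Col = 10000 * (((l:ℝ) ^ (2 * m + 12)) ^ (2 * (m + m) - 1) *
      (l:ℝ) ^ (2 * m - 8)) * (9 * (l:ℝ) ^ (2 * m + 12) * (10 * m * (l:ℝ) ^ (2 * m + 2))) ^
      (m + m - 1) * ((l:ℝ) ^ (2 * m + 12)) ^ 4 := ⟨_, rfl⟩
  have A1' := lemA1 m l j K p hm hK2 hp2
  have A2 := lemA2 m l j K p E CE (c1 m) L κ hm hlR (by exact_mod_cast hj)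
    (by exact_mod_cast hc1) hK3 hpR hE g3 hκ
  have A3 := lemA3 m l K p E CE L κ Col hm hlR (by exact_mod_cast hK1)
    (by positivity) hL1 (by rw [hCol]; positivity) hpR hE g4 hκ
    (by rw [hCol]; exact col_bound m l hm hlR)
  obtain ⟨y, hy⟩ : ∃ y : ℝ, y = ((l:ℝ) ^ (4 * m + 22)) ^ 4 := ⟨_, rfl⟩
  have hy0 : 0 ≤ y := by rw [hy]; positivity
  have hκ0 : 0 ≤ κ := by rw [hκ]; positivity
  obtain ⟨q, hq⟩ : ∃ q : ℝ, q = (p:ℝ) ^ (2 * m + 1) := ⟨_, rfl⟩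
  have A1R : 2 * (((l:ℝ) ^ (4 * m + 21) * j) * (K:ℝ) ^ 3 * (p:ℝ) ^ (3 * m + 2)) ≤
      (K:ℝ) ^ 2 * (y * ((l:ℝ) ^ 3 * κ)) * q := by
    rw [hκ, hy, hq]; exact_mod_cast A1'
  have A2R : 4 * (3 * (E:ℝ) * y * ((l:ℝ) ^ 3) ^ 2 * κ ^ 3) ≤
      (K:ℝ) ^ 2 * (y * ((l:ℝ) ^ 3 * κ)) * q := by
    calc 4 * (3 * (E:ℝ) * y * ((l:ℝ) ^ 3) ^ 2 * κ ^ 3) =
        (12 * (E:ℝ) * (l:ℝ) ^ 3 * κ ^ 2) * (y * ((l:ℝ) ^ 3 * κ)) := by
          ring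
      _ ≤ ((K:ℝ) ^ 2 * (p:ℝ) ^ (2 * m + 1)) * (y * ((l:ℝ) ^ 3 * κ)) := by gcongr
      _ = _ := by rw [hq]; ring
  have A3R : 4 * ((E:ℝ) * y * ((l:ℝ) ^ 3 * κ + Col) * (p:ℝ) ^ m) ≤
      (K:ℝ) ^ 2 * (y * ((l:ℝ) ^ 3 * κ)) * q := by
    calc 4 * ((E:ℝ) * y * ((l:ℝ) ^ 3 * κ + Col) * (p:ℝ) ^ m) =
        (4 * (E:ℝ) * ((l:ℝ) ^ 3 * κ + Col)) * (y * (p:ℝ) ^ m) := by ring
      _ ≤ ((K:ℝ) ^ 2 * ((l:ℝ) ^ 3 * κ) * (p:ℝ) ^ (m + 1)) * (y * (p:ℝ) ^ m) := by gcongr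
      _ = _ := by
        rw [hq, show 2 * m + 1 = (m + 1) + m by ring, pow_add]; ring
  have hfin : ((l:ℝ) ^ (4 * m + 21) * j) * (K:ℝ) ^ 3 * (p:ℝ) ^ (3 * m + 2) +
      3 * (E:ℝ) * y * ((l:ℝ) ^ 3) ^ 2 * κ ^ 3 +
      (E:ℝ) * y * ((l:ℝ) ^ 3 * κ + Col) * (p:ℝ) ^ m ≤
      (K:ℝ) ^ 2 * (y * ((l:ℝ) ^ 3 * κ)) * q := by
    linarith
  rw [hκ, hCol, hy, hq] at hfin
  exact_mod_cast hfin

end Vale.Agent.P036.QF.Par
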