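import Mathlib
import Vale.Agent.P036.QF.Basic
import Vale.Agent.P036.QF.HNum

/-!
Block H : parameters.  The statements of the blocks D2, E and K4 are taken as hypotheses
(`ColStmt`, `DetStmt`, `CoreStmt`).
-/

namespace Vale.Agent.P036.QF
open Finset Filter

/-- statement of `window_collinear` -/
def ColStmt (J : Type) [Fintype J] [DecidableEq J] : Prop :=
  ∀ (d : ℤ) (_ : Good d) (j0 : J) (M h s : ℕ) (_ : 0 < M)
    (_ : 0 < h) (_ : h ≤ M) (_ : 16 * Fintype.card J * M * (h + 2) ≤ s ^ 2),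
    (colTriples (W j0 d M h)).card ≤
      10000 * (M ^ (2 * Fintype.card J - 1) * h) * (9 * M * s) ^ (Fintype.card J - 1) * M ^ 4

/-- statement of `det_count` -/
def DetStmt : Prop := ∃ C : ℕ, 0 < C ∧ ∀ d : ℤ, Good d → ∀ Y : ℕ, 1 ≤ Y →
    ∀ c : ℤ√d, (detCount d Y c : ℝ) ≤ C * (Y:ℝ) ^ 4 * (1 + Real.log Y)

/-- statement of `core` -/
def CoreStmt (ι : Type) [Fintype ι] [DecidableEq ι] : Prop :=
  ∀ (d : ℤ) (p : ℕ) [Fact p.Prime] (r : ZMod p) (_ : r * r = (d : ZMod p))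
    (j0 : ι ⊕ ι) (_ : Good d)
    (l M h Y K n E Col κW : ℕ) (w : ℤ√d) (S : Finset (ι ⊕ ι → ZMod l × ZMod l))
    (_ : Local d l S) (_ : 0 < l) (_ : l ∣ M) (_ : l ∣ h) (_ : 0 < M) (_ : 0 < h)
    (_ : h ≤ M) (_ : 0 < Y) (_ : 0 < K) (_ : 3 ≤ n)
    (_ : (l : ℤ√d) ∣ w) (_ : w ≠ 0) (_ : |w.norm| < p) (_ : 24 * Y ^ 2 < p)
    (_ : 300000 * M ^ 4 < p)
    (_ : ∀ c, detCount d Y c ≤ E)
    (_ : κW = (M / l) ^ (4 * Fintype.card ι - 1) * (h / l))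
    (_ : (colTriples (W j0 d M h)).card ≤ Col)
    (_ : n * K ^ 3 * p ^ (3 * Fintype.card ι + 2) + 3 * E * Y ^ 4 * S.card ^ 2 * κW ^ 3
        + E * Y ^ 4 * (S.card * κW + Col) * p ^ Fintype.card ι
        ≤ K ^ 2 * (Y ^ 4 * (S.card * κW)) * p ^ (2 * Fintype.card ι + 1))
    (_ : 512 * (Fintype.card ι : ℝ) * M ^ 2 *
      (32 * |s2 d w| * Y ^ 2 + 512 * (Fintype.card ι : ℝ) * M ^ 2) ≤ p / 2),
    ∃ P : Finset (ℤ√d × ℤ√d), P.card = n ∧ (∀ t ∈ P, t.1 ∈ box d Y ∧ t.2 ∈ box d Y) ∧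
      ∀ a ∈ P, ∀ b ∈ P, ∀ c ∈ P, a ≠ b → b ≠ c → a ≠ c →
        (p : ℝ) / 2 ≤ (32 * |s2 d w| * Y ^ 2 + 512 * (Fintype.card ι : ℝ) * M ^ 2) *
          (|s1 d w| * |s1 d (dt a b c)|)


/-- real variable lemmas -/
theorem h_E (CE y L : ℝ) (x : ℝ) (h1 : x < CE * y * (L - 1) + 1) (h2 : 1 ≤ CE * y) :
    x ≤ CE * y * L := by
  have : CE * y * (L - 1) = CE * y * L - CE * y := by ring
  linarith

theorem h_l2 (l Y : ℝ) (hY : 1 ≤ Y) : l ^ 2 ≤ l ^ 2 * Y :=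
  le_mul_of_one_le_right (sq_nonneg l) hY

theorem h_Y (l Y : ℝ) (hl : 1 ≤ l) (hY : 0 ≤ Y) : Y ≤ l ^ 2 * Y :=
  le_mul_of_one_le_left hY (one_le_pow₀ hl)

theorem h_p (m M2 p : ℝ) (hm : 40 ≤ m) (hM : 1 ≤ M2) (hp : 600000 * m ^ 2 * M2 ^ 2 ≤ p) :
    300000 * M2 ^ 2 < p ∧ 24 * M2 ^ 2 < p ∧ 6 * M2 < p := by
  have h1 : (1:ℝ) ≤ m ^ 2 := one_le_pow₀ (by linarith)
  have h2 : (1:ℝ) ≤ M2 ^ 2 := one_le_pow₀ hM
  have h3 : M2 ≤ M2 ^ 2 := by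
    rw [sq]; exact le_mul_of_one_le_left (by linarith) hM
  have h4 : M2 ^ 2 ≤ m ^ 2 * M2 ^ 2 := le_mul_of_one_le_left (by linarith) h1
  have h5 : 600000 * m ^ 2 * M2 ^ 2 = 600000 * (m ^ 2 * M2 ^ 2) := by ring
  rw [h5] at hp
  refine ⟨?_, ?_, ?_⟩ <;> linarith

theorem h_Bm (m M2 x : ℝ) (hm : 40 ≤ m) (hM : 0 ≤ M2) (hx : x ≤ M2) :
    32 * x + 512 * m * M2 ≤ 544 * m * M2 := by
  have h1 : M2 ≤ m * M2 := le_mul_of_one_le_left hM (by linarith)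
  have h2 : 544 * m * M2 = 32 * (m * M2) + 512 * m * M2 := by ring
  rw [h2]
  linarith

theorem h_B (m M2 x p : ℝ) (hm : 40 ≤ m) (hM : 0 ≤ M2) (hx : x ≤ 544 * m * M2)
    (hp : 600000 * m ^ 2 * M2 ^ 2 ≤ p) : 512 * m * M2 * x ≤ p / 2 := by
  have h0 : 0 ≤ 512 * m * M2 := by positivity
  have h1 : 512 * m * M2 * x ≤ 512 * m * M2 * (544 * m * M2) := mul_le_mul_of_nonneg_left hx h0
  have h2 : 512 * m * M2 * (544 * m * M2) = 278528 * (m ^ 2 * M2 ^ 2) := by ring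
  have h3 : 600000 * m ^ 2 * M2 ^ 2 = 600000 * (m ^ 2 * M2 ^ 2) := by ring
  have h4 : 0 ≤ m ^ 2 * M2 ^ 2 := by positivity
  rw [h2] at h1
  rw [h3] at hp
  linarith

theorem h_fin (m M2 l N x : ℝ) (hm : 40 ≤ m) (hM : 0 < M2) (hl : 0 < l) (hN : 0 < N)
    (hMN : M2 = l ^ 2 * (l * N))
    (h : 300000 * m ^ 2 * M2 ^ 2 ≤ (544 * m * M2) * ((6 * (l * N)) * x)) : l ^ 2 ≤ x := by
  have h7 : 300000 * m ^ 2 * M2 ^ 2 = (m * M2 * (l * N)) * (300000 * m * l ^ 2) := by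
    have : M2 ^ 2 = M2 * (l ^ 2 * (l * N)) := by rw [← hMN]; ring
    rw [this]; ring
  have h8 : (544 * m * M2) * ((6 * (l * N)) * x) = (m * M2 * (l * N)) * (3264 * x) := by ring
  rw [h7, h8] at h
  have h9 : 0 < m * M2 * (l * N) := by positivity
  have h10 := le_of_mul_le_mul_left h h9
  have h11 : 0 ≤ l ^ 2 := by positivity
  have h12 : 3264 * l ^ 2 ≤ 300000 * m * l ^ 2 := by
    apply mul_le_mul_of_nonneg_right _ h11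
    linarith
  linarith

theorem parameters_of (ι : Type) [Fintype ι] [DecidableEq ι] (hm : 40 ≤ Fintype.card ι)
    (hloc : ∀ (d : ℤ) (l : ℕ), l.Prime → 5 ≤ l →
      ∃ S : Finset (ι ⊕ ι → ZMod l × ZMod l), S.card = l ^ 3 ∧ Local d l S)
    (hcol : ColStmt (ι ⊕ ι)) (hdet : DetStmt) (hcore : CoreStmt ι) :
    ∃ c : ℝ, 0 < c ∧ ∃ l₀ : ℕ, ∀ l : ℕ, l.Prime → l₀ ≤ l →
    ∃ (d : ℤ) (Y : ℕ) (P : Finset (ℤ√d × ℤ√d)), Good d ∧ 0 < Y ∧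
      P.card = l ^ (4 * Fintype.card ι + 21) * Nat.sqrt (Nat.sqrt l) ∧
      (∀ t ∈ P, t.1 ∈ box d Y ∧ t.2 ∈ box d Y) ∧
      ∀ a ∈ P, ∀ b ∈ P, ∀ c' ∈ P, a ≠ b → b ≠ c' → a ≠ c' →
        c / (l:ℝ) ^ (8 * Fintype.card ι + 42) * (Y:ℝ) ^ 2 ≤ |s1 d (dt a b c')| := by
  obtain ⟨CE, hCE, hdet⟩ := hdet
  obtain ⟨m, hmdef⟩ : ∃ m, m = Fintype.card ι := ⟨_, rfl⟩
  have hcardJ : Fintype.card (ι ⊕ ι) = m + m := by rw [Fintype.card_sum, hmdef]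
  rw [← hmdef] at hm ⊢
  obtain ⟨l₀, hl₀⟩ := eventually_atTop.1 (Par.growth m CE)
  refine ⟨1, one_pos, l₀, fun l hl hll => ?_⟩
  obtain ⟨hl5, hcj, g3, g4⟩ := hl₀ l hll
  have hlpos : 0 < l := hl.pos
  have hlR : (1:ℝ) ≤ l := by exact_mod_cast hlpos
  have hlR0 : (0:ℝ) < l := by linarith
  have hmR : (40:ℝ) ≤ m := by exact_mod_cast hm
  obtain ⟨j, hj⟩ : ∃ j, j = Nat.sqrt (Nat.sqrt l) := ⟨_, rfl⟩
  rw [← hj] at hcj g3 ⊢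
  have hj1 : 1 ≤ j := by
    rw [hj]; exact Nat.sqrt_pos.2 (Nat.sqrt_pos.2 hlpos)
  -- the prime `p`
  obtain ⟨p, hp, hp1, hp2, d, hd, r, hr⟩ :=
    exists_prime_phi (Par.c0 m * (l ^ (2 * m + 12)) ^ 4) (by unfold Par.c0; positivity)
  have : Fact p.Prime := ⟨hp⟩
  have hc0 : Par.c0 m = 600000 * m ^ 2 := rfl
  have hpR : 600000 * (m:ℝ) ^ 2 * ((l:ℝ) ^ (2 * m + 12)) ^ 4 ≤ p := by
    have := hp1.le
    rw [hc0] at this
    exact_mod_cast this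
  obtain ⟨S, hS1, hS2⟩ := hloc d l hl hl5
  -- `w`
  have hn' : 0 < l ^ (4 * m + 21) := by positivity
  obtain ⟨u, hu0, -, -, hu2, hu1, -, -⟩ := exists_approx hd (l ^ (4 * m + 21)) hn'
  obtain ⟨N, hN⟩ : ∃ N : ℝ, N = (l:ℝ) ^ (4 * m + 21) := ⟨_, rfl⟩
  have hN0 : 0 < N := by rw [hN]; positivity
  have hN1 : 1 ≤ N := by rw [hN]; exact one_le_pow₀ hlR
  have hNc : ((l ^ (4 * m + 21) : ℕ) : ℝ) = N := by rw [hN]; push_cast; rfl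
  rw [hNc] at hu1 hu2
  have hs1w : |s1 d ((l : ℤ√d) * u)| = l * |s1 d u| := by
    rw [s1_mul hd.pos.le, s1_natCast, abs_mul, abs_of_pos hlR0]
  have hs2w : |s2 d ((l : ℤ√d) * u)| = l * |s2 d u| := by
    rw [s2_mul hd.pos.le, s2_natCast, abs_mul, abs_of_pos hlR0]
  have hw0 : (l : ℤ√d) * u ≠ 0 := by
    intro h0
    have h1 : |s1 d ((l : ℤ√d) * u)| = 0 := by rw [h0]; simp
    rw [hs1w] at h1
    have h2 : 0 < |s1 d u| := abs_pos.2 (s1_ne_zero hd hu0)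
    have : 0 < (l:ℝ) * |s1 d u| := by positivity
    linarith
  have hu2' : |s2 d u| ≤ 1 / N := by
    refine hu2.trans ?_
    gcongr
    linarith
  -- `Y`, `M`, `h`
  obtain ⟨Y, hY⟩ : ∃ Y : ℕ, Y = l ^ (4 * m + 22) := ⟨_, rfl⟩
  have hYR : (Y:ℝ) = (l:ℝ) ^ (4 * m + 22) := by rw [hY]; push_cast; rfl
  have hY1 : 1 ≤ Y := by rw [hY]; exact Nat.one_le_iff_ne_zero.2 (by positivity)
  have hYN : (Y:ℝ) = l * N := by rw [hYR, hN, ← pow_succ']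
  obtain ⟨M2, hM2⟩ : ∃ M2 : ℝ, M2 = ((l:ℝ) ^ (2 * m + 12)) ^ 2 := ⟨_, rfl⟩
  have hM20 : 0 < M2 := by rw [hM2]; positivity
  have hM2N : (l:ℝ) * (Y:ℝ) ^ 2 = M2 * N := by
    rw [hYR, hM2, hN, ← pow_mul, ← pow_mul, ← pow_succ', ← pow_add]
    congr 1; ring
  have hM2Y : M2 = (l:ℝ) ^ 2 * Y := by
    rw [hYR, hM2, ← pow_mul, ← pow_add]
    congr 1; ring
  have hs2wY : |s2 d ((l : ℤ√d) * u)| * (Y:ℝ) ^ 2 ≤ M2 := by
    rw [hs2w]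
    calc (l:ℝ) * |s2 d u| * (Y:ℝ) ^ 2 ≤ (l:ℝ) * (1 / N) * (Y:ℝ) ^ 2 := by gcongr
      _ = (l * (Y:ℝ) ^ 2) / N := by ring
      _ = M2 := by rw [hM2N]; field_simp
  -- `E`
  obtain ⟨L, hL⟩ : ∃ L : ℝ, L = 1 + (1 + (4 * m + 22) * Real.log l) := ⟨_, rfl⟩
  have hlogl : 0 ≤ Real.log l := Real.log_nonneg hlR
  have hL1 : 1 ≤ L := by
    rw [hL]
    have : 0 ≤ (4 * (m:ℝ) + 22) * Real.log l := by positivity
    linarith
  have hlogY : 1 + Real.log Y = L - 1 := by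
    rw [hYR, Real.log_pow, hL]; push_cast; ring
  obtain ⟨E, hE⟩ : ∃ E : ℕ, E = ⌈(CE:ℝ) * (Y:ℝ) ^ 4 * (1 + Real.log Y)⌉₊ := ⟨_, rfl⟩
  have hCER : (1:ℝ) ≤ CE := by exact_mod_cast hCE
  have hY4 : (1:ℝ) ≤ (Y:ℝ) ^ 4 := one_le_pow₀ (by exact_mod_cast hY1)
  have hEle : (E:ℝ) ≤ CE * ((l:ℝ) ^ (4 * m + 22)) ^ 4 * L := by
    have h0 : 0 ≤ (CE:ℝ) * (Y:ℝ) ^ 4 * (1 + Real.log Y) := by
      rw [hlogY]
      have : 0 ≤ L - 1 := by linarith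
      positivity
    have h1 : (E:ℝ) < (CE:ℝ) * (Y:ℝ) ^ 4 * (1 + Real.log Y) + 1 := by
      rw [hE]; exact Nat.ceil_lt_add_one h0
    rw [← hYR]
    have h2 : (1:ℝ) ≤ CE * (Y:ℝ) ^ 4 := one_le_mul_of_one_le_of_one_le hCER hY4
    rw [hlogY] at h1
    exact h_E _ _ _ _ h1 h2
  have hEdet : ∀ c, detCount d Y c ≤ E := by
    intro c
    have h1 := (hdet d hd Y hY1 c).trans (Nat.le_ceil _)
    rw [← hE] at h1
    exact_mod_cast h1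
  rw [← hL] at g3 g4
  -- `K`
  obtain ⟨K, hK⟩ : ∃ K, K = l ^ 2 / (Par.c1 m * j) := ⟨_, rfl⟩
  obtain ⟨hK0, hmain⟩ := Par.main_ineq m l j K p E CE L hm hlpos hj1 hL1 hK hcj hp1 hp2 hEle g3 g4
  -- collinear triples
  have hne : Nonempty ι := by
    rw [← Fintype.card_pos_iff, ← hmdef]; omega
  obtain ⟨i0⟩ := hne
  have hhM : l ^ (2 * m - 8) ≤ l ^ (2 * m + 12) := Nat.pow_le_pow_right hlpos (by omega)
  have hcolb := hcol d hd (.inl i0) (l ^ (2 * m + 12)) (l ^ (2 * m - 8)) (10 * m * l ^ (2 * m + 2))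
    (by positivity) (by positivity) hhM
    (by
      rw [hcardJ]
      have e1 : l ^ (2 * m + 12) * l ^ (2 * m - 8) = l ^ (4 * m + 4) := by
        rw [← pow_add]; congr 1; omega
      have e2 : l ^ (2 * m + 12) ≤ l ^ (4 * m + 4) := Nat.pow_le_pow_right hlpos (by omega)
      calc 16 * (m + m) * l ^ (2 * m + 12) * (l ^ (2 * m - 8) + 2)
          = 32 * m * (l ^ (2 * m + 12) * l ^ (2 * m - 8)) + 64 * m * l ^ (2 * m + 12) := by ring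
        _ ≤ 32 * m * l ^ (4 * m + 4) + 64 * m * l ^ (4 * m + 4) := by rw [e1]; gcongr
        _ = 96 * m * l ^ (4 * m + 4) := by ring
        _ ≤ (100 * m) * m * l ^ (4 * m + 4) := by
            gcongr
            omega
        _ = (10 * m * l ^ (2 * m + 2)) ^ 2 := by
            rw [mul_pow, ← pow_mul, show (2 * m + 2) * 2 = 4 * m + 4 by ring]; ring)
  rw [hcardJ] at hcolb
  -- small inequalities
  have hM4 : ((l:ℝ) ^ (2 * m + 12)) ^ 4 = M2 ^ 2 := by rw [hM2]; ring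
  have hM2sq : 0 < M2 ^ 2 := by positivity
  have hpM : 600000 * (m:ℝ) ^ 2 * M2 ^ 2 ≤ p := by rw [← hM4]; exact hpR
  have hM21 : 1 ≤ M2 := by
    rw [hM2]; exact one_le_pow₀ (one_le_pow₀ hlR)
  have hl2Y : (l:ℝ) ^ 2 ≤ M2 := by
    rw [hM2Y]
    exact h_l2 _ _ (by exact_mod_cast hY1)
  have hYM : (Y:ℝ) ≤ M2 := by
    rw [hM2Y]
    exact h_Y _ _ hlR (Nat.cast_nonneg _)
  obtain ⟨hp300, hp24, hp6⟩ := h_p m M2 p hmR hM21 hpM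
  have hnorm : |((l : ℤ√d) * u).norm| < (p : ℤ) := by
    have h1 : ((|((l : ℤ√d) * u).norm| : ℤ) : ℝ) < p := by
      rw [Int.cast_abs, norm_eq hd.pos.le, abs_mul, hs1w, hs2w]
      have h3 : |s1 d u| * |s2 d u| ≤ 6 := by
        calc |s1 d u| * |s2 d u| ≤ (6 * N) * (1 / N) := by gcongr
          _ = 6 := by field_simp
      have h4 : (l:ℝ) * |s1 d u| * (l * |s2 d u|) ≤ 6 * (l:ℝ) ^ 2 := by
        calc (l:ℝ) * |s1 d u| * (l * |s2 d u|) = (|s1 d u| * |s2 d u|) * (l:ℝ) ^ 2 := by ring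
          _ ≤ 6 * (l:ℝ) ^ 2 := by gcongr
      linarith
    exact_mod_cast h1
  have hYp : 24 * Y ^ 2 < p := by
    have : 24 * (Y:ℝ) ^ 2 < p := by
      have h0 : (0:ℝ) ≤ Y := by positivity
      have : (Y:ℝ) ^ 2 ≤ M2 ^ 2 := by gcongr
      linarith
    exact_mod_cast this
  have hMp : 300000 * (l ^ (2 * m + 12)) ^ 4 < p := by
    have : 300000 * ((l:ℝ) ^ (2 * m + 12)) ^ 4 < p := by
      rw [hM4]; exact hp300
    exact_mod_cast this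
  have hn3 : 3 ≤ l ^ (4 * m + 21) * j := by
    calc 3 ≤ l := by omega
      _ = l ^ 1 * 1 := by ring
      _ ≤ l ^ (4 * m + 21) * j := by
          apply Nat.mul_le_mul _ hj1
          exact Nat.pow_le_pow_right hlpos (by omega)
  have hBm : 32 * |s2 d ((l : ℤ√d) * u)| * (Y:ℝ) ^ 2 +
      512 * (m : ℝ) * ((l ^ (2 * m + 12) : ℕ) : ℝ) ^ 2 ≤ 544 * m * M2 := by
    have e1 : ((l ^ (2 * m + 12) : ℕ) : ℝ) ^ 2 = M2 := by rw [hM2]; push_cast; rfl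
    rw [e1, mul_assoc 32]
    exact h_Bm _ _ _ hmR hM20.le hs2wY
  have hB : 512 * (Fintype.card ι : ℝ) * ((l ^ (2 * m + 12) : ℕ) : ℝ) ^ 2 *
      (32 * |s2 d ((l : ℤ√d) * u)| * (Y:ℝ) ^ 2 +
        512 * (Fintype.card ι : ℝ) * ((l ^ (2 * m + 12) : ℕ) : ℝ) ^ 2) ≤ p / 2 := by
    rw [← hmdef]
    have e1 : ((l ^ (2 * m + 12) : ℕ) : ℝ) ^ 2 = M2 := by rw [hM2]; push_cast; rfl
    rw [e1] at hBm ⊢
    exact h_B _ _ _ _ hmR hM20.le hBm hpM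
  obtain ⟨P, hP1, hP2, hP3⟩ := hcore d p r hr (.inl i0) hd l (l ^ (2 * m + 12)) (l ^ (2 * m - 8)) Y K
    (l ^ (4 * m + 21) * j) E _ ((l ^ (2 * m + 12) / l) ^ (4 * m - 1) * (l ^ (2 * m - 8) / l))
    ((l : ℤ√d) * u) S hS2 hlpos (dvd_pow_self l (by omega)) (dvd_pow_self l (by omega))
    (by positivity) (by positivity) hhM hY1 hK0 hn3 (dvd_mul_right _ _) hw0 hnorm hYp hMp hEdet
    (by rw [← hmdef]) hcolb
    (by
      rw [← hmdef, hS1, hY]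
      exact hmain) hB
  refine ⟨d, Y, P, hd, hY1, hP1, hP2, ?_⟩
  intro a ha b hb c hc hab hbc hac
  have h3 := hP3 a ha b hb c hc hab hbc hac
  rw [← hmdef] at h3
  obtain ⟨x, hx⟩ : ∃ x : ℝ, x = |s1 d (dt a b c)| := ⟨_, rfl⟩
  rw [← hx] at h3 ⊢
  have hx0 : 0 ≤ x := by rw [hx]; exact abs_nonneg _
  have h4 : (p:ℝ) / 2 ≤ (544 * m * M2) * ((6 * (l * N)) * x) := by
    refine h3.trans ?_
    have h41 : |s1 d ((l : ℤ√d) * u)| ≤ 6 * (l * N) := by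
      rw [hs1w]
      calc (l:ℝ) * |s1 d u| ≤ l * (6 * N) := by gcongr
        _ = 6 * (l * N) := by ring
    gcongr
  have h5 : 300000 * (m:ℝ) ^ 2 * M2 ^ 2 ≤ (544 * m * M2) * ((6 * (l * N)) * x) := by
    refine le_trans ?_ h4
    linarith
  have h6 : (l:ℝ) ^ 2 ≤ x :=
    h_fin m M2 l N x hmR hM20 hlR0 hN0 (by rw [← hYN, ← hM2Y]) h5
  calc 1 / (l:ℝ) ^ (8 * m + 42) * (Y:ℝ) ^ 2 = (l:ℝ) ^ 2 := by
        rw [hYR, ← pow_mul, show (4 * m + 22) * 2 = 2 + (8 * m + 42) by ring]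
        have h12 : (l:ℝ) ^ (8 * m + 42) ≠ 0 := by positivity
        rw [pow_add (l:ℝ) 2 (8 * m + 42), one_div, mul_comm, mul_assoc, mul_inv_cancel₀ h12,
          mul_one]
    _ ≤ x := h6

end Vale.Agent.P036.QF
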