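import Mathlib
import Vale.Agent.P036.QF.Basic
import Vale.Agent.P036.LB.F

/-!
# Symmetric matrices: counts for any finite index type (adapter of `LB/F.lean`)
-/

namespace Vale.Agent.P036.QF

open Finset

theorem Sym_eq {κ : Type} [Fintype κ] [DecidableEq κ] (p : ℕ) [Fact p.Prime] :
    Sym κ p = LB.symF (ZMod p) κ := by
  ext A
  simp [Sym, LB.symF]

theorem sym_count_one {κ : Type} [Fintype κ] [DecidableEq κ] (p : ℕ) [Fact p.Prime]
    (x y : κ → ZMod p) (hx : x ≠ 0) :
    ((Sym κ p).filter fun A => A.mulVec x = y).card * p ^ Fintype.card κ ≤ (Sym κ p).card := by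
  have h := LB.symF_count_one (k := ZMod p) (ι := κ) x y hx
  rw [ZMod.card] at h
  rw [Sym_eq]
  exact h

theorem sym_count_two {κ : Type} [Fintype κ] [DecidableEq κ] (p : ℕ) [Fact p.Prime]
    (x y x' y' : κ → ZMod p) (i j : κ) (hx : x i * x' j - x j * x' i ≠ 0) :
    ((Sym κ p).filter fun A => A.mulVec x = y ∧ A.mulVec x' = y').card *
      p ^ (2 * Fintype.card κ - 1) ≤ (Sym κ p).card := by
  have h := LB.symF_count_two (k := ZMod p) (ι := κ) x y x' y' i j hx
  rw [ZMod.card] at h
  rw [Sym_eq]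
  exact h

end Vale.Agent.P036.QF
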