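import Vale.Agent.P036.QF.K3
import Vale.Agent.P036.QF.F

/-!
# Block K2: affine Lagrangians through given points
-/

namespace Vale.Agent.P036.QF
open Finset

set_option linter.unusedSectionVars false

variable {ι : Type} [Fintype ι] [DecidableEq ι] {d : ℤ}
variable {p : ℕ} [Fact p.Prime] (r : ZMod p) (hr : r * r = (d : ZMod p))

open scoped Classical in
theorem count_one (w : ℤ√d) (P : Pt ι d) :
    ((Sym (Option ι) p ×ˢ (univ : Finset (Option ι → ZMod p))).filter
      fun a => On r hr w a P).card = (Sym (Option ι) p).card := by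
  symm
  refine card_bij (fun A _ => (A, eta r hr P - A.mulVec (xi r hr w P))) ?_ ?_ ?_
  · intro A hA
    rw [mem_filter, mem_product]
    exact ⟨⟨hA, mem_univ _⟩, by simp [On]⟩
  · intro A _ B _ h
    exact (Prod.ext_iff.1 h).1
  · rintro ⟨A, b⟩ h
    rw [mem_filter, mem_product] at h
    refine ⟨A, h.1.1, ?_⟩
    have h2 : eta r hr P = A.mulVec (xi r hr w P) + b := h.2
    rw [h2, add_sub_cancel_left]

/-- reduction of nonzero elements -/
theorem phi_ne_zero (hd : Good d) {B : ℝ} (hB : B ^ 2 < p) {x : ℤ√d} (hx : x ≠ 0)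
    (h1 : |s1 d x| ≤ B) (h2 : |s2 d x| ≤ B) : phi r hr x ≠ 0 := by
  intro h
  have h3 := prime_le_mul hd hr h hx
  have h4 : |s1 d x| * |s2 d x| ≤ B * B :=
    mul_le_mul h1 h2 (abs_nonneg _) ((abs_nonneg _).trans h1)
  nlinarith

section pts
variable (hd : Good d) (j0 : ι ⊕ ι) (l M h Y : ℕ) (w : ℤ√d)
    (S : Finset (ι ⊕ ι → ZMod l × ZMod l)) (hM0 : 0 < M) (hhM : h ≤ M) (hw0 : w ≠ 0)
    (hwp : |w.norm| < p) (hYp : 24 * Y ^ 2 < p) (hMp : 300000 * M ^ 4 < p)

include hd hw0 hwp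

theorem phi_w_ne : phi r hr w ≠ 0 := by
  intro h
  have := prime_le_norm hd hr h hw0
  omega

omit hw0 hwp
include hYp

/-- visible coordinates -/
theorem phi_box_ne {x y : ℤ√d} (hx : x ∈ box d Y) (hy : y ∈ box d Y) (hxy : x ≠ y) :
    phi r hr (x - y) ≠ 0 := by
  obtain ⟨h1, h2⟩ := box_sub_bounds hd Y x y hx hy
  refine phi_ne_zero r hr hd ?_ (sub_ne_zero.2 hxy) h1 h2
  have : (24 * Y ^ 2 : ℝ) < p := by exact_mod_cast hYp
  nlinarith [sq_nonneg (Y : ℝ)]

omit hYp
include hM0 hhM hMp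

/-- internal coordinates -/
theorem phi_W_ne {x y : ι ⊕ ι → ℤ√d} (hx : x ∈ W j0 d M h) (hy : y ∈ W j0 d M h) (j : ι ⊕ ι)
    (hxy : x j ≠ y j) : phi r hr (x j - y j) ≠ 0 := by
  obtain ⟨h1, h2⟩ := window_bounds hd j0 M h hM0 hhM x y hx hy j
  refine phi_ne_zero r hr hd (B := 16 * M) ?_ (sub_ne_zero.2 hxy) h1 h2
  have h3 : (300000 * M ^ 4 : ℝ) < p := by exact_mod_cast hMp
  have h4 : (1:ℝ) ≤ M := by exact_mod_cast hM0
  have h5 : (M:ℝ) ^ 2 ≤ M ^ 4 := pow_le_pow_right₀ h4 (by norm_num)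
  nlinarith [sq_nonneg (M : ℝ)]

/-- internal minors -/
theorem minor_eq {x y z : ι ⊕ ι → ℤ√d} (hx : x ∈ W j0 d M h) (hy : y ∈ W j0 d M h)
    (hz : z ∈ W j0 d M h) (i j : ι ⊕ ι)
    (hmin : phi r hr ((y - x) i * (z - x) j) = phi r hr ((y - x) j * (z - x) i)) :
    (y - x) i * (z - x) j = (y - x) j * (z - x) i := by
  by_contra hne
  have hM : (0:ℝ) ≤ 16 * M := by positivity
  obtain ⟨a1, a2⟩ := window_bounds hd j0 M h hM0 hhM y x hy hx i
  obtain ⟨b1, b2⟩ := window_bounds hd j0 M h hM0 hhM y x hy hx j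
  obtain ⟨c1, c2⟩ := window_bounds hd j0 M h hM0 hhM z x hz hx i
  obtain ⟨d1, d2⟩ := window_bounds hd j0 M h hM0 hhM z x hz hx j
  have hd0 := hd.pos.le
  refine phi_ne_zero r hr hd (B := 512 * (M:ℝ) ^ 2) ?_ (sub_ne_zero.2 hne) ?_ ?_ ?_
  · have h3 : (300000 * M ^ 4 : ℝ) < p := by exact_mod_cast hMp
    have h4 : (0:ℝ) ≤ (M:ℝ) ^ 4 := by positivity
    nlinarith
  · rw [s1_sub, s1_mul hd0, s1_mul hd0]
    have e1 : |s1 d ((y - x) i) * s1 d ((z - x) j)| ≤ 16 * M * (16 * M) := by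
      rw [abs_mul]; exact mul_le_mul a1 d1 (abs_nonneg _) hM
    have e2 : |s1 d ((y - x) j) * s1 d ((z - x) i)| ≤ 16 * M * (16 * M) := by
      rw [abs_mul]; exact mul_le_mul b1 c1 (abs_nonneg _) hM
    refine (abs_sub _ _).trans ?_
    nlinarith
  · rw [s2_sub, s2_mul hd0, s2_mul hd0]
    have e1 : |s2 d ((y - x) i) * s2 d ((z - x) j)| ≤ 16 * M * (16 * M) := by
      rw [abs_mul]; exact mul_le_mul a2 d2 (abs_nonneg _) hM
    have e2 : |s2 d ((y - x) j) * s2 d ((z - x) i)| ≤ 16 * M * (16 * M) := by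
      rw [abs_mul]; exact mul_le_mul b2 c2 (abs_nonneg _) hM
    refine (abs_sub _ _).trans ?_
    nlinarith
  · rw [map_sub, hmin, sub_self]

end pts

/-- distinct points have distinct reductions -/
theorem red_ne (hd : Good d) (j0 : ι ⊕ ι) (l M h Y : ℕ) (w : ℤ√d)
    (S : Finset (ι ⊕ ι → ZMod l × ZMod l)) (hM0 : 0 < M) (hhM : h ≤ M) (hw0 : w ≠ 0)
    (hwp : |w.norm| < p) (hYp : 24 * Y ^ 2 < p) (hMp : 300000 * M ^ 4 < p)
    (P Q : Pt ι d) (hP : P ∈ XX j0 d Y M h l S) (hQ : Q ∈ XX j0 d Y M h l S) (hPQ : P ≠ Q) :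
    xi r hr w P ≠ xi r hr w Q ∨ eta r hr P ≠ eta r hr Q := by
  by_contra hcon
  push Not at hcon
  obtain ⟨h1, h2⟩ := hcon
  rw [mem_XX] at hP hQ
  apply hPQ
  have hw := phi_w_ne r hr hd w hw0 hwp
  refine Prod.ext (Prod.ext ?_ ?_) (funext fun j => ?_)
  · by_contra hne
    have := congrFun h1 none
    simp only [xi, map_mul] at this
    have h3 := mul_left_cancel₀ hw this
    exact phi_box_ne r hr hd Y hYp hP.1.1 hQ.1.1 hne (by rw [map_sub, h3, sub_self])
  · by_contra hne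
    have h3 := congrFun h2 none
    simp only [eta] at h3
    exact phi_box_ne r hr hd Y hYp hP.1.2 hQ.1.2 hne (by rw [map_sub, h3, sub_self])
  · by_contra hne
    refine phi_W_ne r hr hd j0 M h hM0 hhM hMp hP.2.1 hQ.2.1 j hne ?_
    rw [map_sub, sub_eq_zero]
    rcases j with i | i
    · exact congrFun h1 (some i)
    · exact congrFun h2 (some i)

open scoped Classical in
/-- the Lagrangians through two points with distinct reductions -/
theorem count_two (w : ℤ√d) (P Q : Pt ι d)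
    (hPQ : xi r hr w P ≠ xi r hr w Q ∨ eta r hr P ≠ eta r hr Q) :
    ((Sym (Option ι) p ×ˢ (univ : Finset (Option ι → ZMod p))).filter
      fun a => On r hr w a P ∧ On r hr w a Q).card * p ^ (Fintype.card ι + 1) ≤
        (Sym (Option ι) p).card := by
  by_cases hx : xi r hr w Q - xi r hr w P = 0
  · have : ((Sym (Option ι) p ×ˢ (univ : Finset (Option ι → ZMod p))).filter
      fun a => On r hr w a P ∧ On r hr w a Q) = ∅ := by
      rw [filter_eq_empty_iff]
      rintro a - ⟨h1, h2⟩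
      rw [sub_eq_zero] at hx
      unfold On at h1 h2
      rw [← hx, ← h2] at h1
      rcases hPQ with h | h
      · exact h hx.symm
      · exact h h1
    rw [this, card_empty, zero_mul]
    exact Nat.zero_le _
  · have h := sym_count_one p (xi r hr w Q - xi r hr w P) (eta r hr Q - eta r hr P) hx
    rw [Fintype.card_option] at h
    refine (Nat.mul_le_mul_right _ ?_).trans h
    refine card_le_card_of_injOn (fun a => a.1) ?_ ?_
    · rintro a ha
      rw [mem_coe, mem_filter, mem_product] at ha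
      rw [mem_coe, mem_filter]
      refine ⟨ha.1.1, ?_⟩
      have h1 : eta r hr P = _ := ha.2.1
      have h2 : eta r hr Q = _ := ha.2.2
      rw [h1, h2, Matrix.mulVec_sub]
      abel
    · rintro a ha b hb hab
      rw [mem_coe, mem_filter, mem_product] at ha hb
      have h1 : eta r hr P = a.1.mulVec _ + a.2 := ha.2.1
      have h2 : eta r hr P = b.1.mulVec _ + b.2 := hb.2.1
      have hab' : a.1 = b.1 := hab
      rw [h1, hab'] at h2
      exact Prod.ext hab' (add_left_cancel h2)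

open scoped Classical in
/-- three distinct points: at most `#Sym / p^k`, `k = card ι + 1` -/
theorem count_dep (hd : Good d) (j0 : ι ⊕ ι) (l M h Y : ℕ) (w : ℤ√d)
    (S : Finset (ι ⊕ ι → ZMod l × ZMod l)) (hM0 : 0 < M) (hhM : h ≤ M) (hw0 : w ≠ 0)
    (hwp : |w.norm| < p) (hYp : 24 * Y ^ 2 < p) (hMp : 300000 * M ^ 4 < p)
    (t : Pt ι d × Pt ι d × Pt ι d) (ht : t ∈ bad w (XX j0 d Y M h l S)) :
    ((Sym (Option ι) p ×ˢ (univ : Finset (Option ι → ZMod p))).filter
      fun a => On r hr w a t.1 ∧ On r hr w a t.2.1 ∧ On r hr w a t.2.2).card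
        * p ^ (Fintype.card ι + 1) ≤ (Sym (Option ι) p).card := by
  simp only [bad, mem_filter, mem_product] at ht
  obtain ⟨⟨hP, hQ, hR⟩, hPQ, hQR, hPR, hβ⟩ := ht
  refine (Nat.mul_le_mul_right _ (card_le_card ?_)).trans (count_two r hr w t.1 t.2.1
    (red_ne r hr hd j0 l M h Y w S hM0 hhM hw0 hwp hYp hMp t.1 t.2.1 hP hQ hPQ))
  intro a ha
  simp only [mem_filter] at ha ⊢
  exact ⟨ha.1, ha.2.1, ha.2.2.1⟩

/-- two points with equal internal parts, all minors with a third point vanishing mod `p` -/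
theorem visible_eq (w : ℤ√d) (hw : phi r hr w ≠ 0) (P Q R : Pt ι d) (hPQ : P.2 = Q.2)
    (j : ι ⊕ ι) (hj : phi r hr (R.2 j - P.2 j) ≠ 0)
    (hxx : ∀ i j, (xi r hr w Q i - xi r hr w P i) * (xi r hr w R j - xi r hr w P j) =
      (xi r hr w Q j - xi r hr w P j) * (xi r hr w R i - xi r hr w P i))
    (hxe : ∀ i j, (xi r hr w Q i - xi r hr w P i) * (eta r hr R j - eta r hr P j) =
      (eta r hr Q j - eta r hr P j) * (xi r hr w R i - xi r hr w P i))
    (hee : ∀ i j, (eta r hr Q i - eta r hr P i) * (eta r hr R j - eta r hr P j) =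
      (eta r hr Q j - eta r hr P j) * (eta r hr R i - eta r hr P i)) :
    phi r hr (Q.1.1 - P.1.1) = 0 ∧ phi r hr (Q.1.2 - P.1.2) = 0 := by
  rcases j with i | i
  · have h1 := hxx none (some i)
    have h2 := hxe (some i) none
    simp only [xi, eta, hPQ, sub_self, zero_mul] at h1 h2
    rw [hPQ, map_sub] at hj
    constructor
    · rw [mul_eq_zero] at h1
      rcases h1 with h1 | h1
      · rw [map_mul, map_mul, ← mul_sub, mul_eq_zero] at h1
        rw [map_sub]
        exact h1.resolve_left hw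
      · exact absurd h1 hj
    · rw [map_sub]
      have h3 := (mul_eq_zero.1 h2.symm).resolve_right hj
      exact h3
  · have h1 := hxe none (some i)
    have h2 := hee none (some i)
    simp only [xi, eta, hPQ, sub_self, zero_mul] at h1 h2
    rw [hPQ, map_sub] at hj
    constructor
    · rw [mul_eq_zero] at h1
      rcases h1 with h1 | h1
      · rw [map_mul, map_mul, ← mul_sub, mul_eq_zero] at h1
        rw [map_sub]
        exact h1.resolve_left hw
      · exact absurd h1 hj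
    · rw [map_sub]
      exact (mul_eq_zero.1 h2).resolve_right hj

/-- images of proportional vectors under a matrix are proportional -/
theorem minors_mulVec {κ R : Type} [Fintype κ] [CommRing R] (A : Matrix κ κ R) (u v : κ → R)
    (h : ∀ i j, u i * v j = u j * v i) :
    (∀ i j, u i * (A.mulVec v) j = (A.mulVec u) j * v i) ∧
      ∀ i j, (A.mulVec u) i * (A.mulVec v) j = (A.mulVec u) j * (A.mulVec v) i := by
  have h1 : ∀ i j, u i * (A.mulVec v) j = (A.mulVec u) j * v i := by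
    intro i j
    simp only [Matrix.mulVec, dotProduct, mul_sum, sum_mul]
    refine sum_congr rfl fun k _ => ?_
    linear_combination (A j k) * h i k
  refine ⟨h1, fun i j => ?_⟩
  have e1 : (A.mulVec u) i * (A.mulVec v) j = ∑ k, A i k * (u k * (A.mulVec v) j) := by
    conv_lhs => rw [Matrix.mulVec, dotProduct]
    rw [sum_mul]
    exact sum_congr rfl fun k _ => by ring
  have e2 : (A.mulVec u) j * (A.mulVec v) i = ∑ k, A i k * ((A.mulVec u) j * v k) := by
    conv_lhs => rhs; rw [Matrix.mulVec, dotProduct]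
    rw [mul_sum]
    exact sum_congr rfl fun k _ => by ring
  rw [e1, e2]
  exact sum_congr rfl fun k _ => by rw [h1]

/-- three distinct points of one Lagrangian with proportional `ξ`-differences are dependent -/
theorem dep_of_minors (hd : Good d) (j0 : ι ⊕ ι) (l M h Y : ℕ) (w : ℤ√d)
    (S : Finset (ι ⊕ ι → ZMod l × ZMod l)) (hM0 : 0 < M) (hhM : h ≤ M) (hw0 : w ≠ 0)
    (hwp : |w.norm| < p) (hYp : 24 * Y ^ 2 < p) (hMp : 300000 * M ^ 4 < p)
    (P Q R : Pt ι d) (hP : P ∈ XX j0 d Y M h l S) (hQ : Q ∈ XX j0 d Y M h l S)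
    (hR : R ∈ XX j0 d Y M h l S) (hPQ : P ≠ Q) (hQR : Q ≠ R) (hPR : P ≠ R)
    (a : Matrix (Option ι) (Option ι) (ZMod p) × (Option ι → ZMod p))
    (hPa : On r hr w a P) (hQa : On r hr w a Q) (hRa : On r hr w a R)
    (hmin : ∀ i j, (xi r hr w Q - xi r hr w P) i * (xi r hr w R - xi r hr w P) j =
      (xi r hr w Q - xi r hr w P) j * (xi r hr w R - xi r hr w P) i) :
    Dep (P, Q, R) := by
  obtain ⟨m1, m2⟩ := minors_mulVec a.1 _ _ hmin
  unfold On at hPa hQa hRa
  have e1 : a.1.mulVec (xi r hr w Q - xi r hr w P) = eta r hr Q - eta r hr P := by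
    rw [hPa, hQa, Matrix.mulVec_sub]; abel
  have e2 : a.1.mulVec (xi r hr w R - xi r hr w P) = eta r hr R - eta r hr P := by
    rw [hPa, hRa, Matrix.mulVec_sub]; abel
  rw [e1, e2] at m1 m2
  simp only [Pi.sub_apply] at hmin m1 m2
  have hw := phi_w_ne r hr hd w hw0 hwp
  rw [mem_XX] at hP hQ hR
  have hpar : Par (Q.2 - P.2) (R.2 - P.2) := by
    intro i j
    refine minor_eq r hr hd j0 M h hM0 hhM hMp hP.2.1 hQ.2.1 hR.2.1 i j ?_
    simp only [Pi.sub_apply, map_mul, map_sub]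
    rcases i with i | i <;> rcases j with j | j
    · exact hmin (some i) (some j)
    · exact m1 (some i) (some j)
    · exact (m1 (some j) (some i)).symm
    · exact m2 (some i) (some j)
  have vis : ∀ A B C : Pt ι d, A.1.1 ∈ box d Y → A.1.2 ∈ box d Y → B.1.1 ∈ box d Y →
      B.1.2 ∈ box d Y → A.2 ∈ W j0 d M h → C.2 ∈ W j0 d M h → A ≠ B → A.2 = B.2 → A.2 ≠ C.2 →
      (∀ i j, (xi r hr w B i - xi r hr w A i) * (xi r hr w C j - xi r hr w A j) =
        (xi r hr w B j - xi r hr w A j) * (xi r hr w C i - xi r hr w A i)) →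
      (∀ i j, (xi r hr w B i - xi r hr w A i) * (eta r hr C j - eta r hr A j) =
        (eta r hr B j - eta r hr A j) * (xi r hr w C i - xi r hr w A i)) →
      (∀ i j, (eta r hr B i - eta r hr A i) * (eta r hr C j - eta r hr A j) =
        (eta r hr B j - eta r hr A j) * (eta r hr C i - eta r hr A i)) → False := by
    intro A B C a1 a2 b1 b2 aW cW hAB hAB2 hAC2 g1 g2 g3
    obtain ⟨j, hj⟩ := Function.ne_iff.1 hAC2
    obtain ⟨f1, f2⟩ := visible_eq r hr w hw A B C hAB2 j
      (phi_W_ne r hr hd j0 M h hM0 hhM hMp cW aW j (Ne.symm hj)) g1 g2 g3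
    apply hAB
    refine Prod.ext (Prod.ext ?_ ?_) hAB2
    · by_contra hne
      exact phi_box_ne r hr hd Y hYp b1 a1 (Ne.symm hne) f1
    · by_contra hne
      exact phi_box_ne r hr hd Y hYp b2 a2 (Ne.symm hne) f2
  by_cases c1 : P.2 = Q.2
  · by_cases c2 : Q.2 = R.2
    · exact Or.inl ⟨c1, c2⟩
    · exfalso
      exact vis P Q R hP.1.1 hP.1.2 hQ.1.1 hQ.1.2 hP.2.1 hR.2.1 hPQ c1 (by rw [c1]; exact c2)
        hmin m1 m2
  · by_cases c2 : Q.2 = R.2
    · exfalso
      refine vis Q R P hQ.1.1 hQ.1.2 hR.1.1 hR.1.2 hQ.2.1 hP.2.1 hQR c2 (Ne.symm c1)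
        (fun i j => ?_) (fun i j => ?_) (fun i j => ?_)
      · linear_combination hmin i j
      · linear_combination m1 i j
      · linear_combination m2 i j
    · by_cases c3 : P.2 = R.2
      · exfalso
        refine vis P R Q hP.1.1 hP.1.2 hR.1.1 hR.1.2 hP.2.1 hQ.2.1 hPR c3 c1
          (fun i j => ?_) (fun i j => ?_) (fun i j => ?_)
        · linear_combination -hmin i j
        · linear_combination -m1 i j
        · linear_combination -m2 i j
      · exact Or.inr ⟨c1, c2, c3, hpar⟩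

open scoped Classical in
/-- independent bad triples: at most `#Sym / p^(2k-1)` -/
theorem count_indep (hd : Good d) (j0 : ι ⊕ ι) (l M h Y : ℕ) (w : ℤ√d)
    (S : Finset (ι ⊕ ι → ZMod l × ZMod l)) (hM0 : 0 < M) (hhM : h ≤ M) (hw0 : w ≠ 0)
    (hwp : |w.norm| < p) (hYp : 24 * Y ^ 2 < p) (hMp : 300000 * M ^ 4 < p)
    (t : Pt ι d × Pt ι d × Pt ι d) (ht : t ∈ bad w (XX j0 d Y M h l S)) (htd : ¬ Dep t) :
    ((Sym (Option ι) p ×ˢ (univ : Finset (Option ι → ZMod p))).filter
      fun a => On r hr w a t.1 ∧ On r hr w a t.2.1 ∧ On r hr w a t.2.2).card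
        * p ^ (2 * Fintype.card ι + 1) ≤ (Sym (Option ι) p).card := by
  obtain ⟨P, Q, R⟩ := t
  simp only [bad, mem_filter, mem_product] at ht
  obtain ⟨⟨hP, hQ, hR⟩, hPQ, hQR, hPR, hβ⟩ := ht
  by_cases hmin : ∀ i j, (xi r hr w Q - xi r hr w P) i * (xi r hr w R - xi r hr w P) j =
      (xi r hr w Q - xi r hr w P) j * (xi r hr w R - xi r hr w P) i
  · have : ((Sym (Option ι) p ×ˢ (univ : Finset (Option ι → ZMod p))).filter
      fun a => On r hr w a P ∧ On r hr w a Q ∧ On r hr w a R) = ∅ := by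
      rw [filter_eq_empty_iff]
      rintro a - ⟨h1, h2, h3⟩
      exact htd (dep_of_minors r hr hd j0 l M h Y w S hM0 hhM hw0 hwp hYp hMp P Q R hP hQ hR
        hPQ hQR hPR a h1 h2 h3 hmin)
    simp only [this, card_empty, zero_mul]
    exact Nat.zero_le _
  · push Not at hmin
    obtain ⟨i, j, hij⟩ := hmin
    have h := sym_count_two p (xi r hr w Q - xi r hr w P) (eta r hr Q - eta r hr P)
      (xi r hr w R - xi r hr w P) (eta r hr R - eta r hr P) i j (sub_ne_zero.2 hij)
    rw [Fintype.card_option, show 2 * (Fintype.card ι + 1) - 1 = 2 * Fintype.card ι + 1 by omega]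
      at h
    refine (Nat.mul_le_mul_right _ ?_).trans h
    refine card_le_card_of_injOn (fun a => a.1) ?_ ?_
    · rintro a ha
      rw [mem_coe, mem_filter, mem_product] at ha
      rw [mem_coe, mem_filter]
      have h1 : eta r hr P = _ := ha.2.1
      have h2 : eta r hr Q = _ := ha.2.2.1
      have h3 : eta r hr R = _ := ha.2.2.2
      refine ⟨ha.1.1, ?_, ?_⟩
      · rw [h1, h2, Matrix.mulVec_sub]; abel
      · rw [h1, h3, Matrix.mulVec_sub]; abel
    · rintro a ha b hb hab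
      rw [mem_coe, mem_filter, mem_product] at ha hb
      have h1 : eta r hr P = a.1.mulVec _ + a.2 := ha.2.1
      have h2 : eta r hr P = b.1.mulVec _ + b.2 := hb.2.1
      have hab' : a.1 = b.1 := hab
      rw [h1, hab'] at h2
      exact Prod.ext hab' (add_left_cancel h2)

end Vale.Agent.P036.QF
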