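import Vale.Agent.P036.QF.K4a
import Vale.Agent.P036.QF.K2

/-!
# Block K4: the core
-/

namespace Vale.Agent.P036.QF
open Finset

variable {ι : Type} [Fintype ι] [DecidableEq ι] {d : ℤ}
variable {p : ℕ} [Fact p.Prime] (r : ZMod p) (hr : r * r = (d : ZMod p))

include r hr in
theorem core (j0 : ι ⊕ ι) (hd : Good d)
    (l M h Y K n E Col κW : ℕ) (w : ℤ√d) (S : Finset (ι ⊕ ι → ZMod l × ZMod l))
    (hS : Local d l S) (hl : 0 < l) (hlM : l ∣ M) (hlh : l ∣ h) (hM0 : 0 < M) (_hh0 : 0 < h)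
    (hhM : h ≤ M) (_hY0 : 0 < Y) (hK : 0 < K) (hn : 3 ≤ n)
    (hlw : (l : ℤ√d) ∣ w) (hw0 : w ≠ 0) (hwp : |w.norm| < p) (hYp : 24 * Y ^ 2 < p)
    (hMp : 300000 * M ^ 4 < p)
    (hE : ∀ c, detCount d Y c ≤ E)
    (hκ : κW = (M / l) ^ (4 * Fintype.card ι - 1) * (h / l))
    (hCol : (colTriples (W j0 d M h)).card ≤ Col)
    (hmain : n * K ^ 3 * p ^ (3 * Fintype.card ι + 2) + 3 * E * Y ^ 4 * S.card ^ 2 * κW ^ 3
        + E * Y ^ 4 * (S.card * κW + Col) * p ^ Fintype.card ι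
        ≤ K ^ 2 * (Y ^ 4 * (S.card * κW)) * p ^ (2 * Fintype.card ι + 1))
    (hB : 512 * (Fintype.card ι : ℝ) * M ^ 2 *
      (32 * |s2 d w| * Y ^ 2 + 512 * (Fintype.card ι : ℝ) * M ^ 2) ≤ p / 2) :
    ∃ P : Finset (ℤ√d × ℤ√d), P.card = n ∧ (∀ t ∈ P, t.1 ∈ box d Y ∧ t.2 ∈ box d Y) ∧
      ∀ a ∈ P, ∀ b ∈ P, ∀ c ∈ P, a ≠ b → b ≠ c → a ≠ c →
        (p : ℝ) / 2 ≤ (32 * |s2 d w| * Y ^ 2 + 512 * (Fintype.card ι : ℝ) * M ^ 2) *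
          (|s1 d w| * |s1 d (dt a b c)|) :=
  core_of r hr j0 hd l M h Y K n E Col κW w S hS hl hlM hlh hM0 hhM hK hn hlw hw0
    (fun P => count_one r hr w P)
    (fun t ht => count_dep r hr hd j0 l M h Y w S hM0 hhM hw0 hwp hYp hMp t ht)
    (fun t ht htd => count_indep r hr hd j0 l M h Y w S hM0 hhM hw0 hwp hYp hMp t ht htd)
    hE hκ hCol hmain hB

end Vale.Agent.P036.QF
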