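import Mathlib
import Vale.Agent.P036.QF.H
import Vale.Agent.P036.QF.D2
import Vale.Agent.P036.QF.E
import Vale.Agent.P036.QF.K4

/-!
Block H : parameters, final form (the blocks D2, E, K4 inserted in `parameters_of`).
-/

namespace Vale.Agent.P036.QF
open Finset

theorem parameters (ι : Type) [Fintype ι] [DecidableEq ι] (hm : 40 ≤ Fintype.card ι)
    (hloc : ∀ (d : ℤ) (l : ℕ), l.Prime → 5 ≤ l →
      ∃ S : Finset (ι ⊕ ι → ZMod l × ZMod l), S.card = l ^ 3 ∧ Local d l S) :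
    ∃ c : ℝ, 0 < c ∧ ∃ l₀ : ℕ, ∀ l : ℕ, l.Prime → l₀ ≤ l →
    ∃ (d : ℤ) (Y : ℕ) (P : Finset (ℤ√d × ℤ√d)), Good d ∧ 0 < Y ∧
      P.card = l ^ (4 * Fintype.card ι + 21) * Nat.sqrt (Nat.sqrt l) ∧
      (∀ t ∈ P, t.1 ∈ box d Y ∧ t.2 ∈ box d Y) ∧
      ∀ a ∈ P, ∀ b ∈ P, ∀ c' ∈ P, a ≠ b → b ≠ c' → a ≠ c' →
        c / (l:ℝ) ^ (8 * Fintype.card ι + 42) * (Y:ℝ) ^ 2 ≤ |s1 d (dt a b c')| :=
  parameters_of ι hm hloc
    (fun _ hd j0 M h s hM hh0 hh hs => window_collinear hd j0 M h s hM hh0 hh hs)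
    det_count
    (fun _ _ _ r hr j0 hd l M h Y K n E Col κW w S hS hl hlM hlh hM0 hh0 hhM hY0 hK hn hlw hw0
      hwp hYp hMp hE hκ hCol hmain hB =>
      core r hr j0 hd l M h Y K n E Col κW w S hS hl hlM hlh hM0 hh0 hhM hY0 hK hn hlw hw0
      hwp hYp hMp hE hκ hCol hmain hB)

end Vale.Agent.P036.QF
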