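import Mathlib
import Vale.Agent.P036.QF.Basic
import Vale.Agent.P036.LB.HeilDefs
import Vale.Agent.P036.LB.Heil

/-!
# P036, QF: transfer from points of `O²` to the Euclidean plane
-/

namespace Vale.Agent.P036.QF

open Finset

theorem s1_injective {d : ℤ} (hd : Good d) : Function.Injective (s1 d) := by
  intro x y h
  by_contra hne
  refine s1_ne_zero hd (sub_ne_zero.2 hne) ?_
  rw [s1_sub, h, sub_self]

theorem s1_box {d : ℤ} (hd : Good d) {Y : ℕ} {x : ℤ√d} (hx : x ∈ box d Y) :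
    0 ≤ s1 d x ∧ s1 d x ≤ 4 * Y := by
  unfold box at hx
  obtain ⟨⟨a, b⟩, hab, rfl⟩ := mem_image.1 hx
  obtain ⟨h1, h2⟩ := mem_product.1 hab
  simp only [mem_Ico] at h1 h2
  have hs0 : 0 ≤ √(d : ℝ) := Real.sqrt_nonneg _
  have hs : √(d : ℝ) ≤ 5 / 2 := by
    apply Real.sqrt_le_iff.2 ⟨by norm_num, ?_⟩
    have : (d : ℝ) ≤ 6 := by exact_mod_cast hd.le_six
    linarith
  have a0 : (0 : ℝ) ≤ a := by exact_mod_cast h1.1
  have a1 : (a : ℝ) ≤ Y := by exact_mod_cast h1.2.le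
  have b0 : (0 : ℝ) ≤ b := by exact_mod_cast h2.1
  have b1 : (b : ℝ) ≤ Y := by exact_mod_cast h2.2.le
  simp only [s1]
  refine ⟨by positivity, ?_⟩
  have : (b : ℝ) * √(d : ℝ) ≤ Y * (5 / 2) := mul_le_mul b1 hs hs0 (by linarith)
  linarith

/-- transfer from points of `O²` -/
theorem le_heilDelta_of_O {n : ℕ} (h3 : 3 ≤ n) {a : ℝ} (_ha0 : 0 < a) (d : ℤ)
    (hd : Good d) (Y : ℕ) (hY : 0 < Y)
    (P : Finset (ℤ√d × ℤ√d)) (hcard : P.card = n)
    (hP : ∀ t ∈ P, t.1 ∈ box d Y ∧ t.2 ∈ box d Y)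
    (ha : ∀ x ∈ P, ∀ y ∈ P, ∀ z ∈ P, x ≠ y → y ≠ z → x ≠ z →
      32 * a * (Y:ℝ) ^ 2 ≤ |s1 d (dt x y z)|) :
    a ≤ LB.heilDelta n := by
  classical
  have hY' : (0:ℝ) < Y := by exact_mod_cast hY
  let f : ℤ√d × ℤ√d → EuclideanSpace ℝ (Fin 2) := fun t => !₂[s1 d t.1 / (4 * Y), s1 d t.2 / (4 * Y)]
  have hf0 : ∀ t, f t 0 = s1 d t.1 / (4 * Y) := fun t => by simp [f]
  have hf1 : ∀ t, f t 1 = s1 d t.2 / (4 * Y) := fun t => by simp [f]
  have hinj : Function.Injective f := by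
    intro t t' h
    have e0 := congrArg (fun v : EuclideanSpace ℝ (Fin 2) => v 0) h
    have e1 := congrArg (fun v : EuclideanSpace ℝ (Fin 2) => v 1) h
    simp only [hf0, hf1] at e0 e1
    have hne : (4 * (Y : ℝ)) ≠ 0 := by positivity
    rw [div_left_inj' hne] at e0 e1
    exact Prod.ext (s1_injective hd e0) (s1_injective hd e1)
  refine LB.le_heilDelta h3 (P.image f) (by rw [card_image_of_injective _ hinj, hcard]) ?_ ?_
  · intro p hp i
    obtain ⟨t, ht, rfl⟩ := mem_image.1 hp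
    obtain ⟨h1, h2⟩ := hP t ht
    obtain ⟨a0, a1⟩ := s1_box hd h1
    obtain ⟨b0, b1⟩ := s1_box hd h2
    fin_cases i
    · change 0 ≤ f t 0 ∧ f t 0 ≤ 1
      rw [hf0]
      exact ⟨by positivity, by rw [div_le_one (by positivity)]; exact a1⟩
    · change 0 ≤ f t 1 ∧ f t 1 ≤ 1
      rw [hf1]
      exact ⟨by positivity, by rw [div_le_one (by positivity)]; exact b1⟩
  · intro p hp q hq r hr hpq hqr hpr
    obtain ⟨x, hx, rfl⟩ := mem_image.1 hp
    obtain ⟨y, hy, rfl⟩ := mem_image.1 hq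
    obtain ⟨z, hz, rfl⟩ := mem_image.1 hr
    have h := ha x hx y hy z hz (fun e => hpq (e ▸ rfl)) (fun e => hqr (e ▸ rfl))
      (fun e => hpr (e ▸ rfl))
    unfold LB.tArea
    simp only [hf0, hf1]
    have h0 : 0 ≤ d := hd.pos.le
    have e : (s1 d y.1 / (4 * Y) - s1 d x.1 / (4 * Y)) * (s1 d z.2 / (4 * Y) - s1 d x.2 / (4 * Y)) -
        (s1 d y.2 / (4 * Y) - s1 d x.2 / (4 * Y)) * (s1 d z.1 / (4 * Y) - s1 d x.1 / (4 * Y)) =
        s1 d (dt x y z) / (16 * (Y : ℝ) ^ 2) := by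
      rw [dt, s1_sub, s1_mul h0, s1_mul h0, s1_sub, s1_sub, s1_sub, s1_sub]
      field_simp
      ring
    rw [e, abs_div, abs_of_pos (by positivity : (0 : ℝ) < 16 * (Y : ℝ) ^ 2), div_div,
      le_div_iff₀ (by positivity)]
    linarith

end Vale.Agent.P036.QF
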