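import Mathlib
import Vale.Agent.P036.LB.HeilDefs

/-!
# From prime parameters to all `n`
-/

namespace Vale.Agent.P036.QF

open Filter

/-- `j = ⌊⌊√l⌋^{1/2}⌋` is at least `l^{1/4} / 2`, in the form `l ≤ (2 j)^4` -/
theorem le_sqrt_sqrt (l : ℕ) (hl : 1 ≤ l) : l ≤ (2 * Nat.sqrt (Nat.sqrt l)) ^ 4 := by
  set a := Nat.sqrt l with ha
  set j := Nat.sqrt a with hj
  have h1 : l < (a + 1) * (a + 1) := Nat.lt_succ_sqrt l
  have h2 : a < (j + 1) * (j + 1) := Nat.lt_succ_sqrt a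
  have ha1 : 1 ≤ a := Nat.sqrt_pos.2 hl
  have hj1 : 1 ≤ j := Nat.sqrt_pos.2 ha1
  have h3 : a + 1 ≤ (2 * j) * (2 * j) := by nlinarith
  calc l ≤ (a + 1) * (a + 1) := h1.le
    _ ≤ ((2 * j) * (2 * j)) * ((2 * j) * (2 * j)) := Nat.mul_le_mul h3 h3
    _ = (2 * j) ^ 4 := by ring

/-- power saving for all `n` from power saving along `l ^ A * sqrt (sqrt l)`, `l` prime -/
theorem all_n_of_primes (D : ℕ → ℝ) (A : ℕ) (hA : 1 ≤ A)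
    (hanti : ∀ m n : ℕ, 3 ≤ m → m ≤ n → D n ≤ D m) (c : ℝ) (hc : 0 < c) (l₀ : ℕ)
    (H : ∀ l : ℕ, l.Prime → l₀ ≤ l → c / (l:ℝ) ^ (2 * A) ≤ D (l ^ A * Nat.sqrt (Nat.sqrt l))) :
    ∃ c' : ℝ, 0 < c' ∧ ∃ n₀ : ℕ, ∀ n : ℕ, n₀ ≤ n → (n:ℝ) ^ (-2 + c') ≤ D n := by
  set θ : ℝ := A + 1 / 4 with hθ
  have hA' : (1:ℝ) ≤ A := by exact_mod_cast hA
  have hθ0 : 0 < θ := by positivity
  -- the saving is `1 / (4 θ)`, half of the true one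
  refine ⟨1 / (4 * θ), by positivity, ?_⟩
  -- constant
  set C : ℝ := c / (4:ℝ) ^ (2 * A) * (2:ℝ) ^ (-(2 * (A:ℝ)) / θ) with hC
  have hC0 : 0 < C := by positivity
  have hlim : Tendsto (fun n : ℕ => C * (n:ℝ) ^ (1 / (4 * θ))) atTop atTop :=
    Tendsto.const_mul_atTop hC0
      ((tendsto_rpow_atTop (by positivity : 0 < 1 / (4 * θ))).comp tendsto_natCast_atTop_atTop)
  have hlim2 : Tendsto (fun n : ℕ => ((2 * n : ℝ)) ^ (1 / θ)) atTop atTop := by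
    have h0 : Tendsto (fun n : ℕ => (2 * n : ℝ)) atTop atTop :=
      Tendsto.const_mul_atTop (by norm_num) tendsto_natCast_atTop_atTop
    exact (tendsto_rpow_atTop (by positivity : 0 < 1 / θ)).comp h0
  obtain ⟨N1, hN1⟩ := eventually_atTop.1 (hlim.eventually (eventually_ge_atTop 1))
  obtain ⟨N2, hN2⟩ := eventually_atTop.1 (hlim2.eventually (eventually_ge_atTop ((l₀:ℝ) + 1)))
  refine ⟨max (max N1 N2) 3, fun n hn => ?_⟩
  have hn1 := hN1 n (le_trans (le_trans (le_max_left _ _) (le_max_left _ _)) hn)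
  have hn2 := hN2 n (le_trans (le_trans (le_max_right _ _) (le_max_left _ _)) hn)
  have hn3 : 3 ≤ n := le_trans (le_max_right _ _) hn
  have hn0 : (0:ℝ) < n := by exact_mod_cast (by omega : 0 < n)
  set x : ℝ := (2 * n : ℝ) ^ (1 / θ) with hx
  have hx0 : 0 < x := by positivity
  have hl00 : (0:ℝ) ≤ l₀ := Nat.cast_nonneg _
  have hx1 : 1 ≤ x := by linarith
  set N0 : ℕ := ⌈x⌉₊ with hN0
  have hN00 : N0 ≠ 0 := by
    rw [hN0]; exact (Nat.ceil_pos.2 hx0).ne'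
  obtain ⟨l, hlp, hl1, hl2⟩ := Nat.exists_prime_lt_and_le_two_mul N0 hN00
  have hxl : x ≤ l := (Nat.le_ceil x).trans (by exact_mod_cast hl1.le)
  have hlx : (l:ℝ) ≤ 4 * x := by
    have h1 : (N0:ℝ) < x + 1 := Nat.ceil_lt_add_one hx0.le
    have h2 : (l:ℝ) ≤ 2 * N0 := by exact_mod_cast hl2
    linarith
  have hl0 : (0:ℝ) < l := by exact_mod_cast hlp.pos
  have hll : l₀ ≤ l := by
    have : (l₀:ℝ) ≤ l := by linarith
    exact_mod_cast this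
  -- `n ≤ l ^ A * j`
  set j := Nat.sqrt (Nat.sqrt l) with hj
  have hj4 : (l:ℝ) ≤ (2 * j) ^ 4 := by exact_mod_cast le_sqrt_sqrt l hlp.one_le
  have hj5 : (l:ℝ) ^ ((1:ℝ) / 4) ≤ 2 * j := by
    have h2 : (0:ℝ) ≤ 2 * j := by positivity
    calc (l:ℝ) ^ ((1:ℝ) / 4) ≤ ((2 * (j:ℝ)) ^ 4) ^ ((1:ℝ) / 4) :=
          Real.rpow_le_rpow hl0.le hj4 (by norm_num)
      _ = 2 * j := by
          rw [← Real.rpow_natCast, ← Real.rpow_mul h2]; norm_num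
  have hxθ : x ^ θ = 2 * n := by
    rw [hx, ← Real.rpow_mul (by positivity)]
    rw [one_div, inv_mul_cancel₀ hθ0.ne', Real.rpow_one]
  have hnl : (n:ℝ) ≤ (l:ℝ) ^ A * j := by
    have h1 : (2 * n : ℝ) ≤ (l:ℝ) ^ θ := by
      rw [← hxθ]; exact Real.rpow_le_rpow hx0.le hxl hθ0.le
    have h2 : (l:ℝ) ^ θ = (l:ℝ) ^ A * (l:ℝ) ^ ((1:ℝ) / 4) := by
      rw [hθ, Real.rpow_add hl0, Real.rpow_natCast]
    have h3 : (l:ℝ) ^ A * (l:ℝ) ^ ((1:ℝ) / 4) ≤ (l:ℝ) ^ A * (2 * j) := by gcongr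
    nlinarith
  have hnl' : n ≤ l ^ A * j := by exact_mod_cast hnl
  have hD : c / (l:ℝ) ^ (2 * A) ≤ D n := (H l hlp hll).trans (hanti n _ hn3 hnl')
  refine le_trans ?_ hD
  -- `n ^ (-2 + 1/(4θ)) ≤ C n^{1/(4θ)} n^{-2+1/(4θ)} ≤ c / l^{2A}`
  have e1 : c / (4 * x) ^ (2 * A) ≤ c / (l:ℝ) ^ (2 * A) := by
    apply div_le_div_of_nonneg_left hc.le (by positivity)
    exact pow_le_pow_left₀ hl0.le hlx _
  refine le_trans ?_ e1
  have e2 : c / (4 * x) ^ (2 * A) = C * (n:ℝ) ^ (-(2 * (A:ℝ)) / θ) := by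
    have e3 : x ^ (2 * A) = (2 * n : ℝ) ^ ((2 * (A:ℝ)) / θ) := by
      rw [hx, ← Real.rpow_natCast, ← Real.rpow_mul (by positivity)]
      congr 1
      push_cast
      field_simp
    rw [mul_pow, e3, hC]
    rw [neg_div, Real.rpow_neg (by norm_num), Real.rpow_neg hn0.le,
      Real.mul_rpow (by norm_num) hn0.le]
    field_simp
  rw [e2]
  have e4 : -(2 * (A:ℝ)) / θ = -2 + 1 / (4 * θ) + 1 / (4 * θ) := by
    have hAθ : (A:ℝ) = θ - 1 / 4 := by rw [hθ]; ring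
    rw [hAθ]
    field_simp
    ring
  rw [e4, Real.rpow_add hn0 (-2 + 1 / (4 * θ)) (1 / (4 * θ))]
  have h5 : 0 < (n:ℝ) ^ (-2 + 1 / (4 * θ)) := Real.rpow_pos_of_pos hn0 _
  calc (n:ℝ) ^ (-2 + 1 / (4 * θ)) = 1 * (n:ℝ) ^ (-2 + 1 / (4 * θ)) := by ring
    _ ≤ (C * (n:ℝ) ^ (1 / (4 * θ))) * (n:ℝ) ^ (-2 + 1 / (4 * θ)) :=
        mul_le_mul_of_nonneg_right hn1 h5.le
    _ = C * ((n:ℝ) ^ (-2 + 1 / (4 * θ)) * (n:ℝ) ^ (1 / (4 * θ))) := by ring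

end Vale.Agent.P036.QF
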