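import Mathlib
import Vale.Agent.P036.QF.Explicit

/-!
# Heilbronn's triangle problem: explicit exponent, explicit point sets
-/

namespace Vale.Agent.P036.QF
open Finset Filter

/-- the smallest area is at most the area of each triangle -/
theorem mArea_le_tArea (P : Finset (EuclideanSpace ℝ (Fin 2))) {p q r : EuclideanSpace ℝ (Fin 2)}
    (hp : p ∈ P) (hq : q ∈ P) (hr : r ∈ P) (hpq : p ≠ q) (hqr : q ≠ r) (hpr : p ≠ r) :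
    LB.mArea P ≤ LB.tArea p q r := by
  refine csInf_le ⟨0, ?_⟩ ⟨p, hp, q, hq, r, hr, hpq, hqr, hpr, rfl⟩
  rintro A ⟨x, -, y, -, z, -, -, -, -, rfl⟩
  unfold LB.tArea
  positivity

/-- point sets with a large smallest triangle from a lower bound for `Δ` -/
theorem sets_of_bound (a b : ℝ) (hab : a < b)
    (h : ∃ n₀ : ℕ, ∀ n : ℕ, n₀ ≤ n → (n:ℝ) ^ (-2 + b) ≤ LB.heilDelta n) :
    ∃ n₀ : ℕ, ∀ n : ℕ, n₀ ≤ n → ∃ P : Finset (EuclideanSpace ℝ (Fin 2)), P.card = n ∧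
      (∀ p ∈ P, ∀ i, 0 ≤ p i ∧ p i ≤ 1) ∧
      ∀ p ∈ P, ∀ q ∈ P, ∀ r ∈ P, p ≠ q → q ≠ r → p ≠ r →
        (n:ℝ) ^ (-2 + a) ≤ LB.tArea p q r := by
  obtain ⟨n₀, hn₀⟩ := h
  refine ⟨max n₀ 2, fun n hn => ?_⟩
  have h1 := hn₀ n (le_trans (le_max_left _ _) hn)
  have h2 : 2 ≤ n := le_trans (le_max_right _ _) hn
  have h3 : (1:ℝ) < n := by exact_mod_cast (by omega : 1 < n)
  have h4 : (n:ℝ) ^ (-2 + a) < (n:ℝ) ^ (-2 + b) :=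
    Real.rpow_lt_rpow_of_exponent_lt h3 (by linarith)
  obtain ⟨P0, hP0, hP0'⟩ := S.exists_square_set n
  have hne : {a : ℝ | ∃ P : Finset (EuclideanSpace ℝ (Fin 2)), P.card = n ∧
    (∀ p ∈ P, ∀ i, 0 ≤ p i ∧ p i ≤ 1) ∧ a = LB.mArea P}.Nonempty := ⟨_, P0, hP0, hP0', rfl⟩
  obtain ⟨x, ⟨P, hP1, hP2, rfl⟩, hx⟩ := exists_lt_of_lt_csSup hne (lt_of_lt_of_le h4 h1)
  exact ⟨P, hP1, hP2, fun p hp q hq r hr hpq hqr hpr =>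
    hx.le.trans (mArea_le_tArea P hp hq hr hpq hqr hpr)⟩

/-- explicit exponent, negation of Q1 and point sets -/
theorem explicit_all :
    (∃ n₀ : ℕ, ∀ n : ℕ, n₀ ≤ n → (n:ℝ) ^ (-2 + 1 / 64245 : ℝ) ≤ LB.heilDelta n) ∧
    (∃ n₀ : ℕ, ∀ n : ℕ, n₀ ≤ n → ∃ P : Finset (EuclideanSpace ℝ (Fin 2)), P.card = n ∧
      (∀ p ∈ P, ∀ i, 0 ≤ p i ∧ p i ≤ 1) ∧
      ∀ p ∈ P, ∀ q ∈ P, ∀ r ∈ P, p ≠ q → q ≠ r → p ≠ r →
        (n:ℝ) ^ (-2 + 1 / 64246 : ℝ) ≤ LB.tArea p q r) ∧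
    ¬ (∀ ε : ℝ, 0 < ε → ∃ C : ℝ, ∃ n₀ : ℕ, ∀ n : ℕ, n₀ ≤ n →
      LB.heilDelta n ≤ C * (n:ℝ) ^ (-2 + ε)) := by
  refine ⟨final_explicit, sets_of_bound (1 / 64246) (1 / 64245) (by norm_num) final_explicit, ?_⟩
  obtain ⟨n₀, H⟩ := final_explicit
  exact LB.not_Q1_of_power (1 / 64245) (by norm_num)
    fun N => ⟨max n₀ N, le_max_right _ _, H _ (le_max_left _ _)⟩

end Vale.Agent.P036.QF
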