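import Mathlib
import Vale.Agent.P036.QF.A
import Vale.Agent.P036.QF.HFinal
import Vale.Agent.P036.QF.I
import Vale.Agent.P036.QF.J
import Vale.Agent.P036.S.Fin

/-!
# Power saving in Heilbronn's problem: assembly
-/

namespace Vale.Agent.P036.QF

/-- **Power saving**: `Δ(n) ≥ n^{-2+c}` for all large `n`. -/
theorem final : ∃ c : ℝ, 0 < c ∧ ∃ n₀ : ℕ, ∀ n : ℕ, n₀ ≤ n →
    (n:ℝ) ^ (-2 + c) ≤ LB.heilDelta n := by
  obtain ⟨ι, _, _, hm, hloc⟩ := local_exists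
  obtain ⟨c, hc, l₀, H⟩ := parameters ι hm hloc
  refine all_n_of_primes LB.heilDelta (4 * Fintype.card ι + 21) (by omega)
    (fun m n h3 hmn => S.heilDelta_anti h3 hmn) (c / 32) (by positivity) (max l₀ 3) ?_
  intro l hl hl0
  obtain ⟨d, Y, P, hd, hY, hcard, hP, hdt⟩ := H l hl (le_trans (le_max_left _ _) hl0)
  have hl3 : 3 ≤ l := le_trans (le_max_right _ _) hl0
  have hl0' : (0:ℝ) < l := by exact_mod_cast hl.pos
  have h3 : 3 ≤ l ^ (4 * Fintype.card ι + 21) * Nat.sqrt (Nat.sqrt l) := by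
    have h1 : 1 ≤ Nat.sqrt (Nat.sqrt l) :=
      Nat.sqrt_pos.2 (Nat.sqrt_pos.2 hl.pos)
    calc 3 ≤ l := hl3
      _ = l ^ 1 := (pow_one l).symm
      _ ≤ l ^ (4 * Fintype.card ι + 21) := Nat.pow_le_pow_right hl.pos (by omega)
      _ ≤ _ := Nat.le_mul_of_pos_right _ h1
  refine le_heilDelta_of_O h3 (by positivity) d hd Y hY P hcard hP ?_
  intro x hx y hy z hz hxy hyz hxz
  refine le_trans (le_of_eq ?_) (hdt x hx y hy z hz hxy hyz hxz)
  have e : 2 * (4 * Fintype.card ι + 21) = 8 * Fintype.card ι + 42 := by ring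
  rw [e]
  field_simp

end Vale.Agent.P036.QF
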