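import Vale.Agent.P036.LB.G

/-! Block G: the alteration lemma. -/

namespace Vale.Agent.P036.QF

open Finset

theorem alteration {Lam X : Type} [DecidableEq X] (P : Finset Lam) (hP : P.Nonempty)
    (pts : Finset X) (Z : Lam → Finset X) (hZ : ∀ a ∈ P, Z a ⊆ pts)
    (bad : Finset (X × X × X)) (hbad : ∀ t ∈ bad, t.1 ≠ t.2.1 ∧ t.2.1 ≠ t.2.2 ∧ t.1 ≠ t.2.2)
    (K n : ℕ) (hK : 0 < K)
    (h : n * K ^ 3 * P.card +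
        ∑ a ∈ P, (bad.filter fun t => t.1 ∈ Z a ∧ t.2.1 ∈ Z a ∧ t.2.2 ∈ Z a).card
      ≤ K ^ 2 * ∑ a ∈ P, (Z a).card) :
    ∃ a ∈ P, ∃ Y ⊆ Z a, Y.card = n ∧ ∀ t ∈ bad, ¬ (t.1 ∈ Y ∧ t.2.1 ∈ Y ∧ t.2.2 ∈ Y) :=
  LB.alteration P hP pts Z hZ bad hbad K n hK h

end Vale.Agent.P036.QF
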