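import Vale.Agent.P036.QF.K1a
import Vale.Agent.P036.QF.D1

/-!
# Block K1: counting candidates and bad triples
-/

namespace Vale.Agent.P036.QF
open Finset

variable {ι : Type} [Fintype ι] [DecidableEq ι] {d : ℤ}

theorem class_card (hd : Good d) (j0 : ι ⊕ ι) (l M h κW : ℕ) (hl : 0 < l) (hlM : l ∣ M)
    (hlh : l ∣ h) (hM0 : 0 < M)
    (hκ : κW = (M / l) ^ (4 * Fintype.card ι - 1) * (h / l)) (c : ι ⊕ ι → ZMod l × ZMod l) :
    (Wc j0 d M h l c).card = κW := by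
  rw [window_class hd j0 M h l hl hM0 hlM hlh c, hκ, Fintype.card_sum]
  congr 3
  omega

theorem card_XX (hd : Good d) (j0 : ι ⊕ ι) (l M h Y κW : ℕ)
    (S : Finset (ι ⊕ ι → ZMod l × ZMod l)) (hl : 0 < l) (hlM : l ∣ M) (hlh : l ∣ h) (hM0 : 0 < M)
    (hκ : κW = (M / l) ^ (4 * Fintype.card ι - 1) * (h / l)) :
    (WS j0 d M h l S).card = S.card * κW ∧ (XX j0 d Y M h l S).card = Y ^ 4 * (S.card * κW) :=
  ⟨card_WS_of j0 l M h κW S (class_card hd j0 l M h κW hl hlM hlh hM0 hκ),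
    card_XX_of j0 l M h Y κW S (class_card hd j0 l M h κW hl hlM hlh hM0 hκ)⟩

theorem card_bad (hd : Good d) (j0 : ι ⊕ ι) (l M h Y κW E : ℕ) (w : ℤ√d)
    (S : Finset (ι ⊕ ι → ZMod l × ZMod l)) (hS : Local d l S) (hl : 0 < l) (hlM : l ∣ M)
    (hlh : l ∣ h) (hM0 : 0 < M) (hlw : (l : ℤ√d) ∣ w) (hw0 : w ≠ 0)
    (hE : ∀ c, detCount d Y c ≤ E)
    (hκ : κW = (M / l) ^ (4 * Fintype.card ι - 1) * (h / l)) :
    (bad w (XX j0 d Y M h l S)).card ≤ 3 * E * Y ^ 4 * S.card ^ 2 * κW ^ 3 :=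
  card_bad_of hd j0 l M h Y κW E w S hS hlw hw0 hE
    (class_card hd j0 l M h κW hl hlM hlh hM0 hκ)

open scoped Classical in
theorem card_dep (hd : Good d) (j0 : ι ⊕ ι) (l M h Y κW E Col : ℕ) (w : ℤ√d)
    (S : Finset (ι ⊕ ι → ZMod l × ZMod l)) (hl : 0 < l) (hlM : l ∣ M)
    (hlh : l ∣ h) (hM0 : 0 < M) (hw0 : w ≠ 0) (hE : ∀ c, detCount d Y c ≤ E)
    (hκ : κW = (M / l) ^ (4 * Fintype.card ι - 1) * (h / l))
    (hCol : (colTriples (W j0 d M h)).card ≤ Col) :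
    ((bad w (XX j0 d Y M h l S)).filter Dep).card ≤ E * Y ^ 4 * (S.card * κW + Col) :=
  card_dep_of hd j0 l M h Y κW E Col w S hw0 hE
    (class_card hd j0 l M h κW hl hlM hlh hM0 hκ) hCol

end Vale.Agent.P036.QF
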