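import Vale.Agent.P036.QF.Basic

/-!
# Block K1 (counting candidates and bad triples), part a: everything except the use of
`window_class`, which enters as a hypothesis `hwc`.
-/

namespace Vale.Agent.P036.QF
open Finset

theorem zs_mul_left_cancel {d : ℤ} (hd : Good d) {w x y : ℤ√d} (hw : w ≠ 0)
    (h : w * x = w * y) : x = y := by
  have h1 : w * (x - y) = 0 := by rw [mul_sub, h, sub_self]
  have h2 : (w * (x - y)).norm = 0 := by rw [h1]; simp
  rw [Zsqrtd.norm_mul] at h2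
  rcases mul_eq_zero.mp h2 with h3 | h3
  · exact absurd h3 (norm_ne_zero hd hw)
  · have h4 : x - y = 0 := by
      by_contra hne
      exact norm_ne_zero hd hne h3
    exact sub_eq_zero.mp h4

theorem card_box (d : ℤ) (Y : ℕ) : (box d Y).card = Y ^ 2 := by
  unfold box
  rw [Finset.card_image_of_injective]
  · rw [Finset.card_product, Int.card_Ico]
    simp
    ring
  · intro a b h
    have h1 := congrArg Zsqrtd.re h
    have h2 := congrArg Zsqrtd.im h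
    exact Prod.ext h1 h2

theorem mem_box {d : ℤ} {Y : ℕ} {x : ℤ√d} :
    x ∈ box d Y ↔ (0 ≤ x.re ∧ x.re < Y) ∧ (0 ≤ x.im ∧ x.im < Y) := by
  unfold box
  simp only [Finset.mem_image, Finset.mem_product, Finset.mem_Ico, Prod.exists]
  constructor
  · rintro ⟨a, b, ⟨h1, h2⟩, rfl⟩
    exact ⟨h1, h2⟩
  · rintro ⟨h1, h2⟩
    exact ⟨x.re, x.im, ⟨h1, h2⟩, rfl⟩

theorem mem_sbox {d : ℤ} {Y : ℕ} {x : ℤ√d} :
    x ∈ sbox d Y ↔ (-(Y:ℤ) ≤ x.re ∧ x.re ≤ Y) ∧ (-(Y:ℤ) ≤ x.im ∧ x.im ≤ Y) := by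
  unfold sbox
  simp only [Finset.mem_image, Finset.mem_product, Finset.mem_Icc, Prod.exists]
  constructor
  · rintro ⟨a, b, ⟨h1, h2⟩, rfl⟩
    exact ⟨h1, h2⟩
  · rintro ⟨h1, h2⟩
    exact ⟨x.re, x.im, ⟨h1, h2⟩, rfl⟩

theorem sub_mem_sbox {d : ℤ} {Y : ℕ} {x y : ℤ√d} (hx : x ∈ box d Y) (hy : y ∈ box d Y) :
    x - y ∈ sbox d Y := by
  rw [mem_box] at hx hy
  rw [mem_sbox, Zsqrtd.re_sub, Zsqrtd.im_sub]
  omega

section
variable {ι : Type} [Fintype ι] [DecidableEq ι] {d : ℤ}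

open scoped Classical in
/-- fibres of a set of bad triples over the internal parts -/
theorem card_le_image (hd : Good d) (j0 : ι ⊕ ι) (l M h Y E : ℕ) (w : ℤ√d)
    (S : Finset (ι ⊕ ι → ZMod l × ZMod l)) (hw0 : w ≠ 0)
    (hE : ∀ c, detCount d Y c ≤ E)
    (T : Finset (Pt ι d × Pt ι d × Pt ι d)) (hT : T ⊆ bad w (XX j0 d Y M h l S)) :
    T.card ≤ (Y ^ 4 * E) * (T.image fun t => (t.1.2, t.2.1.2, t.2.2.2)).card := by
  refine Finset.card_le_mul_card_image T _ ?_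
  intro z hz
  -- the fibre
  rcases (T.filter fun t => (t.1.2, t.2.1.2, t.2.2.2) = z).eq_empty_or_nonempty with he | ⟨t0, ht0⟩
  · rw [he]
    simp
  · have hmem : ∀ t ∈ T.filter (fun t => (t.1.2, t.2.1.2, t.2.2.2) = z),
        t.1.1 ∈ box d Y ×ˢ box d Y ∧ t.2.1.1 ∈ box d Y ×ˢ box d Y ∧
        t.2.2.1 ∈ box d Y ×ˢ box d Y ∧ (t.1.2, t.2.1.2, t.2.2.2) = z ∧ beta w t = 0 := by
      intro t ht
      rw [Finset.mem_filter] at ht
      obtain ⟨h1, h2⟩ := ht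
      have h3 := hT h1
      unfold bad XX at h3
      simp only [Finset.mem_filter, Finset.mem_product] at h3
      simp only [Finset.mem_product]
      tauto
    let c0 : ℤ√d := dt t0.1.1 t0.2.1.1 t0.2.2.1
    have hc0 : ∀ t ∈ T.filter (fun t => (t.1.2, t.2.1.2, t.2.2.2) = z),
        dt t.1.1 t.2.1.1 t.2.2.1 = c0 := by
      intro t ht
      obtain ⟨-, -, -, h4, h5⟩ := hmem t ht
      obtain ⟨-, -, -, h4', h5'⟩ := hmem t0 ht0
      rw [← h4'] at h4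
      simp only [Prod.mk.injEq] at h4
      obtain ⟨e1, e2, e3⟩ := h4
      unfold beta at h5 h5'
      rw [e1, e2, e3] at h5
      refine zs_mul_left_cancel hd hw0 ?_
      change _ = w * dt t0.1.1 t0.2.1.1 t0.2.2.1
      linear_combination h5 - h5'
    have hinj : Set.InjOn (fun t : Pt ι d × Pt ι d × Pt ι d =>
        (t.1.1, ((t.2.1.1.1 - t.1.1.1, t.2.1.1.2 - t.1.1.2),
          (t.2.2.1.1 - t.1.1.1, t.2.2.1.2 - t.1.1.2))))
        (T.filter fun t => (t.1.2, t.2.1.2, t.2.2.2) = z) := by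
      intro t ht t' ht' heq
      obtain ⟨-, -, -, h4, -⟩ := hmem t ht
      obtain ⟨-, -, -, h4', -⟩ := hmem t' ht'
      rw [← h4'] at h4
      obtain ⟨⟨⟨a1, a2⟩, za⟩, ⟨⟨b1, b2⟩, zb⟩, ⟨⟨c1, c2⟩, zc⟩⟩ := t
      obtain ⟨⟨⟨a1', a2'⟩, za'⟩, ⟨⟨b1', b2'⟩, zb'⟩, ⟨⟨c1', c2'⟩, zc'⟩⟩ := t'
      simp only [Prod.mk.injEq] at heq h4 ⊢
      obtain ⟨⟨rfl, rfl⟩, ⟨h7, h8⟩, h9, h10⟩ := heq
      obtain ⟨rfl, rfl, rfl⟩ := h4
      refine ⟨⟨⟨rfl, rfl⟩, rfl⟩, ⟨⟨?_, ?_⟩, rfl⟩, ⟨?_, ?_⟩, rfl⟩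
      · exact sub_left_injective h7
      · exact sub_left_injective h8
      · exact sub_left_injective h9
      · exact sub_left_injective h10
    have himg : (T.filter fun t => (t.1.2, t.2.1.2, t.2.2.2) = z).card ≤
        ((box d Y ×ˢ box d Y) ×ˢ
          (((sbox d Y ×ˢ sbox d Y) ×ˢ (sbox d Y ×ˢ sbox d Y)).filter
            fun t : (ℤ√d × ℤ√d) × (ℤ√d × ℤ√d) => t.1.1 * t.2.2 - t.1.2 * t.2.1 = c0)).card := by
      refine Finset.card_le_card_of_injOn _ ?_ hinj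
      intro t ht
      obtain ⟨h1, h2, h3, -, -⟩ := hmem t ht
      have h4 := hc0 t ht
      rw [Finset.mem_product] at h1 h2 h3
      simp only [Finset.coe_product, Set.mem_prod, Finset.mem_coe, Finset.mem_product,
        Finset.mem_filter]
      refine ⟨h1, ⟨⟨⟨?_, ?_⟩, ⟨?_, ?_⟩⟩, ?_⟩⟩
      · exact sub_mem_sbox h2.1 h1.1
      · exact sub_mem_sbox h2.2 h1.2
      · exact sub_mem_sbox h3.1 h1.1
      · exact sub_mem_sbox h3.2 h1.2
      · exact h4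
    refine himg.trans ?_
    rw [Finset.card_product, Finset.card_product, card_box]
    have hE' := hE c0
    unfold detCount at hE'
    calc Y ^ 2 * Y ^ 2 * _ ≤ Y ^ 2 * Y ^ 2 * E := Nat.mul_le_mul_left _ hE'
      _ = Y ^ 4 * E := by ring

theorem card_WS_of (j0 : ι ⊕ ι) (l M h κW : ℕ) (S : Finset (ι ⊕ ι → ZMod l × ZMod l))
    (hwc : ∀ c, (Wc j0 d M h l c).card = κW) : (WS j0 d M h l S).card = S.card * κW := by
  classical
  rw [Finset.card_eq_sum_card_fiberwise (f := cls l) (t := S)]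
  · rw [Finset.sum_congr rfl (g := fun _ => κW), Finset.sum_const, smul_eq_mul]
    intro c hc
    rw [← hwc c]
    congr 1
    ext x
    simp only [WS, Wc, Finset.mem_filter]
    constructor
    · rintro ⟨⟨h1, -⟩, h3⟩
      exact ⟨h1, h3⟩
    · rintro ⟨h1, h3⟩
      exact ⟨⟨h1, by rw [h3]; exact hc⟩, h3⟩
  · intro x hx
    have hx' : x ∈ WS j0 d M h l S := hx
    simp only [WS, Finset.mem_filter] at hx'
    exact hx'.2

theorem card_XX_of (j0 : ι ⊕ ι) (l M h Y κW : ℕ) (S : Finset (ι ⊕ ι → ZMod l × ZMod l))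
    (hwc : ∀ c, (Wc j0 d M h l c).card = κW) :
    (XX j0 d Y M h l S).card = Y ^ 4 * (S.card * κW) := by
  unfold XX
  rw [Finset.card_product, Finset.card_product, card_box, card_WS_of j0 l M h κW S hwc]
  ring

open scoped Classical in
/-- pairs with the same class -/
theorem card_pairs (j0 : ι ⊕ ι) (l M h κW : ℕ) (S : Finset (ι ⊕ ι → ZMod l × ZMod l))
    (hwc : ∀ c, (Wc j0 d M h l c).card = κW) :
    ((WS j0 d M h l S ×ˢ WS j0 d M h l S).filter fun t => cls l t.1 = cls l t.2).card =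
      S.card * κW ^ 2 := by
  rw [Finset.card_eq_sum_card_fiberwise (f := fun t => cls l t.1) (t := S)]
  · rw [Finset.sum_congr rfl (g := fun _ => κW ^ 2), Finset.sum_const, smul_eq_mul]
    intro c hc
    rw [pow_two]
    conv_rhs => rw [← hwc c]
    rw [← Finset.card_product]
    congr 1
    ext x
    simp only [WS, Wc, Finset.mem_filter, Finset.mem_product]
    constructor
    · rintro ⟨⟨⟨⟨h1, h2⟩, h3, h4⟩, h5⟩, h6⟩
      exact ⟨⟨h1, h6⟩, h3, by rw [← h5, h6]⟩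
    · rintro ⟨⟨h1, h2⟩, h3, h4⟩
      exact ⟨⟨⟨⟨h1, by rw [h2]; exact hc⟩, h3, by rw [h4]; exact hc⟩, by rw [h2, h4]⟩, h2⟩
  · intro x hx
    simp only [Finset.mem_coe, Finset.mem_filter, Finset.mem_product, WS] at hx
    exact hx.1.1.2

open scoped Classical in
theorem card_triples (j0 : ι ⊕ ι) (l M h κW : ℕ) (S : Finset (ι ⊕ ι → ZMod l × ZMod l))
    (hwc : ∀ c, (Wc j0 d M h l c).card = κW)
    (Z : Finset ((ι ⊕ ι → ℤ√d) × (ι ⊕ ι → ℤ√d) × (ι ⊕ ι → ℤ√d)))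
    (hZ : ∀ t ∈ Z, t.1 ∈ WS j0 d M h l S ∧ t.2.1 ∈ WS j0 d M h l S ∧ t.2.2 ∈ WS j0 d M h l S ∧
      (cls l t.1 = cls l t.2.1 ∨ cls l t.2.1 = cls l t.2.2 ∨ cls l t.1 = cls l t.2.2)) :
    Z.card ≤ 3 * S.card ^ 2 * κW ^ 3 := by
  set Wm := WS j0 d M h l S with hWm
  set Pp := (Wm ×ˢ Wm).filter (fun t => cls l t.1 = cls l t.2) with hPp
  have hP : Pp.card = S.card * κW ^ 2 := card_pairs j0 l M h κW S hwc
  have hW : Wm.card = S.card * κW := card_WS_of j0 l M h κW S hwc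
  have hsub : Z ⊆ ((Pp ×ˢ Wm).image fun t => (t.1.1, t.1.2, t.2)) ∪
      (((Pp ×ˢ Wm).image fun t => (t.2, t.1.1, t.1.2)) ∪
        ((Pp ×ˢ Wm).image fun t => (t.1.1, t.2, t.1.2))) := by
    intro t ht
    obtain ⟨h1, h2, h3, h4⟩ := hZ t ht
    simp only [Finset.mem_union, Finset.mem_image, Finset.mem_product, hPp, Finset.mem_filter,
      Prod.exists]
    rcases h4 with h | h | h
    · exact Or.inl ⟨t.1, t.2.1, t.2.2, ⟨⟨⟨h1, h2⟩, h⟩, h3⟩, rfl⟩
    · exact Or.inr (Or.inl ⟨t.2.1, t.2.2, t.1, ⟨⟨⟨h2, h3⟩, h⟩, h1⟩, rfl⟩)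
    · exact Or.inr (Or.inr ⟨t.1, t.2.2, t.2.1, ⟨⟨⟨h1, h3⟩, h⟩, h2⟩, rfl⟩)
  have hc : ∀ f : ((ι ⊕ ι → ℤ√d) × (ι ⊕ ι → ℤ√d)) × (ι ⊕ ι → ℤ√d) →
      (ι ⊕ ι → ℤ√d) × (ι ⊕ ι → ℤ√d) × (ι ⊕ ι → ℤ√d),
      ((Pp ×ˢ Wm).image f).card ≤ S.card ^ 2 * κW ^ 3 := by
    intro f
    refine Finset.card_image_le.trans ?_
    rw [Finset.card_product, hP, hW]
    apply le_of_eq
    ring
  calc Z.card ≤ _ := Finset.card_le_card hsub
    _ ≤ _ := Finset.card_union_le _ _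
    _ ≤ S.card ^ 2 * κW ^ 3 + (S.card ^ 2 * κW ^ 3 + S.card ^ 2 * κW ^ 3) := by
        refine Nat.add_le_add (hc _) ((Finset.card_union_le _ _).trans ?_)
        exact Nat.add_le_add (hc _) (hc _)
    _ = 3 * S.card ^ 2 * κW ^ 3 := by ring

theorem card_bad_of (hd : Good d) (j0 : ι ⊕ ι) (l M h Y κW E : ℕ) (w : ℤ√d)
    (S : Finset (ι ⊕ ι → ZMod l × ZMod l)) (hS : Local d l S) (hlw : (l : ℤ√d) ∣ w)
    (hw0 : w ≠ 0) (hE : ∀ c, detCount d Y c ≤ E)
    (hwc : ∀ c, (Wc j0 d M h l c).card = κW) :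
    (bad w (XX j0 d Y M h l S)).card ≤ 3 * E * Y ^ 4 * S.card ^ 2 * κW ^ 3 := by
  classical
  have h1 := card_le_image hd j0 l M h Y E w S hw0 hE (bad w (XX j0 d Y M h l S)) (Finset.Subset.refl _)
  have h2 := card_triples j0 l M h κW S hwc
    ((bad w (XX j0 d Y M h l S)).image fun t => (t.1.2, t.2.1.2, t.2.2.2)) (by
      intro z hz
      rw [Finset.mem_image] at hz
      obtain ⟨t, ht, rfl⟩ := hz
      unfold bad XX at ht
      simp only [Finset.mem_filter, Finset.mem_product] at ht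
      obtain ⟨⟨⟨ha, hza⟩, ⟨hb, hzb⟩, ⟨hc, hzc⟩⟩, -, -, -, hβ⟩ := ht
      refine ⟨hza, hzb, hzc, ?_⟩
      by_contra hcon
      push Not at hcon
      obtain ⟨n1, n2, n3⟩ := hcon
      have hcl : ∀ x ∈ WS j0 d M h l S, cls l x ∈ S := by
        intro x hx
        unfold WS at hx
        rw [Finset.mem_filter] at hx
        exact hx.2
      refine hS _ _ _ (hcl _ hza) (hcl _ hzb) (hcl _ hzc) n1 n2 n3 ?_
      unfold beta at hβ
      have : om (t.2.1.2 - t.1.2) (t.2.2.2 - t.1.2) =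
          -(w * dt t.1.1 t.2.1.1 t.2.2.1) := by
        linear_combination hβ
      rw [this]
      exact (Dvd.dvd.mul_right hlw _).neg_right)
  calc (bad w (XX j0 d Y M h l S)).card ≤ _ := h1
    _ ≤ (Y ^ 4 * E) * (3 * S.card ^ 2 * κW ^ 3) := Nat.mul_le_mul_left _ h2
    _ = 3 * E * Y ^ 4 * S.card ^ 2 * κW ^ 3 := by ring

open scoped Classical in
theorem card_dep_of (hd : Good d) (j0 : ι ⊕ ι) (l M h Y κW E Col : ℕ) (w : ℤ√d)
    (S : Finset (ι ⊕ ι → ZMod l × ZMod l)) (hw0 : w ≠ 0) (hE : ∀ c, detCount d Y c ≤ E)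
    (hwc : ∀ c, (Wc j0 d M h l c).card = κW)
    (hCol : (colTriples (W j0 d M h)).card ≤ Col) :
    ((bad w (XX j0 d Y M h l S)).filter Dep).card ≤ E * Y ^ 4 * (S.card * κW + Col) := by
  have h1 := card_le_image hd j0 l M h Y E w S hw0 hE ((bad w (XX j0 d Y M h l S)).filter Dep)
    (Finset.filter_subset _ _)
  have hsub : (((bad w (XX j0 d Y M h l S)).filter Dep).image
      fun t => (t.1.2, t.2.1.2, t.2.2.2)) ⊆
      ((WS j0 d M h l S).image fun z => (z, z, z)) ∪ colTriples (W j0 d M h) := by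
    intro z hz
    rw [Finset.mem_image] at hz
    obtain ⟨t, ht, rfl⟩ := hz
    rw [Finset.mem_filter] at ht
    obtain ⟨ht, hdep⟩ := ht
    unfold bad XX at ht
    simp only [Finset.mem_filter, Finset.mem_product] at ht
    obtain ⟨⟨⟨ha, hza⟩, ⟨hb, hzb⟩, ⟨hc, hzc⟩⟩, -⟩ := ht
    rw [Finset.mem_union]
    rcases hdep with ⟨e1, e2⟩ | ⟨n1, n2, n3, hpar⟩
    · left
      rw [Finset.mem_image]
      exact ⟨t.1.2, hza, by rw [← e2, ← e1]⟩
    · right
      have hcl : ∀ x ∈ WS j0 d M h l S, x ∈ W j0 d M h := by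
        intro x hx
        unfold WS at hx
        rw [Finset.mem_filter] at hx
        exact hx.1
      unfold colTriples
      simp only [Finset.mem_filter, Finset.mem_product]
      exact ⟨⟨hcl _ hza, hcl _ hzb, hcl _ hzc⟩, n1, n2, n3, hpar⟩
  have h2 : (((bad w (XX j0 d Y M h l S)).filter Dep).image
      fun t => (t.1.2, t.2.1.2, t.2.2.2)).card ≤ S.card * κW + Col := by
    calc _ ≤ _ := Finset.card_le_card hsub
      _ ≤ _ := Finset.card_union_le _ _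
      _ ≤ S.card * κW + Col := by
        refine Nat.add_le_add ?_ hCol
        refine Finset.card_image_le.trans ?_
        rw [card_WS_of j0 l M h κW S hwc]
  calc _ ≤ _ := h1
    _ ≤ (Y ^ 4 * E) * (S.card * κW + Col) := Nat.mul_le_mul_left _ h2
    _ = E * Y ^ 4 * (S.card * κW + Col) := by ring

end

end Vale.Agent.P036.QF
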