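import Mathlib
import Vale.Agent.P036.QF.Basic
import Vale.Agent.P036.QF.D1

/-!
# P036, quadratic ring: the size chain

Three points on a random affine Lagrangian have total symplectic area `β` in the kernel of the
reduction; if `β ≠ 0` then its norm is at least `p`, so the planar area is large.
-/

namespace Vale.Agent.P036.QF

open Finset

variable {ι : Type} [Fintype ι] [DecidableEq ι] {d : ℤ}

/-- a symmetric matrix gives a symmetric bilinear form -/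
theorem sym_dot {κ : Type} [Fintype κ] [DecidableEq κ] {R : Type} [CommRing R]
    (A : Matrix κ κ R) (hA : A.transpose = A) (x y : κ → R) :
    ∑ k, x k * (A.mulVec y) k = ∑ k, (A.mulVec x) k * y k := by
  have h1 : ∑ k, x k * (A.mulVec y) k = x ⬝ᵥ (A.mulVec y) := rfl
  have h2 : ∑ k, (A.mulVec x) k * y k = (A.mulVec x) ⬝ᵥ y := rfl
  rw [h1, h2, Matrix.dotProduct_mulVec, ← Matrix.mulVec_transpose, hA]

omit [DecidableEq ι] in
/-- the reduction of the total symplectic area -/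
theorem phi_beta {p : ℕ} (r : ZMod p) (hr : r * r = (d : ZMod p)) (w : ℤ√d) (P Q R : Pt ι d) :
    phi r hr (beta w (P, Q, R)) =
      ∑ k, ((xi r hr w Q - xi r hr w P) k * (eta r hr R - eta r hr P) k -
        (eta r hr Q - eta r hr P) k * (xi r hr w R - xi r hr w P) k) := by
  rw [Fintype.sum_option]
  simp only [beta, dt, om, map_add, map_mul, map_sub, map_sum, Pi.sub_apply, xi, eta]
  congr 1
  ring

/-- three points on one affine Lagrangian -/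
theorem phi_beta_eq_zero {p : ℕ} (r : ZMod p) (hr : r * r = (d : ZMod p)) (w : ℤ√d)
    (a : Matrix (Option ι) (Option ι) (ZMod p) × (Option ι → ZMod p)) (ha : a.1.transpose = a.1)
    (P Q R : Pt ι d) (hPa : On r hr w a P) (hQa : On r hr w a Q) (hRa : On r hr w a R) :
    phi r hr (beta w (P, Q, R)) = 0 := by
  rw [phi_beta, Finset.sum_sub_distrib, sub_eq_zero]
  unfold On at hPa hQa hRa
  have h1 : eta r hr R - eta r hr P = a.1.mulVec (xi r hr w R - xi r hr w P) := by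
    rw [hPa, hRa, Matrix.mulVec_sub]; abel
  have h2 : eta r hr Q - eta r hr P = a.1.mulVec (xi r hr w Q - xi r hr w P) := by
    rw [hPa, hQa, Matrix.mulVec_sub]; abel
  rw [h1, h2]
  exact sym_dot a.1 ha _ _

theorem mem_box' (Y : ℕ) (x : ℤ√d) :
    x ∈ box d Y ↔ (0 ≤ x.re ∧ x.re < Y) ∧ (0 ≤ x.im ∧ x.im < Y) := by
  simp only [box, Finset.mem_image, Finset.mem_product, Finset.mem_Ico]
  constructor
  · rintro ⟨t, ht, rfl⟩
    exact ht
  · intro h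
    exact ⟨(x.re, x.im), h, rfl⟩

theorem box_sub_bounds (hd : Good d) (Y : ℕ) (x y : ℤ√d) (hx : x ∈ box d Y) (hy : y ∈ box d Y) :
    |s1 d (x - y)| ≤ 4 * Y ∧ |s2 d (x - y)| ≤ 4 * Y := by
  rw [mem_box'] at hx hy
  have e1 : |((x - y).re : ℝ)| ≤ Y := by
    rw [Zsqrtd.re_sub, ← Int.cast_abs]
    have : |x.re - y.re| ≤ (Y : ℤ) := by rw [abs_le]; constructor <;> omega
    exact_mod_cast this
  have e2 : |((x - y).im : ℝ)| ≤ Y := by
    rw [Zsqrtd.im_sub, ← Int.cast_abs]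
    have : |x.im - y.im| ≤ (Y : ℤ) := by rw [abs_le]; constructor <;> omega
    exact_mod_cast this
  have hY : (0 : ℝ) ≤ Y := Nat.cast_nonneg Y
  constructor
  · refine (abs_s1_le hd.le_six _).trans ?_
    linarith
  · refine (abs_s2_le hd.le_six _).trans ?_
    linarith

/-- the planar determinant in the second embedding -/
theorem abs_s2_dt_le (hd : Good d) (Y : ℕ) (a b c : ℤ√d × ℤ√d)
    (ha : a.1 ∈ box d Y ∧ a.2 ∈ box d Y) (hb : b.1 ∈ box d Y ∧ b.2 ∈ box d Y)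
    (hc : c.1 ∈ box d Y ∧ c.2 ∈ box d Y) : |s2 d (dt a b c)| ≤ 32 * (Y : ℝ) ^ 2 := by
  unfold dt
  rw [s2_sub, s2_mul hd.pos.le, s2_mul hd.pos.le]
  have h1 := (box_sub_bounds hd Y b.1 a.1 hb.1 ha.1).2
  have h2 := (box_sub_bounds hd Y c.2 a.2 hc.2 ha.2).2
  have h3 := (box_sub_bounds hd Y b.2 a.2 hb.2 ha.2).2
  have h4 := (box_sub_bounds hd Y c.1 a.1 hc.1 ha.1).2
  refine (abs_sub _ _).trans ?_
  rw [abs_mul, abs_mul]
  have hY : (0 : ℝ) ≤ 4 * Y := by positivity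
  have e1 := mul_le_mul h1 h2 (abs_nonneg _) hY
  have e2 := mul_le_mul h3 h4 (abs_nonneg _) hY
  linarith

omit [DecidableEq ι] in
/-- the internal symplectic form in both embeddings -/
theorem abs_om_le (hd : Good d) (B : ℝ) (hB : 0 ≤ B) (u v : ι ⊕ ι → ℤ√d)
    (hu : ∀ j, |s1 d (u j)| ≤ B ∧ |s2 d (u j)| ≤ B) (hv : ∀ j, |s1 d (v j)| ≤ B ∧ |s2 d (v j)| ≤ B) :
    |s1 d (om u v)| ≤ 2 * (Fintype.card ι : ℝ) * B ^ 2 ∧
      |s2 d (om u v)| ≤ 2 * (Fintype.card ι : ℝ) * B ^ 2 := by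
  have key : ∀ φ : ℤ√d →+* ℝ, (∀ j, |φ (u j)| ≤ B) → (∀ j, |φ (v j)| ≤ B) →
      |φ (om u v)| ≤ 2 * (Fintype.card ι : ℝ) * B ^ 2 := by
    intro φ h1 h2
    unfold om
    rw [map_sum]
    refine (Finset.abs_sum_le_sum_abs _ _).trans ?_
    have h3 : ∀ i ∈ (univ : Finset ι),
        |φ (u (.inl i) * v (.inr i) - u (.inr i) * v (.inl i))| ≤ 2 * B ^ 2 := by
      intro i _
      rw [map_sub, map_mul, map_mul]
      refine (abs_sub _ _).trans ?_
      rw [abs_mul, abs_mul]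
      have e1 := mul_le_mul (h1 (.inl i)) (h2 (.inr i)) (abs_nonneg _) hB
      have e2 := mul_le_mul (h1 (.inr i)) (h2 (.inl i)) (abs_nonneg _) hB
      linarith
    refine (Finset.sum_le_sum h3).trans (le_of_eq ?_)
    rw [Finset.sum_const, nsmul_eq_mul, Finset.card_univ]
    ring
  exact ⟨key (s1Hom hd.pos.le) (fun j => (hu j).1) (fun j => (hv j).1),
    key (s2Hom hd.pos.le) (fun j => (hu j).2) (fun j => (hv j).2)⟩

/-- the size chain, with the window bounds as hypotheses -/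
theorem area_bound_aux {p : ℕ} (r : ZMod p) (hr : r * r = (d : ZMod p)) (hd : Good d)
    (M Y : ℕ) (w : ℤ√d)
    (hB : 512 * (Fintype.card ι : ℝ) * M ^ 2 *
      (32 * |s2 d w| * Y ^ 2 + 512 * (Fintype.card ι : ℝ) * M ^ 2) ≤ p / 2)
    (a : Matrix (Option ι) (Option ι) (ZMod p) × (Option ι → ZMod p)) (ha : a.1.transpose = a.1)
    (P Q R : Pt ι d) (hP : P.1.1 ∈ box d Y ∧ P.1.2 ∈ box d Y)
    (hQ : Q.1.1 ∈ box d Y ∧ Q.1.2 ∈ box d Y) (hR : R.1.1 ∈ box d Y ∧ R.1.2 ∈ box d Y)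
    (hQP : ∀ j, |s1 d ((Q.2 - P.2) j)| ≤ 16 * M ∧ |s2 d ((Q.2 - P.2) j)| ≤ 16 * M)
    (hRP : ∀ j, |s1 d ((R.2 - P.2) j)| ≤ 16 * M ∧ |s2 d ((R.2 - P.2) j)| ≤ 16 * M)
    (hPa : On r hr w a P) (hQa : On r hr w a Q)
    (hRa : On r hr w a R) (hβ : beta w (P, Q, R) ≠ 0) :
    (p : ℝ) / 2 ≤ (32 * |s2 d w| * Y ^ 2 + 512 * (Fintype.card ι : ℝ) * M ^ 2) *
      (|s1 d w| * |s1 d (dt P.1 Q.1 R.1)|) := by
  have h0 := phi_beta_eq_zero r hr w a ha P Q R hPa hQa hRa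
  have h1 := prime_le_mul hd hr h0 hβ
  have h2 := abs_om_le hd (16 * (M : ℝ)) (by positivity) (Q.2 - P.2) (R.2 - P.2) hQP hRP
  have e : 2 * (Fintype.card ι : ℝ) * (16 * (M : ℝ)) ^ 2 = 512 * (Fintype.card ι : ℝ) * M ^ 2 := by
    ring
  rw [e] at h2
  have h3 := abs_s2_dt_le hd Y P.1 Q.1 R.1 hP hQ hR
  set B := 512 * (Fintype.card ι : ℝ) * (M : ℝ) ^ 2 with hBdef
  have hB0 : 0 ≤ B := by positivity
  have e1 : |s1 d (beta w (P, Q, R))| ≤ |s1 d w| * |s1 d (dt P.1 Q.1 R.1)| + B := by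
    unfold beta
    rw [s1_add, s1_mul hd.pos.le]
    refine (abs_add_le _ _).trans ?_
    rw [abs_mul]
    exact add_le_add le_rfl h2.1
  have e2 : |s2 d (beta w (P, Q, R))| ≤ 32 * |s2 d w| * Y ^ 2 + B := by
    unfold beta
    rw [s2_add, s2_mul hd.pos.le]
    refine (abs_add_le _ _).trans ?_
    rw [abs_mul]
    have := mul_le_mul_of_nonneg_left h3 (abs_nonneg (s2 d w))
    have h4 := h2.2
    simp only at *
    linarith
  set D := 32 * |s2 d w| * (Y : ℝ) ^ 2 + B with hD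
  have hD0 : 0 ≤ D := by positivity
  have e3 : (p : ℝ) ≤ (|s1 d w| * |s1 d (dt P.1 Q.1 R.1)| + B) * D :=
    h1.trans (mul_le_mul e1 e2 (abs_nonneg _) (by positivity))
  have e4 : (|s1 d w| * |s1 d (dt P.1 Q.1 R.1)| + B) * D =
      D * (|s1 d w| * |s1 d (dt P.1 Q.1 R.1)|) + B * D := by ring
  rw [e4] at e3
  linarith

theorem mem_XX {j0 : ι ⊕ ι} {Y M h l : ℕ} {S : Finset (ι ⊕ ι → ZMod l × ZMod l)} {P : Pt ι d} :
    P ∈ XX j0 d Y M h l S ↔
      (P.1.1 ∈ box d Y ∧ P.1.2 ∈ box d Y) ∧ P.2 ∈ W j0 d M h ∧ cls l P.2 ∈ S := by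
  simp only [XX, WS, Finset.mem_product, Finset.mem_filter]

section final
variable {p : ℕ} [Fact p.Prime] (r : ZMod p) (hr : r * r = (d : ZMod p))

/-- the size chain -/
theorem area_bound (hd : Good d) (j0 : ι ⊕ ι) (l M h Y : ℕ) (w : ℤ√d)
    (S : Finset (ι ⊕ ι → ZMod l × ZMod l)) (hM0 : 0 < M) (hhM : h ≤ M)
    (hB : 512 * (Fintype.card ι : ℝ) * M ^ 2 *
      (32 * |s2 d w| * Y ^ 2 + 512 * (Fintype.card ι : ℝ) * M ^ 2) ≤ p / 2)
    (a : Matrix (Option ι) (Option ι) (ZMod p) × (Option ι → ZMod p)) (ha : a.1.transpose = a.1)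
    (P Q R : Pt ι d) (hP : P ∈ XX j0 d Y M h l S) (hQ : Q ∈ XX j0 d Y M h l S)
    (hR : R ∈ XX j0 d Y M h l S) (hPa : On r hr w a P) (hQa : On r hr w a Q)
    (hRa : On r hr w a R) (hβ : beta w (P, Q, R) ≠ 0) :
    (p : ℝ) / 2 ≤ (32 * |s2 d w| * Y ^ 2 + 512 * (Fintype.card ι : ℝ) * M ^ 2) *
      (|s1 d w| * |s1 d (dt P.1 Q.1 R.1)|) := by
  rw [mem_XX] at hP hQ hR
  exact area_bound_aux r hr hd M Y w hB a ha P Q R hP.1 hQ.1 hR.1
    (fun j => window_bounds hd j0 M h hM0 hhM _ _ hQ.2.1 hP.2.1 j)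
    (fun j => window_bounds hd j0 M h hM0 hhM _ _ hR.2.1 hP.2.1 j) hPa hQa hRa hβ

end final

end Vale.Agent.P036.QF
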