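import Vale.Agent.P036.QF.K1
import Vale.Agent.P036.QF.K3
import Vale.Agent.P036.QF.G

/-!
# Block K4: the core (random Lagrangian, alteration, geometry)
-/

namespace Vale.Agent.P036.QF
open Finset

/-- double counting -/
theorem sum_card_filter_comm {A B : Type} (s : Finset A) (t : Finset B) (R : A → B → Prop)
    [∀ a, DecidablePred (R a)] [∀ b, DecidablePred fun a => R a b] :
    ∑ a ∈ s, (t.filter (R a)).card = ∑ b ∈ t, (s.filter fun a => R a b).card := by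
  simp only [card_filter]
  rw [sum_comm]

variable {ι : Type} [Fintype ι] [DecidableEq ι] {d : ℤ}

open scoped Classical in
/-- the selection step -/
theorem select {p : ℕ} [Fact p.Prime] (r : ZMod p) (hr : r * r = (d : ZMod p)) (w : ℤ√d)
    (X : Finset (Pt ι d)) (K n NB ND : ℕ) (hK : 0 < K)
    (h1 : ∀ P : Pt ι d, ((Sym (Option ι) p ×ˢ (univ : Finset (Option ι → ZMod p))).filter
      fun a => On r hr w a P).card = (Sym (Option ι) p).card)
    (h2 : ∀ t ∈ bad w X, ((Sym (Option ι) p ×ˢ (univ : Finset (Option ι → ZMod p))).filter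
      fun a => On r hr w a t.1 ∧ On r hr w a t.2.1 ∧ On r hr w a t.2.2).card
        * p ^ (Fintype.card ι + 1) ≤ (Sym (Option ι) p).card)
    (h3 : ∀ t ∈ bad w X, ¬ Dep t →
      ((Sym (Option ι) p ×ˢ (univ : Finset (Option ι → ZMod p))).filter
      fun a => On r hr w a t.1 ∧ On r hr w a t.2.1 ∧ On r hr w a t.2.2).card
        * p ^ (2 * Fintype.card ι + 1) ≤ (Sym (Option ι) p).card)
    (hNB : (bad w X).card ≤ NB) (hND : ((bad w X).filter Dep).card ≤ ND)
    (hmain : n * K ^ 3 * p ^ (3 * Fintype.card ι + 2) + NB + ND * p ^ Fintype.card ι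
        ≤ K ^ 2 * X.card * p ^ (2 * Fintype.card ι + 1)) :
    ∃ a : Matrix (Option ι) (Option ι) (ZMod p) × (Option ι → ZMod p), a.1.transpose = a.1 ∧
      ∃ Y ⊆ X, Y.card = n ∧ (∀ P ∈ Y, On r hr w a P) ∧
        ∀ t ∈ bad w X, ¬ (t.1 ∈ Y ∧ t.2.1 ∈ Y ∧ t.2.2 ∈ Y) := by
  set m := Fintype.card ι with hm
  set s := (Sym (Option ι) p).card with hs
  set Λ := Sym (Option ι) p ×ˢ (univ : Finset (Option ι → ZMod p)) with hΛ
  have hp0 : 0 < p := (Fact.out : p.Prime).pos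
  have hSne : (Sym (Option ι) p).Nonempty := ⟨0, by simp [Sym]⟩
  have hs0 : 0 < s := hSne.card_pos
  have hΛc : Λ.card = s * p ^ (m + 1) := by
    rw [hΛ, card_product, card_univ, Fintype.card_fun, ZMod.card, Fintype.card_option]
  have hΛne : Λ.Nonempty := hSne.product univ_nonempty
  have e1 : ∑ a ∈ Λ, (X.filter (On r hr w a)).card = X.card * s := by
    rw [sum_card_filter_comm Λ X (On r hr w), ← smul_eq_mul, ← sum_const]
    exact sum_congr rfl fun P _ => h1 P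
  have e2 : ∑ a ∈ Λ, ((bad w X).filter fun t => t.1 ∈ X.filter (On r hr w a) ∧
      t.2.1 ∈ X.filter (On r hr w a) ∧ t.2.2 ∈ X.filter (On r hr w a)).card ≤
      ∑ t ∈ bad w X, (Λ.filter fun a =>
        On r hr w a t.1 ∧ On r hr w a t.2.1 ∧ On r hr w a t.2.2).card := by
    rw [← sum_card_filter_comm Λ (bad w X) (fun a t =>
      On r hr w a t.1 ∧ On r hr w a t.2.1 ∧ On r hr w a t.2.2)]
    refine sum_le_sum fun a _ => card_le_card fun t ht => ?_
    simp only [mem_filter] at ht ⊢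
    exact ⟨ht.1, ht.2.1.2, ht.2.2.1.2, ht.2.2.2.2⟩
  have e3 : (∑ t ∈ bad w X, (Λ.filter fun a =>
        On r hr w a t.1 ∧ On r hr w a t.2.1 ∧ On r hr w a t.2.2).card) * p ^ (2 * m + 1) ≤
      s * (NB + ND * p ^ m) := by
    rw [← sum_filter_add_sum_filter_not (bad w X) Dep, add_mul, sum_mul, sum_mul]
    have f1 : ∑ t ∈ (bad w X).filter Dep, (Λ.filter fun a =>
        On r hr w a t.1 ∧ On r hr w a t.2.1 ∧ On r hr w a t.2.2).card * p ^ (2 * m + 1) ≤
        ND * (s * p ^ m) := by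
      refine (sum_le_card_nsmul _ _ (s * p ^ m) fun t ht => ?_).trans ?_
      · have := h2 t (mem_filter.1 ht).1
        calc _ = (Λ.filter fun a =>
              On r hr w a t.1 ∧ On r hr w a t.2.1 ∧ On r hr w a t.2.2).card * p ^ (m + 1) *
                p ^ m := by rw [mul_assoc, ← pow_add]; congr 2; omega
          _ ≤ s * p ^ m := Nat.mul_le_mul_right _ this
      · rw [smul_eq_mul]
        exact Nat.mul_le_mul_right _ hND
    have f2 : ∑ t ∈ (bad w X).filter (fun t => ¬ Dep t), (Λ.filter fun a =>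
        On r hr w a t.1 ∧ On r hr w a t.2.1 ∧ On r hr w a t.2.2).card * p ^ (2 * m + 1) ≤
        NB * s := by
      refine (sum_le_card_nsmul _ _ s fun t ht => ?_).trans ?_
      · exact h3 t (mem_filter.1 ht).1 (mem_filter.1 ht).2
      · rw [smul_eq_mul]
        exact Nat.mul_le_mul_right _ ((card_filter_le _ _).trans hNB)
    calc _ ≤ ND * (s * p ^ m) + NB * s := add_le_add f1 f2
      _ = _ := by ring
  have key : n * K ^ 3 * Λ.card + ∑ a ∈ Λ, ((bad w X).filter fun t =>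
      t.1 ∈ X.filter (On r hr w a) ∧ t.2.1 ∈ X.filter (On r hr w a) ∧
        t.2.2 ∈ X.filter (On r hr w a)).card ≤
      K ^ 2 * ∑ a ∈ Λ, (X.filter (On r hr w a)).card := by
    refine le_of_mul_le_mul_right ?_ (pow_pos hp0 (2 * m + 1))
    calc _ ≤ (n * K ^ 3 * (s * p ^ (m + 1)) + ∑ t ∈ bad w X, (Λ.filter fun a =>
        On r hr w a t.1 ∧ On r hr w a t.2.1 ∧ On r hr w a t.2.2).card) * p ^ (2 * m + 1) := by
          rw [hΛc]
          exact Nat.mul_le_mul_right _ (Nat.add_le_add_left e2 _)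
      _ = s * (n * K ^ 3 * p ^ (3 * m + 2)) + (∑ t ∈ bad w X, (Λ.filter fun a =>
        On r hr w a t.1 ∧ On r hr w a t.2.1 ∧ On r hr w a t.2.2).card) * p ^ (2 * m + 1) := by
          rw [add_mul]
          congr 1
          rw [show 3 * m + 2 = (m + 1) + (2 * m + 1) by ring, pow_add]
          ring
      _ ≤ s * (n * K ^ 3 * p ^ (3 * m + 2)) + s * (NB + ND * p ^ m) := Nat.add_le_add_left e3 _
      _ = s * (n * K ^ 3 * p ^ (3 * m + 2) + NB + ND * p ^ m) := by ring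
      _ ≤ s * (K ^ 2 * X.card * p ^ (2 * m + 1)) := Nat.mul_le_mul_left _ hmain
      _ = _ := by rw [e1]; ring
  obtain ⟨a, ha, Y, hY, hYn, hYb⟩ := alteration Λ hΛne X (fun a => X.filter (On r hr w a))
    (fun a _ => filter_subset _ _) (bad w X)
    (fun t ht => by
      simp only [bad, mem_filter] at ht
      exact ⟨ht.2.1, ht.2.2.1, ht.2.2.2.1⟩) K n hK key
  refine ⟨a, ?_, Y, hY.trans (filter_subset _ _), hYn, fun P hP => (mem_filter.1 (hY hP)).2, hYb⟩
  have := (mem_product.1 ha).1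
  simpa [Sym] using this

open scoped Classical in
/-- the core, from the counts of Lagrangians through given points -/
theorem core_of {p : ℕ} [Fact p.Prime] (r : ZMod p) (hr : r * r = (d : ZMod p))
    (j0 : ι ⊕ ι) (hd : Good d)
    (l M h Y K n E Col κW : ℕ) (w : ℤ√d) (S : Finset (ι ⊕ ι → ZMod l × ZMod l))
    (hS : Local d l S) (hl : 0 < l) (hlM : l ∣ M) (hlh : l ∣ h) (hM0 : 0 < M)
    (hhM : h ≤ M) (hK : 0 < K) (hn : 3 ≤ n)
    (hlw : (l : ℤ√d) ∣ w) (hw0 : w ≠ 0)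
    (h1 : ∀ P : Pt ι d, ((Sym (Option ι) p ×ˢ (univ : Finset (Option ι → ZMod p))).filter
      fun a => On r hr w a P).card = (Sym (Option ι) p).card)
    (h2 : ∀ t ∈ bad w (XX j0 d Y M h l S),
      ((Sym (Option ι) p ×ˢ (univ : Finset (Option ι → ZMod p))).filter
      fun a => On r hr w a t.1 ∧ On r hr w a t.2.1 ∧ On r hr w a t.2.2).card
        * p ^ (Fintype.card ι + 1) ≤ (Sym (Option ι) p).card)
    (h3 : ∀ t ∈ bad w (XX j0 d Y M h l S), ¬ Dep t →
      ((Sym (Option ι) p ×ˢ (univ : Finset (Option ι → ZMod p))).filter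
      fun a => On r hr w a t.1 ∧ On r hr w a t.2.1 ∧ On r hr w a t.2.2).card
        * p ^ (2 * Fintype.card ι + 1) ≤ (Sym (Option ι) p).card)
    (hE : ∀ c, detCount d Y c ≤ E)
    (hκ : κW = (M / l) ^ (4 * Fintype.card ι - 1) * (h / l))
    (hCol : (colTriples (W j0 d M h)).card ≤ Col)
    (hmain : n * K ^ 3 * p ^ (3 * Fintype.card ι + 2) + 3 * E * Y ^ 4 * S.card ^ 2 * κW ^ 3
        + E * Y ^ 4 * (S.card * κW + Col) * p ^ Fintype.card ι
        ≤ K ^ 2 * (Y ^ 4 * (S.card * κW)) * p ^ (2 * Fintype.card ι + 1))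
    (hB : 512 * (Fintype.card ι : ℝ) * M ^ 2 *
      (32 * |s2 d w| * Y ^ 2 + 512 * (Fintype.card ι : ℝ) * M ^ 2) ≤ p / 2) :
    ∃ P : Finset (ℤ√d × ℤ√d), P.card = n ∧ (∀ t ∈ P, t.1 ∈ box d Y ∧ t.2 ∈ box d Y) ∧
      ∀ a ∈ P, ∀ b ∈ P, ∀ c ∈ P, a ≠ b → b ≠ c → a ≠ c →
        (p : ℝ) / 2 ≤ (32 * |s2 d w| * Y ^ 2 + 512 * (Fintype.card ι : ℝ) * M ^ 2) *
          (|s1 d w| * |s1 d (dt a b c)|) := by
  have hXc := (card_XX hd j0 l M h Y κW S hl hlM hlh hM0 hκ).2
  obtain ⟨a, ha, Y', hY', hYn, hYa, hYb⟩ := select r hr w (XX j0 d Y M h l S) K n _ _ hK h1 h2 h3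
    (card_bad hd j0 l M h Y κW E w S hS hl hlM hlh hM0 hlw hw0 hE hκ)
    (card_dep hd j0 l M h Y κW E Col w S hl hlM hlh hM0 hw0 hE hκ hCol)
    (by rw [hXc]; exact hmain)
  have hp0 : (0:ℝ) < p := by exact_mod_cast (Fact.out : p.Prime).pos
  have key : ∀ P ∈ Y', ∀ Q ∈ Y', ∀ R ∈ Y', P ≠ Q → Q ≠ R → P ≠ R →
      (p : ℝ) / 2 ≤ (32 * |s2 d w| * Y ^ 2 + 512 * (Fintype.card ι : ℝ) * M ^ 2) *
          (|s1 d w| * |s1 d (dt P.1 Q.1 R.1)|) := by
    intro P hP Q hQ R hR hPQ hQR hPR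
    refine area_bound r hr hd j0 l M h Y w S hM0 hhM hB a ha P Q R (hY' hP) (hY' hQ) (hY' hR)
      (hYa P hP) (hYa Q hQ) (hYa R hR) ?_
    intro hβ
    refine hYb (P, Q, R) ?_ ⟨hP, hQ, hR⟩
    simp only [bad, mem_filter, mem_product]
    exact ⟨⟨hY' hP, hY' hQ, hY' hR⟩, hPQ, hQR, hPR, hβ⟩
  have hinj : Set.InjOn (fun P : Pt ι d => P.1) Y' := by
    intro P hP Q hQ hPQ
    by_contra hne
    obtain ⟨R, hR, hRne⟩ : ∃ R ∈ Y', R ∉ ({P, Q} : Finset (Pt ι d)) := by
      by_contra hcon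
      push Not at hcon
      have h5 : Y'.card ≤ ({P, Q} : Finset (Pt ι d)).card := card_le_card hcon
      have h6 : ({P, Q} : Finset (Pt ι d)).card ≤ 2 := card_le_two
      omega
    simp only [mem_insert, mem_singleton, not_or] at hRne
    have h7 := key P hP Q hQ R hR hne (Ne.symm hRne.2) (Ne.symm hRne.1)
    have h8 : dt P.1 Q.1 R.1 = 0 := by
      have : P.1 = Q.1 := hPQ
      rw [dt, this]
      ring
    rw [h8] at h7
    have h9 : s1 d (0 : ℤ√d) = 0 := by simp [s1]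
    rw [h9, abs_zero, mul_zero, mul_zero] at h7
    linarith
  refine ⟨Y'.image fun P => P.1, by rw [card_image_of_injOn hinj, hYn], ?_, ?_⟩
  · intro t ht
    obtain ⟨P, hP, rfl⟩ := mem_image.1 ht
    exact (mem_XX.1 (hY' hP)).1
  · intro x hx y hy z hz hxy hyz hxz
    obtain ⟨P, hP, rfl⟩ := mem_image.1 hx
    obtain ⟨Q, hQ, rfl⟩ := mem_image.1 hy
    obtain ⟨R, hR, rfl⟩ := mem_image.1 hz
    exact key P hP Q hQ R hR (fun h => hxy (by rw [h])) (fun h => hyz (by rw [h]))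
      (fun h => hxz (by rw [h]))

end Vale.Agent.P036.QF
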