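import Mathlib.FieldTheory.Finite.GaloisField
import Mathlib.LinearAlgebra.Matrix.Determinant.Basic
import Mathlib.LinearAlgebra.Matrix.ToLin
import Mathlib.RingTheory.Norm.Basic
import Mathlib.NumberTheory.Zsqrtd.Basic
import Mathlib.Data.ZMod.Basic
import Mathlib.Tactic

/-!
The local set over `ℤ√d` modulo a prime `l ≥ 5`: `l ^ 3` points of a symplectic module of fixed
rank such that all symplectic areas of triples of distinct points are nonzero modulo `l`.
-/

namespace Vale.Agent.P036.QF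

open Finset

/-- a function of two variables of rank at most `n` -/
def Rk {X R : Type*} [CommRing R] (n : ℕ) (f : X → X → R) : Prop :=
  ∃ u v : Fin n → X → R, ∀ a b, f a b = ∑ k, u k a * v k b

section
variable {X R : Type*} [CommRing R]

theorem rk_add {n m : ℕ} {f g : X → X → R} (hf : Rk n f) (hg : Rk m g) :
    Rk (n + m) (fun a b => f a b + g a b) := by
  obtain ⟨u, v, h⟩ := hf
  obtain ⟨u', v', h'⟩ := hg
  refine ⟨Fin.append u u', Fin.append v v', fun a b => ?_⟩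
  beta_reduce
  rw [Fin.sum_univ_add, h, h']
  simp

theorem rk_neg {n : ℕ} {f : X → X → R} (hf : Rk n f) : Rk n (fun a b => -f a b) := by
  obtain ⟨u, v, h⟩ := hf
  refine ⟨fun k a => -u k a, v, fun a b => ?_⟩
  simp [h]

theorem rk_mul {n m : ℕ} {f g : X → X → R} (hf : Rk n f) (hg : Rk m g) :
    Rk (n * m) (fun a b => f a b * g a b) := by
  obtain ⟨u, v, h⟩ := hf
  obtain ⟨u', v', h'⟩ := hg
  refine ⟨fun k a => u (finProdFinEquiv.symm k).1 a * u' (finProdFinEquiv.symm k).2 a,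
    fun k a => v (finProdFinEquiv.symm k).1 a * v' (finProdFinEquiv.symm k).2 a, fun a b => ?_⟩
  beta_reduce
  rw [h, h', Finset.sum_mul_sum, ← Fintype.sum_prod_type', ← finProdFinEquiv.symm.sum_comp]
  refine Finset.sum_congr rfl fun k _ => ?_
  ring

theorem rk_sub_entry (w : X → R) : Rk 2 (fun a b => w a - w b) := by
  refine ⟨![w, fun _ => 1], ![fun _ => 1, fun b => -w b], fun a b => ?_⟩
  simp [Fin.sum_univ_two, sub_eq_add_neg]

theorem rk_det3 (A : X → Matrix (Fin 3) (Fin 3) R) : Rk 48 (fun a b => (A a - A b).det) := by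
  have e : ∀ i j, Rk 2 (fun a b => (A a - A b) i j) := by
    intro i j
    simpa [Matrix.sub_apply] using rk_sub_entry (fun a => A a i j)
  have t : ∀ i j k i' j' k', Rk 8 (fun a b => (A a - A b) i j * (A a - A b) k i' *
      (A a - A b) j' k') := by
    intro i j k i' j' k'
    exact rk_mul (rk_mul (e i j) (e k i')) (e j' k')
  have h := rk_add (rk_add (rk_add (rk_add (rk_add (t 0 0 1 1 2 2) (rk_neg (t 0 0 1 2 2 1)))
    (rk_neg (t 0 1 1 0 2 2))) (t 0 1 1 2 2 0)) (t 0 2 1 0 2 1)) (rk_neg (t 0 2 1 1 2 0))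
  have : (fun a b => (A a - A b).det) = (fun a b => (A a - A b) 0 0 * (A a - A b) 1 1 *
      (A a - A b) 2 2 + -((A a - A b) 0 0 * (A a - A b) 1 2 * (A a - A b) 2 1) +
      -((A a - A b) 0 1 * (A a - A b) 1 0 * (A a - A b) 2 2) +
      (A a - A b) 0 1 * (A a - A b) 1 2 * (A a - A b) 2 0 +
      (A a - A b) 0 2 * (A a - A b) 1 0 * (A a - A b) 2 1 +
      -((A a - A b) 0 2 * (A a - A b) 1 1 * (A a - A b) 2 0)) := by
    funext a b
    rw [Matrix.det_fin_three]
    ring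
  rw [this]
  exact h

end

/-- the symplectic form -/
def omm {R : Type*} [CommRing R] {m : ℕ} (u v : (Fin m → R) × (Fin m → R)) : R :=
  ∑ i, (u.1 i * v.2 i - u.2 i * v.1 i)

theorem omm_self {R : Type*} [CommRing R] {m : ℕ} (u : (Fin m → R) × (Fin m → R)) :
    omm u u = 0 := by
  unfold omm
  refine Finset.sum_eq_zero fun i _ => ?_
  ring

theorem omm_sub_sub {R : Type*} [CommRing R] {m : ℕ} (u v w : (Fin m → R) × (Fin m → R)) :
    omm (v - u) (w - u) = omm v w + omm u v + omm w u := by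
  unfold omm
  rw [← Finset.sum_add_distrib, ← Finset.sum_add_distrib]
  refine Finset.sum_congr rfl fun i _ => ?_
  simp only [Prod.fst_sub, Prod.snd_sub, Pi.sub_apply]
  ring

/-- antisymmetric finite rank functions are pulled back from a symplectic form -/
theorem exists_symp {X R : Type*} [CommRing R] {n : ℕ} {f : X → X → R} (hf : Rk n f)
    (hanti : ∀ a b, f b a = -f a b) (h2 : IsUnit (2 : R)) :
    ∃ u v : Fin n → X → R, ∀ a b, ∑ k, (u k a * v k b - v k a * u k b) = f a b := by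
  obtain ⟨u, v, h⟩ := hf
  obtain ⟨c, hc⟩ := h2.exists_right_inv
  refine ⟨fun k a => c * u k a, v, fun a b => ?_⟩
  have e1 : ∑ k, (c * u k a * v k b - v k a * (c * u k b)) = c * (f a b - f b a) := by
    rw [h a b, h b a, ← Finset.sum_sub_distrib, Finset.mul_sum]
    refine Finset.sum_congr rfl fun k _ => ?_
    ring
  rw [e1, hanti a b]
  linear_combination f a b * hc

/-- the matrices of multiplication in the cubic extension of `𝔽_l` -/
theorem exists_matrices (l : ℕ) [Fact l.Prime] :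
    ∃ A : Fin (l ^ 3) → Matrix (Fin 3) (Fin 3) (ZMod l), ∀ a b, a ≠ b → (A a - A b).det ≠ 0 := by
  classical
  let F := GaloisField l 3
  have hfr : Module.finrank (ZMod l) F = 3 := GaloisField.finrank l (by norm_num)
  let b : Module.Basis (Fin 3) (ZMod l) F := Module.finBasisOfFinrankEq (ZMod l) F hfr
  have hcard : Nat.card F = l ^ 3 := GaloisField.card l 3 (by norm_num)
  have : Finite F := Nat.finite_of_card_ne_zero (by
    rw [hcard]; exact pow_ne_zero _ (Fact.out : l.Prime).ne_zero)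
  let e : Fin (l ^ 3) ≃ F := (finCongr hcard.symm).trans (Finite.equivFin F).symm
  refine ⟨fun a => Algebra.leftMulMatrix b (e a), fun x y hxy => ?_⟩
  rw [← map_sub]
  have hne : e x - e y ≠ 0 := sub_ne_zero.mpr (fun h => hxy (e.injective h))
  intro hdet
  have h1 : Algebra.leftMulMatrix b (e x - e y) * Algebra.leftMulMatrix b (e x - e y)⁻¹ = 1 := by
    rw [← map_mul, mul_inv_cancel₀ hne, map_one]
  have h2 := congrArg Matrix.det h1
  rw [Matrix.det_mul, hdet, zero_mul, Matrix.det_one] at h2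
  exact zero_ne_one h2

theorem re_sum {d : ℤ} {ι : Type*} (t : Finset ι) (f : ι → ℤ√d) :
    (∑ i ∈ t, f i).re = ∑ i ∈ t, (f i).re := by
  let h : ℤ√d →+ ℤ := { toFun := Zsqrtd.re, map_zero' := rfl, map_add' := fun _ _ => rfl }
  exact map_sum h f t

theorem im_sum {d : ℤ} {ι : Type*} (t : Finset ι) (f : ι → ℤ√d) :
    (∑ i ∈ t, f i).im = ∑ i ∈ t, (f i).im := by
  let h : ℤ√d →+ ℤ := { toFun := Zsqrtd.im, map_zero' := rfl, map_add' := fun _ _ => rfl }
  exact map_sum h f t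

/-- integer representative in `[0,l)` -/
def lft {l : ℕ} (x : ZMod l) : ℤ := (x.val : ℤ)

theorem lft_cast {l : ℕ} [NeZero l] (x : ZMod l) : ((lft x : ℤ) : ZMod l) = x := by
  unfold lft
  simp

theorem lft_nonneg {l : ℕ} (x : ZMod l) : 0 ≤ lft x := by unfold lft; positivity

theorem lft_lt {l : ℕ} [NeZero l] (x : ZMod l) : lft x < l := by
  unfold lft
  exact_mod_cast ZMod.val_lt x

/-- the local set for an arbitrary label set and a finite rank function `g` -/
theorem local_set_aux {X : Type*} (n1 n2 : ℕ) (d : ℤ) (l : ℕ) (hl : l.Prime) (hl5 : 5 ≤ l)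
    (g : X → X → ZMod l) (hrk : Rk n1 g) (hrk3 : Rk n2 (fun a b => g a b * g a b * g a b))
    (hanti : ∀ a b, g b a = -g a b) (hA : ∀ a b, a ≠ b → g a b ≠ 0) :
    ∃ s : X → (Fin (n1 + n2) → ℤ√d) × (Fin (n1 + n2) → ℤ√d),
      (∀ a b c, a ≠ b → b ≠ c → a ≠ c → ¬ ((l : ℤ√d) ∣ omm (s b - s a) (s c - s a))) ∧
      (∀ a b, a ≠ b → ¬ ((l : ℤ√d) ∣ omm (s a) (s b))) ∧
      (∀ a i, (0 ≤ ((s a).1 i).re ∧ ((s a).1 i).re < l) ∧ (0 ≤ ((s a).1 i).im ∧ ((s a).1 i).im < l) ∧
        (0 ≤ ((s a).2 i).re ∧ ((s a).2 i).re < l) ∧ (0 ≤ ((s a).2 i).im ∧ ((s a).2 i).im < l)) := by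
  have : Fact l.Prime := ⟨hl⟩
  have hanti3 : ∀ a b, g b a * g b a * g b a = -(g a b * g a b * g a b) := by
    intro a b
    rw [hanti a b]
    ring
  have h2 : IsUnit (2 : ZMod l) := by
    rw [isUnit_iff_ne_zero]
    intro h
    have h' : ((2 : ℕ) : ZMod l) = 0 := by exact_mod_cast h
    rw [ZMod.natCast_eq_zero_iff] at h'
    have := Nat.le_of_dvd (by norm_num) h'
    omega
  obtain ⟨u, v, huv⟩ := exists_symp hrk hanti h2
  obtain ⟨u', v', huv'⟩ := exists_symp hrk3 hanti3 h2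
  let s : X → (Fin (n1 + n2) → ℤ√d) × (Fin (n1 + n2) → ℤ√d) :=
    fun a => (Fin.append (fun k => ⟨lft (u k a), 0⟩) (fun k => ⟨0, lft (u' k a)⟩),
      Fin.append (fun k => ⟨lft (v k a), 0⟩) (fun k => ⟨lft (v' k a), 0⟩))
  have hom : ∀ a b, omm (s a) (s b) =
      ⟨∑ k, (lft (u k a) * lft (v k b) - lft (v k a) * lft (u k b)),
       ∑ k, (lft (u' k a) * lft (v' k b) - lft (v' k a) * lft (u' k b))⟩ := by
    intro a b
    unfold omm
    rw [Fin.sum_univ_add]
    simp only [s, Fin.append_left, Fin.append_right]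
    apply Zsqrtd.ext
    · rw [Zsqrtd.re_add, re_sum, re_sum]
      have : ∑ i : Fin n2, ((⟨0, lft (u' i a)⟩ : ℤ√d) * ⟨lft (v' i b), 0⟩ -
          ⟨lft (v' i a), 0⟩ * ⟨0, lft (u' i b)⟩).re = 0 := by
        refine Finset.sum_eq_zero fun i _ => ?_
        simp
      rw [this, add_zero]
      refine Finset.sum_congr rfl fun i _ => ?_
      simp
    · rw [Zsqrtd.im_add, im_sum, im_sum]
      have : ∑ i : Fin n1, ((⟨lft (u i a), 0⟩ : ℤ√d) * ⟨lft (v i b), 0⟩ -
          ⟨lft (v i a), 0⟩ * ⟨lft (u i b), 0⟩).im = 0 := by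
        refine Finset.sum_eq_zero fun i _ => ?_
        simp
      rw [this, zero_add]
      refine Finset.sum_congr rfl fun i _ => ?_
      simp
  have hre : ∀ a b, (((omm (s a) (s b)).re : ℤ) : ZMod l) = g a b := by
    intro a b
    rw [hom, ← huv]
    simp only [Int.cast_sum, Int.cast_sub, Int.cast_mul, lft_cast]
  have him : ∀ a b, (((omm (s a) (s b)).im : ℤ) : ZMod l) = g a b * g a b * g a b := by
    intro a b
    rw [hom, ← huv']
    simp only [Int.cast_sum, Int.cast_sub, Int.cast_mul, lft_cast]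
  have hdvd : ∀ z : ℤ√d, (l : ℤ√d) ∣ z → ((z.re : ℤ) : ZMod l) = 0 ∧ ((z.im : ℤ) : ZMod l) = 0 := by
    intro z hz
    have h1 : ((l : ℤ) : ℤ√d) ∣ z := by simpa using hz
    rw [Zsqrtd.intCast_dvd] at h1
    rw [ZMod.intCast_zmod_eq_zero_iff_dvd, ZMod.intCast_zmod_eq_zero_iff_dvd]
    exact h1
  refine ⟨s, ?_, ?_, ?_⟩
  · intro a b c hab hbc hac hd
    rw [omm_sub_sub] at hd
    obtain ⟨h1, h2⟩ := hdvd _ hd
    simp only [Zsqrtd.re_add, Zsqrtd.im_add, Int.cast_add, hre, him] at h1 h2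
    have e1 := hA b c hbc
    have e2 := hA a b hab
    have e3 := hA c a (Ne.symm hac)
    have key : 3 * (g b c * g a b * g c a) = 0 := by
      have hc : g c a = -(g b c + g a b) := by linear_combination h1
      rw [hc] at h2 ⊢
      linear_combination h2
    have h3 : (3 : ZMod l) ≠ 0 := by
      intro h
      have h' : ((3 : ℕ) : ZMod l) = 0 := by exact_mod_cast h
      rw [ZMod.natCast_eq_zero_iff] at h'
      have := Nat.le_of_dvd (by norm_num) h'
      omega
    rcases mul_eq_zero.mp key with h | h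
    · exact h3 h
    · rcases mul_eq_zero.mp h with h | h
      · rcases mul_eq_zero.mp h with h | h
        · exact e1 h
        · exact e2 h
      · exact e3 h
  · intro a b hab hd
    obtain ⟨h1, h2⟩ := hdvd _ hd
    rw [hre] at h1
    exact hA a b hab h1
  · intro a i
    have hl0 : (0 : ℤ) < l := by exact_mod_cast hl.pos
    refine Fin.addCases (fun k => ?_) (fun k => ?_) i
    · simp only [s, Fin.append_left]
      exact ⟨⟨lft_nonneg _, lft_lt _⟩, ⟨le_rfl, hl0⟩, ⟨lft_nonneg _, lft_lt _⟩, ⟨le_rfl, hl0⟩⟩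
    · simp only [s, Fin.append_right]
      exact ⟨⟨le_rfl, hl0⟩, ⟨lft_nonneg _, lft_lt _⟩, ⟨lft_nonneg _, lft_lt _⟩, ⟨le_rfl, hl0⟩⟩

/-- The local set over `ℤ√d`: `m` does not depend on the prime `l`. -/
theorem local_set_qf : ∃ m : ℕ, 0 < m ∧ ∀ (d : ℤ) (l : ℕ), l.Prime → 5 ≤ l →
    ∃ s : Fin (l ^ 3) → (Fin m → ℤ√d) × (Fin m → ℤ√d),
      (∀ a b c, a ≠ b → b ≠ c → a ≠ c → ¬ ((l : ℤ√d) ∣ omm (s b - s a) (s c - s a))) ∧
      (∀ a b, a ≠ b → ¬ ((l : ℤ√d) ∣ omm (s a) (s b))) ∧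
      (∀ a i, (0 ≤ ((s a).1 i).re ∧ ((s a).1 i).re < l) ∧ (0 ≤ ((s a).1 i).im ∧ ((s a).1 i).im < l) ∧
        (0 ≤ ((s a).2 i).re ∧ ((s a).2 i).re < l) ∧ (0 ≤ ((s a).2 i).im ∧ ((s a).2 i).im < l)) := by
  obtain ⟨n2, hn2⟩ : ∃ n2 : ℕ, n2 = 48 * 48 * 48 := ⟨_, rfl⟩
  refine ⟨48 + n2, by omega, ?_⟩
  intro d l hl hl5
  have : Fact l.Prime := ⟨hl⟩
  obtain ⟨A, hA⟩ := exists_matrices l
  have hrk : Rk 48 (fun a b => (A a - A b).det) := rk_det3 A
  have hrk3 : Rk n2 (fun a b => (A a - A b).det * (A a - A b).det * (A a - A b).det) := by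
    rw [hn2]
    exact rk_mul (rk_mul hrk hrk) hrk
  refine local_set_aux 48 n2 d l hl hl5 (fun a b => (A a - A b).det) hrk hrk3 ?_ hA
  intro a b
  beta_reduce
  rw [← neg_sub, Matrix.det_neg, Fintype.card_fin]
  ring

end Vale.Agent.P036.QF
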